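import Vale.Agent.P014D.Cnt
import Vale.Agent.P014B.Iface

/-!
# P014 (D): genus characters and the statement `CountStmt`
-/

open NumberField Complex
open scoped Classical Real

namespace Vale.Agent.P014D

open Vale.Agent.P017.H185 Vale.Agent.P014.H70 Vale.Agent.P014B
open Vale.Agent.P004H.H204 (qq)

variable {K : Type} [Field K] [NumberField K] {n : ℕ} {q : QF K n}

theorem exists_rep_odd (q : QF K n) : ∃ R : Rep q, ∀ c, Odd (R.a c) := by
  have h : ∀ c : ClassGroup (𝓞 K), ∃ I, I ≠ ⊥ ∧ cl I = c ∧ Nat.Coprime (NI q I) (2 * (17 * n)) :=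
    fun c => exists_rep q c (by have := q.d_pos; omega)
  choose X h1 h2 h3 using h
  refine ⟨⟨X, fun c => NI q (X c), fun c => Nat.pos_of_ne_zero (NI_ne_zero q (h1 c)),
    fun c => hasN_NI q _, fun c => Nat.Coprime.coprime_mul_left_right (h3 c),
    fun c => ⟨mem_nonZeroDivisors_of_ne_zero (h1 c), ?_⟩⟩, fun c => ?_⟩
  · rw [← cl_eq, h2]
  · exact Nat.coprime_two_right.mp (Nat.Coprime.coprime_mul_right_right (h3 c))

theorem rep_nonempty (q : QF K n) : Nonempty (Rep q) := ⟨(exists_rep_odd q).choose⟩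

variable (R : Rep q)

theorem rep_NI (c : ClassGroup (𝓞 K)) : NI q (R.X c) = R.a c := NI_eq q (R.hX c)

theorem rep_ne (c : ClassGroup (𝓞 K)) : R.X c ≠ ⊥ :=
  ne_bot_of_NI q (by rw [rep_NI]; exact (R.ha c).ne')

theorem rep_cl (c : ClassGroup (𝓞 K)) : cl (R.X c) = c := by
  obtain ⟨h, h2⟩ := R.hcl c
  rw [cl_eq h, h2]

theorem rep_cop (c : ClassGroup (𝓞 K)) : Nat.Coprime (R.a c) n :=
  Nat.Coprime.coprime_mul_left_right (R.hcop c)

theorem rep_cop' (c : ClassGroup (𝓞 K)) {e : ℕ} (he : e ∣ n) : Nat.Coprime (R.a c) e :=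
  Nat.Coprime.coprime_dvd_right he (rep_cop R c)

theorem chi_cases {e : ℕ} (he : e ∣ n) (c : ClassGroup (𝓞 K)) :
    R.chi e c = 1 ∨ R.chi e c = -1 :=
  J_cases (by rw [Int.natAbs_natCast]; exact rep_cop' R c he)

theorem chi_sq {e : ℕ} (he : e ∣ n) (c : ClassGroup (𝓞 K)) : R.chi e c * R.chi e c = 1 := by
  rcases chi_cases R he c with h | h <;> rw [h] <;> norm_num

theorem chi_mul_right {e f : ℕ} (he : e ≠ 0) (hf : f ≠ 0) (c : ClassGroup (𝓞 K)) :
    R.chi (e * f) c = R.chi e c * R.chi f c :=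
  jacobiSym.mul_right' _ he hf

theorem chi_one_left (c : ClassGroup (𝓞 K)) : R.chi 1 c = 1 := jacobiSym.one_right _

variable (hn4 : n % 4 = 3)

include hn4

theorem chi_eq {e : ℕ} (he : e ∣ n) {I : Ideal (𝓞 K)} (hI : I ≠ ⊥)
    (h : Nat.Coprime (NI q I) e) : R.chi e (cl I) = jacobiSym (NI q I) e := by
  unfold Rep.chi
  rw [← rep_NI]
  exact J_cl q hn4 he (rep_ne R _) hI (rep_cl R _) (by rw [rep_NI]; exact rep_cop' R _ he) h

theorem chi_mul {e : ℕ} (he : e ∣ n) (c d : ClassGroup (𝓞 K)) :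
    R.chi e (c * d) = R.chi e c * R.chi e d := by
  have h := chi_eq R hn4 he (mul_ne_zero (rep_ne R c) (rep_ne R d)) (by
    rw [NI_mul, rep_NI, rep_NI]
    exact Nat.Coprime.mul_left (rep_cop' R c he) (rep_cop' R d he))
  rw [cl_mul (rep_ne R c) (rep_ne R d), rep_cl, rep_cl, NI_mul, rep_NI, rep_NI, Nat.cast_mul,
    jacobiSym.mul_left] at h
  exact h

theorem chi_one {e : ℕ} (he : e ∣ n) : R.chi e 1 = 1 := by
  have h := chi_mul R hn4 he 1 1
  rw [mul_one, chi_sq R he] at h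
  exact h

theorem chi_inv {e : ℕ} (he : e ∣ n) (c : ClassGroup (𝓞 K)) : R.chi e c⁻¹ = R.chi e c := by
  have h := chi_mul R hn4 he c c⁻¹
  rw [mul_inv_cancel, chi_one R hn4 he] at h
  rcases chi_cases R he c with h1 | h1 <;> rw [h1] at h ⊢ <;> linarith

theorem chi_n (c : ClassGroup (𝓞 K)) : R.chi n c = 1 :=
  J_NI q hn4 _ _ (rep_NI R c) (rep_cop R c)

theorem chi_compl {n₁ n₂ : ℕ} (h : n₁ * n₂ = n) (c : ClassGroup (𝓞 K)) :
    R.chi n₁ c = R.chi n₂ c := by
  have h0 : n₁ * n₂ ≠ 0 := h ▸ q.d_pos.ne'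
  have h1 := chi_mul_right R (left_ne_zero_of_mul h0) (right_ne_zero_of_mul h0) c
  rw [h, chi_n R hn4] at h1
  rcases chi_cases R (e := n₂) ⟨n₁, by rw [← h, mul_comm]⟩ c with h2 | h2 <;>
    rw [h2] at h1 ⊢ <;> linarith

theorem sum_TI {n₁ n₂ : ℕ} (h : n₁ * n₂ = n) {m : ℕ} (hm : m ≠ 0) :
    ∑ J ∈ TI q m, R.chi n₁ (cl J) = conv n₁ n₂ m := by
  have he1 : n₁ ∣ n := ⟨n₂, h.symm⟩
  have he2 : n₂ ∣ n := ⟨n₁, by rw [← h, mul_comm]⟩
  have h0 : n₁ * n₂ ≠ 0 := h ▸ q.d_pos.ne'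
  have : NeZero n₁ := ⟨left_ne_zero_of_mul h0⟩
  have : NeZero n₂ := ⟨right_ne_zero_of_mul h0⟩
  have hcop : Nat.Coprime n₁ n₂ := Nat.coprime_of_squarefree_mul (h ▸ q.hd)
  have hf : ∀ I J : Ideal (𝓞 K), I ≠ ⊥ → J ≠ ⊥ →
      R.chi n₁ (cl (I * J)) = R.chi n₁ (cl I) * R.chi n₁ (cl J) := by
    intro I J hI hJ
    rw [cl_mul hI hJ, chi_mul R hn4 he1]
  have hf1 : ∀ x : 𝓞 K, R.chi n₁ (cl (Ideal.span {x})) = 1 := by
    intro x
    rw [cl_span, chi_one R hn4 he1]
  have hz : ∀ {p e : ℕ} [NeZero e], p.Prime → p ∣ e → jacobiSym p e = 0 := by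
    intro p e _ hp hpe
    rw [jacobiSym.eq_zero_iff_not_coprime, Int.gcd_natCast_natCast, Nat.gcd_eq_left hpe]
    exact hp.one_lt.ne'
  refine rec_unique (F := fun m => ∑ J ∈ TI q m, R.chi n₁ (cl J))
    (G := cv (fun a => jacobiSym a n₁) (fun a => jacobiSym a n₂))
    (α := fun p => jacobiSym p n₁ + jacobiSym p n₂)
    (β := fun p => jacobiSym p n₁ * jacobiSym p n₂) ?_ ?_ ?_ m hm
  · rw [cv_one (by simp) (by simp)]
    show ∑ J ∈ TI q 1, R.chi n₁ (cl J) = 1
    rw [TI_one, Finset.sum_singleton, ← Ideal.span_singleton_one, hf1]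
  · intro p m hp hm
    have hJ : jacobiSym p n = jacobiSym p n₁ * jacobiSym p n₂ := by
      rw [← h, jacobiSym.mul_right]
    by_cases hpn : p ∣ n
    · obtain ⟨P, hP, hP2⟩ := exists_ram q hpn
      have hP0 : P ≠ ⊥ := ne_bot_of_NI q (hP ▸ hp.ne_zero)
      rw [sum_ram q hf hp hP hP2 hm]
      rcases (Nat.Prime.dvd_mul hp).mp (h ▸ hpn : p ∣ n₁ * n₂) with h1 | h1
      · have h2 : Nat.Coprime p n₂ := Nat.Coprime.coprime_dvd_left h1 hcop
        rw [hz hp h1, chi_compl R hn4 h, chi_eq R hn4 he2 hP0 (hP ▸ h2), hP]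
        simp only [chi_compl R hn4 h]
        ring
      · have h2 : Nat.Coprime p n₁ := Nat.Coprime.coprime_dvd_left h1 hcop.symm
        rw [hz hp h1, chi_eq R hn4 he1 hP0 (hP ▸ h2), hP]
        ring
    · have hc : Nat.Coprime p n := (Nat.Prime.coprime_iff_not_dvd hp).mpr hpn
      have hc1 : Nat.Coprime p n₁ := Nat.Coprime.coprime_dvd_right he1 hc
      have hc2 : Nat.Coprime p n₂ := Nat.Coprime.coprime_dvd_right he2 hc
      have j1 := J_cases (a := p) (m := n₁) (by rwa [Int.natAbs_natCast])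
      rcases J_cases (a := p) (m := n) (by rwa [Int.natAbs_natCast]) with h1 | h1
      · obtain ⟨P, hP, hP2⟩ := exists_split q hn4 hp h1
        have hP0 : P ≠ ⊥ := ne_bot_of_NI q (hP ▸ hp.ne_zero)
        rw [sum_split q hf hf1 hp hP hP2 hm, cl_cj, chi_inv R hn4 he1,
          chi_eq R hn4 he1 hP0 (hP ▸ hc1), hP, ← hJ, h1]
        have h3 : jacobiSym p n₂ = jacobiSym p n₁ := by
          rw [h1] at hJ
          rcases j1 with h4 | h4 <;> rw [h4] at hJ ⊢ <;> linarith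
        rw [h3, one_mul]
      · rw [sum_inert q hf hn4 hf1 hp h1 hm, ← hJ, h1]
        have h3 : jacobiSym p n₁ + jacobiSym p n₂ = 0 := by
          rw [h1] at hJ
          rcases j1 with h4 | h4 <;> rw [h4] at hJ ⊢ <;> linarith
        rw [h3]
        ring
  · intro p m hp _
    exact cv_rec (fun a b => by rw [Nat.cast_mul, jacobiSym.mul_left])
      (fun a b => by rw [Nat.cast_mul, jacobiSym.mul_left]) (by simp) (by simp) hp m

omit hn4 in
theorem qq_pow (z : ℂ) (m : ℕ) : qq z ^ m = cexp (2 * π * I * z * m) := by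
  unfold qq
  rw [← Complex.exp_nat_mul]
  congr 1
  ring

omit hn4 in
theorem hasSum_thB {X : Ideal (𝓞 K)} (hX : X ≠ ⊥) {z : ℂ} (hz : 0 < z.im) :
    HasSum (fun m : ℕ => (((EN q (NI q X * m)).filter (fun x => x ∈ X)).card : ℂ) * qq z ^ m)
      (thB q X (NI q X) z) := by
  have ha := NI_ne_zero q hX
  have ha' : (0 : ℝ) < NI q X := by exact_mod_cast Nat.pos_of_ne_zero ha
  set g : 𝓞 K → ℂ := fun x => cexp (2 * π * I * z * ((q.N x : ℝ) / NI q X : ℝ)) with hg
  have hs : Summable g := by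
    refine Summable.of_norm ?_
    have := summable_N q hz (r := (NI q X : ℝ)⁻¹) (inv_pos.mpr ha')
    simpa only [hg, div_eq_mul_inv] using this
  have h1 : thB q X (NI q X) z = ∑' x, (X : Set (𝓞 K)).indicator g x :=
    tsum_subtype (X : Set (𝓞 K)) g
  rw [h1]
  refine (regroup (hs.indicator _) (fun x => q.N x / NI q X)
    (fun m => (EN q (NI q X * m)).filter (fun x => x ∈ X)) ?_ ?_).congr_fun fun m => ?_
  · intro m x hx
    rw [Finset.mem_filter, mem_EN] at hx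
    show q.N x / NI q X = m
    rw [hx.1, Nat.mul_div_cancel_left _ (Nat.pos_of_ne_zero ha)]
  · intro x hx
    have h2 : x ∈ X := by
      by_contra h3
      exact hx (Set.indicator_of_notMem h3 g)
    rw [Finset.mem_filter, mem_EN]
    exact ⟨(Nat.mul_div_cancel' (NI_dvd_N q h2)).symm, h2⟩
  · rw [Finset.card_eq_sum_ones, Nat.cast_sum, Finset.sum_mul]
    refine Finset.sum_congr rfl fun x hx => ?_
    rw [Finset.mem_filter, mem_EN] at hx
    rw [Set.indicator_of_mem hx.2, hg, qq_pow]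
    simp only [hx.1]
    rw [Nat.cast_one, one_mul]
    congr 2
    push_cast
    have : ((NI q X : ℕ) : ℂ) ≠ 0 := by exact_mod_cast ha
    field_simp

theorem count_coeff {n₁ n₂ : ℕ} (h : n₁ * n₂ = n) (m : ℕ) :
    ∑ c, R.chi n₁ c * (((EN q (R.a c * m)).filter (fun x => x ∈ R.X c)).card : ℤ) =
      if m = 0 then ∑ c, R.chi n₁ c else wn n * conv n₁ n₂ m := by
  have he1 : n₁ ∣ n := ⟨n₂, h.symm⟩
  split_ifs with hm
  · subst hm
    refine Finset.sum_congr rfl fun c _ => ?_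
    have : (EN q (R.a c * 0)).filter (fun x => x ∈ R.X c) = {0} := by
      ext x
      rw [Finset.mem_filter, mem_EN, mul_zero, Finset.mem_singleton]
      constructor
      · intro hx
        by_contra h0
        exact q.N_ne_zero h0 hx.1
      · rintro rfl
        exact ⟨N_zero q, Ideal.zero_mem _⟩
    rw [this, Finset.card_singleton, Nat.cast_one, mul_one]
  · rw [← sum_TI R hn4 h hm, ← Finset.sum_fiberwise (s := TI q m) (g := fun J => (cl J)⁻¹),
      Finset.mul_sum]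
    refine Finset.sum_congr rfl fun c _ => ?_
    rw [← rep_NI, card_elts q (rep_ne R c) hm, card_units q hn4, rep_cl]
    have e1 : (TI q m).filter (fun J => (cl J)⁻¹ = c) = (TI q m).filter (fun J => cl J = c⁻¹) := by
      refine Finset.filter_congr fun J _ => ?_
      exact inv_eq_iff_eq_inv
    rw [e1, Finset.sum_congr rfl (g := fun _ => R.chi n₁ c), Finset.sum_const, nsmul_eq_mul]
    · unfold wn
      push_cast
      ring
    · intro J hJ
      rw [(Finset.mem_filter.mp hJ).2, chi_inv R hn4 he1]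

omit hn4 in
/-- **ideal counting with genus characters** -/
theorem count : CountStmt := by
  intro K _ _ n q R hn4
  refine ⟨fun c => chi_n R hn4 c, fun n₁ n₂ h z hz => ?_⟩
  have h1 := hasSum_sum (s := Finset.univ) fun c _ =>
    (hasSum_thB (q := q) (rep_ne R c) hz).mul_left (R.chi n₁ c : ℂ)
  simp only [rep_NI] at h1
  refine h1.congr_fun fun m => ?_
  rw [← count_coeff R hn4 h m]
  push_cast
  rw [Finset.sum_mul]
  refine Finset.sum_congr rfl fun c _ => ?_
  ring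

end Vale.Agent.P014D
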