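import Vale.Agent.P014.H70.R2
import Vale.Agent.P017.H185.Cl2

/-!
# P014 (D): ideals of `ℚ(√-n)`, norms, classes, the residue map modulo `θ`
-/

open NumberField
open scoped Classical

namespace Vale.Agent.P014D

open Vale.Agent.P017.H185 Vale.Agent.P014.H70

variable {K : Type*} [Field K] [NumberField K] {n : ℕ} (q : QF K n)

/-! ### conjugate ideals and norms -/

/-- the conjugate ideal -/
noncomputable def cj (I : Ideal (𝓞 K)) : Ideal (𝓞 K) := I.map q.s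

theorem mem_cj {I : Ideal (𝓞 K)} {z : 𝓞 K} : z ∈ cj q I ↔ q.s z ∈ I := mem_map_iff q

theorem s_mem_cj {I : Ideal (𝓞 K)} {z : 𝓞 K} : q.s z ∈ cj q I ↔ z ∈ I := s_mem_map q

theorem cj_mul (I J : Ideal (𝓞 K)) : cj q (I * J) = cj q I * cj q J := Ideal.map_mul _ _ _

theorem cj_cj (I : Ideal (𝓞 K)) : cj q (cj q I) = I := by
  ext z
  rw [mem_cj, mem_cj, q.s_s]

theorem cj_span (x : 𝓞 K) : cj q (Ideal.span {x}) = Ideal.span {q.s x} := by
  unfold cj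
  rw [Ideal.map_span, Set.image_singleton]

theorem cj_nat (m : ℕ) : cj q (Ideal.span {(m : 𝓞 K)}) = Ideal.span {(m : 𝓞 K)} := by
  rw [cj_span, map_natCast]

theorem cj_bot : cj q ⊥ = ⊥ := Ideal.map_bot

theorem cj_ne_bot {I : Ideal (𝓞 K)} (h : I ≠ ⊥) : cj q I ≠ ⊥ := by
  intro h1
  apply h
  rw [← cj_cj q I, h1, cj_bot]

theorem cj_dvd {I J : Ideal (𝓞 K)} (h : I ∣ J) : cj q I ∣ cj q J := by
  obtain ⟨L, rfl⟩ := h
  rw [cj_mul]
  exact dvd_mul_right _ _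

theorem hasN_bot : q.HasN ⊥ 0 := by
  unfold QF.HasN
  rw [Ideal.bot_mul, Nat.cast_zero, Ideal.span_singleton_eq_bot.mpr rfl]

theorem exists_NI (I : Ideal (𝓞 K)) : ∃ m, q.HasN I m := by
  by_cases h : I = ⊥
  · exact ⟨0, h ▸ hasN_bot q⟩
  · obtain ⟨m, -, hm⟩ := q.exists_hasN h
    exact ⟨m, hm⟩

/-- the norm of an ideal -/
noncomputable def NI (I : Ideal (𝓞 K)) : ℕ := (exists_NI q I).choose

theorem hasN_NI (I : Ideal (𝓞 K)) : q.HasN I (NI q I) := (exists_NI q I).choose_spec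

theorem mul_cj (I : Ideal (𝓞 K)) : I * cj q I = Ideal.span {(NI q I : 𝓞 K)} := hasN_NI q I

theorem NI_eq {I : Ideal (𝓞 K)} {m : ℕ} (h : q.HasN I m) : NI q I = m :=
  q.hasN_unique (hasN_NI q I) h

theorem NI_mul (I J : Ideal (𝓞 K)) : NI q (I * J) = NI q I * NI q J :=
  NI_eq q ((hasN_NI q I).mul (hasN_NI q J))

theorem NI_span (x : 𝓞 K) : NI q (Ideal.span {x}) = q.N x := NI_eq q (q.hasN_span x)

theorem N_nat (m : ℕ) : q.N (m : 𝓞 K) = m * m := by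
  have := Dat.N_int_mul (q := q) (m : ℤ) 1
  have h1 : q.N (1 : 𝓞 K) = 1 := by
    have h := q.mul_s 1
    rw [map_one, mul_one] at h
    exact_mod_cast h.symm
  rw [mul_one, h1, Int.cast_natCast, Nat.cast_one, mul_one] at this
  exact_mod_cast this

theorem N_mul (x y : 𝓞 K) : q.N (x * y) = q.N x * q.N y := by
  rw [← NI_span, ← NI_span, ← NI_span, ← NI_mul, Ideal.span_singleton_mul_span_singleton]

theorem N_s (x : 𝓞 K) : q.N (q.s x) = q.N x := by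
  have h1 := q.mul_s (q.s x)
  rw [q.s_s, mul_comm, q.mul_s] at h1
  exact_mod_cast h1.symm

theorem N_neg (x : 𝓞 K) : q.N (-x) = q.N x := by
  have h1 := q.mul_s (-x)
  rw [map_neg, neg_mul_neg, q.mul_s] at h1
  exact_mod_cast h1.symm

theorem N_zero : q.N (0 : 𝓞 K) = 0 := by
  have := N_nat q 0
  simpa using this

theorem N_one : q.N (1 : 𝓞 K) = 1 := by
  have := N_nat q 1
  simpa using this

theorem N_t : q.N q.t = n := by
  have h1 := q.mul_s q.t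
  rw [q.s_t] at h1
  have h2 := q.t_sq
  have : ((q.N q.t : ℕ) : 𝓞 K) = (n : 𝓞 K) := by linear_combination -h1 - h2
  exact_mod_cast this

theorem NI_nat (m : ℕ) : NI q (Ideal.span {(m : 𝓞 K)}) = m * m := by rw [NI_span, N_nat]

theorem NI_cj (I : Ideal (𝓞 K)) : NI q (cj q I) = NI q I := by
  apply NI_eq
  show cj q I * cj q (cj q I) = _
  rw [cj_cj, mul_comm, mul_cj]

theorem NI_bot : NI q ⊥ = 0 := NI_eq q (hasN_bot q)

theorem NI_ne_zero {I : Ideal (𝓞 K)} (h : I ≠ ⊥) : NI q I ≠ 0 := by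
  obtain ⟨m, hm, h2⟩ := q.exists_hasN h
  rwa [NI_eq q h2]

theorem ne_bot_of_NI {I : Ideal (𝓞 K)} (h : NI q I ≠ 0) : I ≠ ⊥ := by
  rintro rfl
  exact h (NI_bot q)

theorem NI_top : NI q ⊤ = 1 := NI_eq q (hasN_top q)

theorem eq_top_of_NI {I : Ideal (𝓞 K)} (h : NI q I = 1) : I = ⊤ := by
  have := a_mem q (hasN_NI q I)
  rw [h, Nat.cast_one] at this
  exact (Ideal.eq_top_iff_one I).mpr this

theorem NI_dvd {I J : Ideal (𝓞 K)} (h : I ∣ J) : NI q I ∣ NI q J := by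
  obtain ⟨L, rfl⟩ := h
  rw [NI_mul]
  exact dvd_mul_right _ _

theorem NI_mem (I : Ideal (𝓞 K)) : (NI q I : 𝓞 K) ∈ I := a_mem q (hasN_NI q I)

theorem NI_dvd_N {I : Ideal (𝓞 K)} {x : 𝓞 K} (hx : x ∈ I) : NI q I ∣ q.N x :=
  N_dvd q (hasN_NI q I) hx

theorem prime_of_NI {P : Ideal (𝓞 K)} (h : (NI q P).Prime) : Prime P := by
  rw [← UniqueFactorizationMonoid.irreducible_iff_prime]
  refine ⟨?_, ?_⟩
  · intro hu
    rw [Ideal.isUnit_iff] at hu
    rw [hu, NI_top] at h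
    exact Nat.not_prime_one h
  · intro A B hAB
    rw [hAB, NI_mul] at h
    rcases Nat.prime_mul_iff.mp h with ⟨-, h1⟩ | ⟨-, h1⟩
    · right
      rw [Ideal.isUnit_iff]
      exact eq_top_of_NI q h1
    · left
      rw [Ideal.isUnit_iff]
      exact eq_top_of_NI q h1

theorem unit_of_N {u : 𝓞 K} (h : q.N u = 1) : IsUnit u := by
  have := q.mul_s u
  rw [h, Nat.cast_one] at this
  exact IsUnit.of_mul_eq_one _ this

theorem N_of_unit {u : 𝓞 K} (h : IsUnit u) : q.N u = 1 := by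
  obtain ⟨v, hv⟩ := h.exists_right_inv
  have := N_mul q u v
  rw [hv, N_one] at this
  exact Nat.eq_one_of_mul_eq_one_right this.symm

/-! ### classes -/

/-- the class of an ideal -/
noncomputable def cl (I : Ideal (𝓞 K)) : ClassGroup (𝓞 K) :=
  if h : I = ⊥ then 1 else ClassGroup.mk0 ⟨I, mem_nonZeroDivisors_of_ne_zero h⟩

theorem cl_eq {I : Ideal (𝓞 K)} (h : I ∈ nonZeroDivisors (Ideal (𝓞 K))) :
    cl I = ClassGroup.mk0 ⟨I, h⟩ := by
  unfold cl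
  have h0 : I ≠ ⊥ := nonZeroDivisors.ne_zero h
  rw [dif_neg h0]

theorem cl_mul {I J : Ideal (𝓞 K)} (hI : I ≠ ⊥) (hJ : J ≠ ⊥) : cl (I * J) = cl I * cl J := by
  rw [cl_eq (mem_nonZeroDivisors_of_ne_zero hI), cl_eq (mem_nonZeroDivisors_of_ne_zero hJ),
    ← map_mul, cl_eq (mem_nonZeroDivisors_of_ne_zero (mul_ne_zero hI hJ))]
  rfl

theorem cl_span (x : 𝓞 K) : cl (Ideal.span {x}) = 1 := by
  unfold cl
  split_ifs with h
  · rfl
  · rw [ClassGroup.mk0_eq_one_iff]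
    exact ⟨x, rfl⟩

theorem cl_eq_one {I : Ideal (𝓞 K)} (hI : I ≠ ⊥) (h : cl I = 1) :
    ∃ x, x ≠ 0 ∧ I = Ideal.span {x} := by
  rw [cl_eq (mem_nonZeroDivisors_of_ne_zero hI), ClassGroup.mk0_eq_one_iff] at h
  obtain ⟨x, hx⟩ := h.principal
  refine ⟨x, ?_, hx⟩
  rintro rfl
  apply hI
  rw [hx]
  simp

theorem cl_cj (I : Ideal (𝓞 K)) : cl (cj q I) = (cl I)⁻¹ := by
  by_cases h : I = ⊥
  · rw [h, cj_bot]
    unfold cl
    simp
  · rw [eq_inv_iff_mul_eq_one, mul_comm, ← cl_mul h (cj_ne_bot q h), mul_cj, cl_span]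

theorem exists_gen {I J : Ideal (𝓞 K)} (hI : I ≠ ⊥) (hJ : J ≠ ⊥) (h : cl I = cl J) :
    ∃ x, x ≠ 0 ∧ I * cj q J = Ideal.span {x} := by
  apply cl_eq_one (mul_ne_zero hI (cj_ne_bot q hJ))
  rw [cl_mul hI (cj_ne_bot q hJ), cl_cj, h, mul_inv_cancel]

theorem cl_surj (c : ClassGroup (𝓞 K)) : ∃ I, I ≠ ⊥ ∧ cl I = c := by
  obtain ⟨⟨I, hI⟩, rfl⟩ := ClassGroup.mk0_surjective c
  exact ⟨I, nonZeroDivisors.ne_zero hI, cl_eq hI⟩

theorem coprime_of_sup {I : Ideal (𝓞 K)} {M : ℕ} (h : Ideal.span {(M : 𝓞 K)} ⊔ I = ⊤) :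
    Nat.Coprime (NI q I) M := by
  have h1 : IsCoprime (Ideal.span {(M : 𝓞 K)}) I := by
    rw [Ideal.isCoprime_iff_sup_eq]
    exact h
  have h2 : IsCoprime (Ideal.span {(M : 𝓞 K)}) (cj q I) := by
    rw [Ideal.isCoprime_iff_sup_eq, ← cj_nat q M]
    unfold cj
    rw [← Ideal.map_sup, h, Ideal.map_top]
  have h3 := h1.mul_right h2
  rw [mul_cj, Ideal.isCoprime_iff_sup_eq] at h3
  apply Nat.coprime_of_dvd
  intro p hp h4 h5
  have h6 : (⊤ : Ideal (𝓞 K)) ≤ Ideal.span {(p : 𝓞 K)} := by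
    rw [← h3, sup_le_iff, Ideal.span_singleton_le_span_singleton,
      Ideal.span_singleton_le_span_singleton]
    exact ⟨Nat.cast_dvd_cast h5, Nat.cast_dvd_cast h4⟩
  have h7 : (p : 𝓞 K) ∣ ((1 : ℕ) : 𝓞 K) := by
    rw [Nat.cast_one, ← Ideal.mem_span_singleton]
    exact h6 trivial
  exact hp.one_lt.ne' (Nat.dvd_one.mp (QF.natCast_dvd (K := K) h7))

/-- representatives prime to a given integer -/
theorem exists_rep (c : ClassGroup (𝓞 K)) {M : ℕ} (hM : M ≠ 0) :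
    ∃ I, I ≠ ⊥ ∧ cl I = c ∧ Nat.Coprime (NI q I) M := by
  obtain ⟨J, hJ, hc⟩ := cl_surj c⁻¹
  have hM2 : ((2 * M : ℕ) : 𝓞 K) ≠ 0 := by exact_mod_cast (by omega : 2 * M ≠ 0)
  obtain ⟨a, ha⟩ := IsDedekindDomain.exists_sup_span_eq
    (I := J * Ideal.span {((2 * M : ℕ) : 𝓞 K)}) (J := J) Ideal.mul_le_left
    (mul_ne_zero hJ (QF.span_ne_bot hM2))
  have h1 : Ideal.span {a} ≤ J := by
    rw [← ha]
    exact le_sup_right
  obtain ⟨I, hI⟩ := Ideal.dvd_iff_le.mpr h1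
  rw [hI, ← Ideal.mul_sup] at ha
  have h2 : Ideal.span {((2 * M : ℕ) : 𝓞 K)} ⊔ I = ⊤ := by
    apply mul_left_cancel₀ hJ
    rw [ha, Ideal.mul_top]
  have h3 := coprime_of_sup q h2
  have hI0 : I ≠ ⊥ := by
    rintro rfl
    rw [NI_bot, Nat.coprime_zero_left] at h3
    omega
  refine ⟨I, hI0, ?_, Nat.Coprime.coprime_mul_left_right h3⟩
  have h4 := cl_mul hJ hI0
  rw [← hI, cl_span, hc] at h4
  rw [eq_comm, inv_mul_eq_one] at h4
  exact h4.symm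

/-! ### the residue map -/

theorem tr_s (z : 𝓞 K) : tr q (q.s z) = tr q z := by
  apply tr_eq
  rw [q.s_s, add_comm, add_s]

theorem tr_one : tr q (1 : 𝓞 K) = 2 := by
  apply tr_eq
  rw [map_one]
  norm_num

theorem tr_zero : tr q (0 : 𝓞 K) = 0 := by
  apply tr_eq
  simp

theorem tr_mul_mod (x y : 𝓞 K) : (n : ℤ) ∣ 2 * tr q (x * y) - tr q x * tr q y := by
  have h := two_tr q x (q.s y)
  rw [q.s_s] at h
  have h2 : (crd q (q.s y)).1 = tr q y := tr_s q y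
  rw [h2] at h
  exact ⟨(crd q x).2 * (crd q (q.s y)).2, by unfold tr at h ⊢; linear_combination h⟩

theorem two_half (hn4 : n % 4 = 3) : (2 : ZMod n) * (((n + 1) / 2 : ℕ) : ZMod n) = 1 := by
  have : 2 * ((n + 1) / 2) = n + 1 := by omega
  have h2 : ((2 * ((n + 1) / 2) : ℕ) : ZMod n) = ((n + 1 : ℕ) : ZMod n) := by rw [this]
  push_cast at h2
  rw [ZMod.natCast_self, zero_add] at h2
  exact h2

theorem two_unit (hn4 : n % 4 = 3) : IsUnit (2 : ZMod n) :=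
  IsUnit.of_mul_eq_one _ (two_half hn4)

/-- the residue map modulo `θ` -/
noncomputable def rho (hn4 : n % 4 = 3) : 𝓞 K →+* ZMod n where
  toFun z := (tr q z : ZMod n) * (((n + 1) / 2 : ℕ) : ZMod n)
  map_one' := by
    rw [tr_one, Int.cast_ofNat]
    exact two_half hn4
  map_mul' x y := by
    have h := (ZMod.intCast_zmod_eq_zero_iff_dvd _ n).mpr (tr_mul_mod q x y)
    have h2 := two_half hn4
    push_cast at h
    linear_combination ((((n + 1) / 2 : ℕ) : ZMod n)) ^ 2 * h -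
      (tr q (x * y) : ZMod n) * (((n + 1) / 2 : ℕ) : ZMod n) * h2
  map_zero' := by
    rw [tr_zero]
    simp
  map_add' x y := by
    rw [tr_add]
    push_cast
    ring

variable (hn4 : n % 4 = 3)

theorem two_rho (z : 𝓞 K) : 2 * rho q hn4 z = (tr q z : ZMod n) := by
  show 2 * ((tr q z : ZMod n) * (((n + 1) / 2 : ℕ) : ZMod n)) = _
  linear_combination (tr q z : ZMod n) * two_half hn4

theorem rho_eq_zero {z : 𝓞 K} : rho q hn4 z = 0 ↔ q.t ∣ z := by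
  rw [theta_dvd_iff q hn4, ← ZMod.intCast_zmod_eq_zero_iff_dvd]
  show _ ↔ (tr q z : ZMod n) = 0
  rw [← two_rho q hn4, (two_unit hn4).mul_right_eq_zero]

theorem rho_s (z : 𝓞 K) : rho q hn4 (q.s z) = rho q hn4 z := by
  show (tr q (q.s z) : ZMod n) * _ = (tr q z : ZMod n) * _
  rw [tr_s]

theorem rho_t : rho q hn4 q.t = 0 := (rho_eq_zero q hn4).mpr dvd_rfl

theorem rho_sq (z : 𝓞 K) : rho q hn4 z ^ 2 = (q.N z : ZMod n) := by
  have := congrArg (rho q hn4) (q.mul_s z)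
  rw [map_mul, rho_s, map_natCast] at this
  rw [sq, this]

end Vale.Agent.P014D
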