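import Vale.Agent.P014D.Sys

/-!
# P014 (D): Gross points and the statement `BrandtStmt`
-/

open NumberField
open scoped Classical

namespace Vale.Agent.P014D

open Vale.Agent.P017.H185 Vale.Agent.P014.H70 Vale.Agent.P014B Vale.Agent.P014.H687

variable {K : Type} [Field K] [NumberField K] {n : ℕ} {q : QF K n} (hn4 : n % 4 = 3)

/-! ### scaling -/

theorem exists_scale {X X' : Ideal (𝓞 K)} (hX' : X' ≠ ⊥) {γ : 𝓞 K}
    (h : X * cj q X' = Ideal.span {γ}) : ∃ f : 𝓞 K → 𝓞 K,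
      (∀ x' ∈ X', f x' ∈ X ∧ (NI q X' : 𝓞 K) * f x' = γ * x') ∧ ∀ x ∈ X, ∃ x' ∈ X', f x' = x := by
  have h2 : Ideal.span {γ} * X' = Ideal.span {(NI q X' : 𝓞 K)} * X := by
    rw [← h, ← mul_cj]
    ring
  have h3 : ∀ x' ∈ X', ∃ x, x ∈ X ∧ (NI q X' : 𝓞 K) * x = γ * x' := fun x' hx' =>
    ex_div h2 (Ideal.mem_span_singleton_self γ) hx'
  choose! f hf using h3
  refine ⟨f, hf, fun x hx => ?_⟩
  have h4 := Ideal.mul_mem_mul (Ideal.mem_span_singleton_self (NI q X' : 𝓞 K)) hx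
  rw [← h2, Ideal.mem_span_singleton_mul] at h4
  obtain ⟨x', hx', h5⟩ := h4
  refine ⟨x', hx', ?_⟩
  have h6 : (NI q X' : 𝓞 K) ≠ 0 := by exact_mod_cast NI_ne_zero q hX'
  apply mul_left_cancel₀ h6
  rw [(hf x' hx').2, h5]

theorem N_gen {X X' : Ideal (𝓞 K)} {γ : 𝓞 K} (h : X * cj q X' = Ideal.span {γ}) :
    q.N γ = NI q X * NI q X' := by
  rw [← NI_span, ← h, NI_mul, NI_cj]

theorem unit_gen {X X' : Ideal (𝓞 K)} {γ : 𝓞 K} (h : X * cj q X' = Ideal.span {γ})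
    (hX : Nat.Coprime (NI q X) n) (hX' : Nat.Coprime (NI q X') n) : IsUnit (rho q hn4 γ) := by
  have h1 : IsUnit ((q.N γ : ℕ) : ZMod n) := by
    rw [ZMod.isUnit_iff_coprime, N_gen h]
    exact Nat.Coprime.mul_left hX hX'
  rw [← rho_sq q hn4, sq] at h1
  exact isUnit_of_mul_isUnit_left h1

theorem LS_scale {X X' Y Y' : Ideal (𝓞 K)} (hX : Nat.Coprime (NI q X) n)
    (hX' : Nat.Coprime (NI q X') n) (hY : Nat.Coprime (NI q Y) n) (hY' : Nat.Coprime (NI q Y') n)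
    {γ δ : 𝓞 K} (h1 : X * cj q X' = Ideal.span {γ}) (h2 : Y * cj q Y' = Ideal.span {δ})
    {l l' : ZMod n} (hl : l' * rho q hn4 γ * NI q Y' = l * rho q hn4 δ * NI q X') (m : ℕ) :
    (LS q hn4 X' Y' l' m).card = (LS q hn4 X Y l m).card := by
  have nX := ne_bot_of_cop hn4 hX
  have nX' := ne_bot_of_cop hn4 hX'
  have nY := ne_bot_of_cop hn4 hY
  have nY' := ne_bot_of_cop hn4 hY'
  obtain ⟨f, hf, sf⟩ := exists_scale nX' h1
  obtain ⟨g, hg, sg⟩ := exists_scale nY' h2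
  have ua : IsUnit ((NI q X' : ℕ) : ZMod n) := (ZMod.isUnit_iff_coprime _ _).mpr hX'
  have ub : IsUnit ((NI q Y' : ℕ) : ZMod n) := (ZMod.isUnit_iff_coprime _ _).mpr hY'
  have uc := unit_gen hn4 h1 hX hX'
  have a0 := Nat.pos_of_ne_zero (NI_ne_zero q nX)
  have a1 := Nat.pos_of_ne_zero (NI_ne_zero q nX')
  have b0 := Nat.pos_of_ne_zero (NI_ne_zero q nY)
  have b1 := Nat.pos_of_ne_zero (NI_ne_zero q nY')
  have hN : ∀ {Z Z' : Ideal (𝓞 K)} {c x x' : 𝓞 K}, 0 < NI q Z' →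
      Z * cj q Z' = Ideal.span {c} → (NI q Z' : 𝓞 K) * x = c * x' →
      NI q Z' * q.N x = NI q Z * q.N x' := by
    intro Z Z' c x x' h0 h3 h4
    have h5 := congrArg q.N h4
    rw [N_mul, N_mul, N_nat, N_gen h3] at h5
    apply Nat.eq_of_mul_eq_mul_left h0
    linear_combination h5
  have key : ∀ x' ∈ X', ∀ y' ∈ Y', ((x', y') ∈ LS q hn4 X' Y' l' m ↔
      (f x', g y') ∈ LS q hn4 X Y l m) := by
    intro x' hx' y' hy'
    obtain ⟨m1, e1⟩ := hf x' hx'
    obtain ⟨m2, e2⟩ := hg y' hy'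
    rw [mem_LS q hn4 nX' nY', mem_LS q hn4 nX nY]
    simp only [hx', hy', m1, m2, true_and]
    have n1 := hN a1 h1 e1
    have n2 := hN b1 h2 e2
    have r1 := congrArg (rho q hn4) e1
    have r2 := congrArg (rho q hn4) e2
    rw [map_mul, map_mul, map_natCast] at r1 r2
    refine and_congr ?_ ?_
    · rw [← (ub.mul uc).mul_right_inj, ← (ua.mul ub).mul_right_inj (b := rho q hn4 (f x'))]
      constructor <;> intro h
      · linear_combination h + (NI q Y' : ZMod n) * r1 - l * (NI q X' : ZMod n) * r2 +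
          rho q hn4 y' * hl
      · linear_combination h - (NI q Y' : ZMod n) * r1 + l * (NI q X' : ZMod n) * r2 -
          rho q hn4 y' * hl
    · rw [← Nat.mul_right_inj (Nat.mul_pos a0 b0).ne',
        ← Nat.mul_right_inj (Nat.mul_pos a1 b1).ne' (b := NI q Y * q.N (f x') + _)]
      zify at n1 n2 ⊢
      constructor <;> intro h
      · linear_combination h + ((NI q Y : ℤ) * NI q Y') * n1 + (17 * (NI q X : ℤ) * NI q X') * n2
      · linear_combination h - ((NI q Y : ℤ) * NI q Y') * n1 - (17 * (NI q X : ℤ) * NI q X') * n2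
  have inj : ∀ {Z Z' : Ideal (𝓞 K)} {c : 𝓞 K} {F : 𝓞 K → 𝓞 K}, 0 < NI q Z → 0 < NI q Z' →
      Z * cj q Z' = Ideal.span {c} → (∀ x' ∈ Z', F x' ∈ Z ∧ (NI q Z' : 𝓞 K) * F x' = c * x') →
      ∀ x ∈ Z', ∀ y ∈ Z', F x = F y → x = y := by
    intro Z Z' c F h0 h0' h3 h4 x hx y hy h
    have hc : c ≠ 0 := by
      rintro rfl
      have := N_gen h3
      rw [N_zero] at this
      exact (Nat.mul_pos h0 h0').ne this
    apply mul_left_cancel₀ hc
    rw [← (h4 x hx).2, ← (h4 y hy).2, h]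
  refine Finset.card_bij (fun p _ => (f p.1, g p.2)) ?_ ?_ ?_
  · intro p hp
    have h3 := (mem_LS q hn4 nX' nY').mp hp
    exact (key p.1 h3.1 p.2 h3.2.1).mp hp
  · intro p hp p' hp' h
    have h3 := (mem_LS q hn4 nX' nY').mp hp
    have h4 := (mem_LS q hn4 nX' nY').mp hp'
    rw [Prod.mk.injEq] at h
    exact Prod.ext (inj a0 a1 h1 hf _ h3.1 _ h4.1 h.1) (inj b0 b1 h2 hg _ h3.2.1 _ h4.2.1 h.2)
  · intro p hp
    have h3 := (mem_LS q hn4 nX nY).mp hp
    obtain ⟨x', hx', e1⟩ := sf p.1 h3.1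
    obtain ⟨y', hy', e2⟩ := sg p.2 h3.2.1
    refine ⟨(x', y'), (key x' hx' y' hy').mpr ?_, Prod.ext e1 e2⟩
    rw [e1, e2]
    exact hp

/-! ### ambiguous ideals prime to `n` -/

include hn4 in
theorem amb_principal : ∀ (m : ℕ) (J : Ideal (𝓞 K)), NI q J = m → cj q J = J →
    Nat.Coprime m n → cl J = 1 := by
  intro m
  induction m using Nat.strong_induction_on with
  | _ m ih =>
    intro J hJ hc hm
    have hJ0 : J ≠ ⊥ := ne_bot_of_cop hn4 (hJ ▸ hm)
    by_cases h1 : m = 1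
    · rw [eq_top_of_NI q (hJ.trans h1), ← Ideal.span_singleton_one, cl_span]
    obtain ⟨p, hp, hpm⟩ := Nat.exists_prime_and_dvd h1
    have hpn : Nat.Coprime p n := Nat.Coprime.coprime_dvd_left hpm hm
    have h2 : Ideal.span {(p : 𝓞 K)} ∣ J := by
      rcases J_cases (a := p) (m := n) (by rwa [Int.natAbs_natCast]) with h | h
      · obtain ⟨P, hP, hP2⟩ := exists_split q hn4 hp h
        have h3 : P ∣ J ∧ cj q P ∣ J := by
          rcases prime_dvd q hp hP (hJ ▸ hpm) with h4 | h4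
          · exact ⟨h4, hc ▸ cj_dvd q h4⟩
          · refine ⟨?_, h4⟩
            have := cj_dvd q h4
            rwa [cj_cj, hc] at this
        obtain ⟨⟨L, rfl⟩, h5⟩ := h3
        rw [← hP, ← mul_cj]
        have h6 : Prime (cj q P) := prime_of_NI q (by rw [NI_cj, hP]; exact hp)
        rcases h6.dvd_or_dvd h5 with h7 | h7
        · have h8 : Prime P := prime_of_NI q (hP ▸ hp)
          exact absurd (associated_iff_eq.mp (h6.associated_of_dvd h8 h7)).symm hP2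
        · exact mul_dvd_mul_left _ h7
      · exact inert_dvd q hn4 hp h (hJ ▸ hpm)
    obtain ⟨L, rfl⟩ := h2
    have hp0 : Ideal.span {(p : 𝓞 K)} ≠ ⊥ := QF.span_ne_bot (by exact_mod_cast hp.ne_zero)
    have hL0 : L ≠ ⊥ := right_ne_zero_of_mul hJ0
    rw [cj_mul, cj_nat] at hc
    rw [NI_mul, NI_nat] at hJ
    rw [cl_mul hp0 hL0, cl_span, one_mul]
    refine ih (NI q L) ?_ L rfl (mul_left_cancel₀ hp0 hc)
      (Nat.Coprime.coprime_dvd_left ⟨p * p, by rw [← hJ, mul_comm]⟩ hm)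
    rw [← hJ]
    exact lt_mul_of_one_lt_left (Nat.pos_of_ne_zero (NI_ne_zero q hL0))
      (by nlinarith [hp.one_lt])

theorem hilb90 {I : Ideal (𝓞 K)} (hI : Nat.Coprime (NI q I) n) {g : 𝓞 K}
    (h : I * I = Ideal.span {g}) (hg : rho q hn4 g = NI q I) : cl I = 1 := by
  have : NeZero n := ⟨q.d_pos.ne'⟩
  have hI0 := ne_bot_of_cop hn4 hI
  have h1 : g * q.s g = (NI q I : 𝓞 K) * NI q I := by
    rw [q.mul_s, ← NI_span, ← h, NI_mul, Nat.cast_mul]
  have h2 : Nat.Coprime (q.N (NI q I + g)) n := by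
    rw [← ZMod.isUnit_iff_coprime, ← rho_sq q hn4, map_add, map_natCast, hg, ← two_mul]
    exact ((two_unit hn4).mul ((ZMod.isUnit_iff_coprime _ _).mpr hI)).pow 2
  have h3 : Ideal.span {q.s (NI q I + g)} ≠ ⊥ := by
    apply ne_bot_of_cop hn4 (q := q)
    rwa [NI_span, N_s]
  have h4 := amb_principal hn4 (q := q) _ (I * Ideal.span {q.s (NI q I + g)}) rfl (by
    rw [cj_mul, cj_span, q.s_s]
    apply mul_left_cancel₀ hI0
    rw [← mul_assoc, ← mul_assoc, h, mul_cj, Ideal.span_singleton_mul_span_singleton,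
      Ideal.span_singleton_mul_span_singleton, map_add, map_natCast]
    congr 2
    linear_combination -h1) (by
    rw [NI_mul, NI_span, N_s]
    exact Nat.Coprime.mul_left hI h2)
  rwa [cl_mul hI0 h3, cl_span, mul_one] at h4

/-! ### orthogonality -/

theorem exists_J_left {m : ℕ} (hm : Squarefree m) (ho : Odd m) (h1 : m ≠ 1) :
    ∃ r : ℕ, jacobiSym r m = -1 := by
  obtain ⟨a, ha, ha4⟩ : ∃ a : ℤ, a.natAbs = m ∧ a % 4 = 1 := by
    rcases Nat.odd_mod_four_iff.mp (Nat.odd_iff.mp ho) with h | h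
    · exact ⟨m, Int.natAbs_natCast m, by omega⟩
    · exact ⟨-m, by rw [Int.natAbs_neg, Int.natAbs_natCast], by omega⟩
  obtain ⟨r, hr, h2⟩ := exists_J_neg (a := a) (Int.squarefree_natAbs.mp (ha ▸ hm)) (by
    rintro rfl
    exact h1 ha.symm)
  exact ⟨r, by rw [← ha, ← J_recip ha4 hr, h2]⟩

theorem cop_of_J {r m : ℕ} (hm : m ≠ 0) (h : jacobiSym r m ≠ 0) : Nat.Coprime r m := by
  have : NeZero m := ⟨hm⟩
  rw [Ne, jacobiSym.eq_zero_iff_not_coprime, Int.gcd_natCast_natCast] at h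
  exact not_not.mp h

include hn4 in
theorem exists_chi_neg (R : Rep q) {e : ℕ} (he : e ∣ n) (h1 : e ≠ 1) (h2 : e ≠ n) :
    ∃ c, R.chi e c = -1 := by
  obtain ⟨f, hf⟩ := he
  have hsq := q.hd
  have ho : Odd n := Nat.odd_iff.mpr (by omega)
  rw [hf] at hsq ho
  have hcop := Nat.coprime_of_squarefree_mul hsq
  have he0 : e ≠ 0 := left_ne_zero_of_mul hsq.ne_zero
  have hf0 : f ≠ 0 := right_ne_zero_of_mul hsq.ne_zero
  obtain ⟨r1, hr1⟩ := exists_J_left hsq.of_mul_left (Nat.odd_mul.mp ho).1 h1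
  obtain ⟨r2, hr2⟩ := exists_J_left hsq.of_mul_right (Nat.odd_mul.mp ho).2 (by
    rintro rfl
    exact h2 (by rw [hf, mul_one]))
  obtain ⟨r, m1, m2⟩ := Nat.chineseRemainder hcop r1 r2
  have j1 : jacobiSym r e = -1 := by
    rw [← hr1]
    exact jacobiSym.mod_left' (Int.natCast_modEq_iff.mpr m1)
  have j2 : jacobiSym r f = -1 := by
    rw [← hr2]
    exact jacobiSym.mod_left' (Int.natCast_modEq_iff.mpr m2)
  have j3 : jacobiSym r n = 1 := by
    rw [hf, jacobiSym.mul_right' _ he0 hf0, j1, j2]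
    norm_num
  obtain ⟨P, p1, p2, p3⟩ := exists_prime_ideal q hn4
    (cop_of_J q.d_pos.ne' (by rw [j3]; norm_num)) j3 n
  have p4 : jacobiSym (NI q P) e = -1 := by
    rw [← j1]
    apply jacobiSym.mod_left'
    exact Int.natCast_modEq_iff.mpr
      (((ZMod.natCast_eq_natCast_iff _ _ _).mp p3).of_dvd ⟨f, hf⟩)
  refine ⟨cl P, ?_⟩
  rw [chi_eq R hn4 ⟨f, hf⟩ (ne_bot_of_NI q p1.ne_zero) (cop_of_J he0 (by rw [p4]; norm_num)), p4]

include hn4 in
theorem sum_chi_zero (R : Rep q) {e : ℕ} (he : e ∣ n) (h1 : e ≠ 1) (h2 : e ≠ n) :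
    ∑ c, R.chi e c = 0 := by
  obtain ⟨c0, h0⟩ := exists_chi_neg hn4 R he h1 h2
  have h := Equiv.sum_comp (Equiv.mulLeft c0) (R.chi e)
  simp only [Equiv.coe_mulLeft, chi_mul R hn4 he, h0, neg_mul, one_mul,
    Finset.sum_neg_distrib] at h
  linarith

include hn4 in
theorem card_Lam [NeZero n] (h17 : jacobiSym n 17 = -1) (R : Rep q) (A B : ClassGroup (𝓞 K)) :
    ((Lam n (R.a A) (R.a B)).card : ℤ) =
      ∑ e ∈ n.divisors, jacobiSym (-17) e * (R.chi e A * R.chi e B) := by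
  have h := wt_eq hn4 (q := q) h17 (rep_cop R A) (rep_cop R B) 0 0
  unfold wt at h
  simp only [map_zero, mul_zero, if_true, tr_zero, dvd_zero, and_self, Finset.sum_const,
    nsmul_eq_mul, mul_one, ne_eq, OfNat.ofNat_ne_zero, not_false_eq_true, zero_pow,
    add_zero] at h
  rw [← h, prod_one_add_J _ q.hd]
  refine Finset.sum_congr rfl fun e _ => ?_
  unfold Rep.chi
  rw [← jacobiSym.mul_left, ← jacobiSym.mul_left]
  congr 1
  ring

include hn4 in
theorem sum_card_Lam [NeZero n] (h17 : jacobiSym n 17 = -1) (R : Rep q) :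
    ∑ A, ∑ B, (Lam n (R.a A) (R.a B)).card = 2 * Fintype.card (ClassGroup (𝓞 K)) ^ 2 := by
  zify
  simp only [card_Lam hn4 h17 R]
  have h1 : ∀ e ∈ n.divisors, ∑ A, ∑ B, jacobiSym (-17) e * (R.chi e A * R.chi e B) =
      jacobiSym (-17) e * (∑ A, R.chi e A) ^ 2 := by
    intro e _
    rw [sq, Finset.sum_mul_sum, Finset.mul_sum]
    refine Finset.sum_congr rfl fun A _ => ?_
    rw [Finset.mul_sum]
  rw [Finset.sum_congr rfl fun A _ => Finset.sum_comm, Finset.sum_comm, Finset.sum_congr rfl h1,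
    Finset.sum_eq_add_of_mem 1 n (Nat.one_mem_divisors.mpr q.d_pos.ne')
      (Nat.mem_divisors_self n q.d_pos.ne') (by omega)]
  · simp only [chi_one_left, chi_n R hn4, J_neg17 hn4 h17, jacobiSym.one_right, Finset.sum_const,
      Finset.card_univ, nsmul_eq_mul, mul_one]
    ring
  · intro e he h2
    rw [sum_chi_zero hn4 R (Nat.dvd_of_mem_divisors he) h2.1 h2.2]
    ring

/-! ### the bijection -/

namespace Aux

variable (A : Aux q) (R : Rep q)

include hn4 in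
theorem S_ne (s : ClassGroup (𝓞 K)) : A.S s ≠ ⊥ :=
  ne_bot_of_cop hn4 (Nat.Coprime.coprime_mul_left_right (A.hS s))

include hn4 in
theorem Q_ne : A.Q ≠ ⊥ := ne_bot_of_cop hn4 (Nat.Coprime.coprime_mul_left_right A.hQ)

include hn4 in
theorem cl_X (s t : ClassGroup (𝓞 K)) : cl (A.X s t) = s * t⁻¹ := by
  unfold X
  rw [cl_mul (A.S_ne hn4 s) (cj_ne_bot q (A.S_ne hn4 t)), cl_cj, A.hcl, A.hcl]

include hn4 in
theorem cl_Y (s t : ClassGroup (𝓞 K)) : cl (A.Y s t) = s * t * cl A.Q := by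
  unfold Y
  rw [cl_mul (mul_ne_zero (A.S_ne hn4 s) (A.S_ne hn4 t)) (A.Q_ne hn4),
    cl_mul (A.S_ne hn4 s) (A.S_ne hn4 t), A.hcl, A.hcl]

theorem exists_l (s t : ClassGroup (𝓞 K)) : ∃ l : ZMod n, ∃ γ δ : 𝓞 K,
    R.X (s * t⁻¹) * cj q (A.X s t) = Ideal.span {γ} ∧
    R.X (s * t * cl A.Q) * cj q (A.Y s t) = Ideal.span {δ} ∧
    rho q hn4 γ * NI q A.Q = l * rho q hn4 δ := by
  obtain ⟨γ, -, h1⟩ := exists_gen q (rep_ne R (s * t⁻¹)) (A.X_ne hn4 s t)
    (by rw [rep_cl, A.cl_X hn4])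
  obtain ⟨δ, -, h2⟩ := exists_gen q (rep_ne R (s * t * cl A.Q)) (A.Y_ne hn4 s t)
    (by rw [rep_cl, A.cl_Y hn4])
  obtain ⟨w, hw⟩ := (unit_gen hn4 h2 (by rw [rep_NI]; exact rep_cop R _)
    (A.hYn s t)).exists_left_inv
  refine ⟨rho q hn4 γ * NI q A.Q * w, γ, δ, h1, h2, ?_⟩
  rw [mul_assoc _ w, hw, mul_one]

/-- the slope attached to a pair of classes -/
noncomputable def l0 (s t : ClassGroup (𝓞 K)) : ZMod n := (A.exists_l hn4 R s t).choose

theorem l0_spec (s t : ClassGroup (𝓞 K)) (b : Bool) : ∃ γ δ : 𝓞 K,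
    R.X (s * t⁻¹) * cj q (A.X s t) = Ideal.span {γ} ∧
    R.X (s * t * cl A.Q) * cj q (A.Y s t) = Ideal.span {δ} ∧
    rho q hn4 γ * NI q A.Q = (if b then A.l0 hn4 R s t else -A.l0 hn4 R s t) * rho q hn4 δ := by
  obtain ⟨γ, δ, h1, h2, h3⟩ := (A.exists_l hn4 R s t).choose_spec
  cases b
  · refine ⟨-γ, δ, by rw [Ideal.span_singleton_neg, h1], h2, ?_⟩
    rw [map_neg, neg_mul, h3]
    simp [l0]
  · exact ⟨γ, δ, h1, h2, h3⟩

/-- the map from pairs of Gross points to triples -/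
noncomputable def Ph (x : ClassGroup (𝓞 K) × ClassGroup (𝓞 K) × Bool) :
    ClassGroup (𝓞 K) × ClassGroup (𝓞 K) × ZMod n :=
  (x.1 * x.2.1⁻¹, x.1 * x.2.1 * cl A.Q,
    if x.2.2 then A.l0 hn4 R x.1 x.2.1 else -A.l0 hn4 R x.1 x.2.1)

theorem Ph_card (x : ClassGroup (𝓞 K) × ClassGroup (𝓞 K) × Bool) (m : ℕ) :
    (LS q hn4 (A.X x.1 x.2.1) (A.Y x.1 x.2.1) 1 m).card =
      (LS q hn4 (R.X (A.Ph hn4 R x).1) (R.X (A.Ph hn4 R x).2.1) (A.Ph hn4 R x).2.2 m).card := by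
  obtain ⟨γ, δ, h1, h2, h3⟩ := A.l0_spec hn4 R x.1 x.2.1 x.2.2
  refine LS_scale hn4 (by rw [rep_NI]; exact rep_cop R _) (A.gd _ _).hX
    (by rw [rep_NI]; exact rep_cop R _) (A.hYn _ _) h1 h2 ?_ m
  rw [NI_X, NI_Y]
  change rho q hn4 γ * NI q A.Q = (A.Ph hn4 R x).2.2 * rho q hn4 δ at h3
  push_cast
  linear_combination ((NI q (A.S x.1) : ZMod n) * NI q (A.S x.2.1)) * h3

theorem Ph_mem [NeZero n] (x : ClassGroup (𝓞 K) × ClassGroup (𝓞 K) × Bool) :
    (A.Ph hn4 R x).2.2 ∈ Lam n (R.a (A.Ph hn4 R x).1) (R.a (A.Ph hn4 R x).2.1) := by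
  obtain ⟨γ, δ, h1, h2, h3⟩ := A.l0_spec hn4 R x.1 x.2.1 x.2.2
  rw [mem_Lam]
  have e1 := rho_sq q hn4 γ
  have e2 := rho_sq q hn4 δ
  rw [N_gen h1, rep_NI, NI_X] at e1
  rw [N_gen h2, rep_NI, NI_Y] at e2
  have u : IsUnit ((NI q (A.Y x.1 x.2.1) : ℕ) : ZMod n) :=
    (ZMod.isUnit_iff_coprime _ _).mpr (A.hYn _ _)
  rw [← u.mul_right_eq_zero, NI_Y]
  have h4 := A.hQ3
  change rho q hn4 γ * NI q A.Q = (A.Ph hn4 R x).2.2 * rho q hn4 δ at h3
  change rho q hn4 γ ^ 2 = ((R.a (A.Ph hn4 R x).1 * _ : ℕ) : ZMod n) at e1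
  change rho q hn4 δ ^ 2 = ((R.a (A.Ph hn4 R x).2.1 * _ : ℕ) : ZMod n) at e2
  push_cast at e1 e2 ⊢
  linear_combination (-(A.Ph hn4 R x).2.2 ^ 2) * e2 + (NI q A.Q : ZMod n) ^ 2 * e1 -
    (rho q hn4 γ * NI q A.Q + (A.Ph hn4 R x).2.2 * rho q hn4 δ) * h3 +
    ((R.a (A.Ph hn4 R x).1 : ZMod n) * NI q (A.S x.1) * NI q (A.S x.2.1) * NI q A.Q) * h4

theorem Ph_inj : Function.Injective (A.Ph hn4 R) := by
  rintro ⟨s, t, b⟩ ⟨s', t', b'⟩ h
  obtain ⟨γ, δ, h1, h2, h3⟩ := A.l0_spec hn4 R s t b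
  obtain ⟨γ', δ', h1', h2', h3'⟩ := A.l0_spec hn4 R s' t' b'
  unfold Ph at h
  simp only [Prod.mk.injEq] at h
  obtain ⟨c1, c2, c3⟩ := h
  have uγ := unit_gen hn4 h1 (by rw [rep_NI]; exact rep_cop R _) (A.gd _ _).hX
  have uδ := unit_gen hn4 h2 (by rw [rep_NI]; exact rep_cop R _) (A.hYn _ _)
  have uγ' := unit_gen hn4 h1' (by rw [rep_NI]; exact rep_cop R _) (A.gd _ _).hX
  have uq : IsUnit ((NI q A.Q : ℕ) : ZMod n) :=
    (ZMod.isUnit_iff_coprime _ _).mpr (Nat.Coprime.coprime_mul_left_right A.hQ)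
  have : Nontrivial (ZMod n) := ZMod.nontrivial_iff.mpr (by omega)
  have ht : t = t' := by
    rw [← c1] at h1'
    rw [← c2] at h2'
    rw [← c3] at h3'
    set I := A.S t * cj q (A.S t') with hI
    have e1 : Ideal.span {γ * δ' * NI q I} = Ideal.span {γ' * δ} * (I * I) := by
      rw [← Ideal.span_singleton_mul_span_singleton, ← Ideal.span_singleton_mul_span_singleton,
        ← Ideal.span_singleton_mul_span_singleton, ← h1, ← h2, ← h1', ← h2', ← mul_cj, hI]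
      unfold X Y
      simp only [cj_mul, cj_cj]
      ring
    obtain ⟨g, hg⟩ : γ' * δ ∣ γ * δ' * NI q I := by
      rw [← Ideal.span_singleton_le_span_singleton, e1]
      exact Ideal.mul_le_left
    have h0 : Ideal.span {γ' * δ} ≠ ⊥ := by
      apply QF.span_ne_bot
      intro h
      have := congrArg (rho q hn4) h
      rw [map_mul, map_zero] at this
      exact (uγ'.mul uδ).ne_zero this
    have e2 : I * I = Ideal.span {g} := by
      apply mul_left_cancel₀ h0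
      rw [← e1, hg, Ideal.span_singleton_mul_span_singleton]
    have e3 := congrArg (rho q hn4) hg
    simp only [map_mul, map_natCast] at e3
    have e4 : rho q hn4 g = NI q I := by
      rw [← ((uγ'.mul uδ).mul uq).mul_right_inj]
      linear_combination (-(NI q A.Q : ZMod n)) * e3 + (rho q hn4 δ' * NI q I) * h3 -
        (rho q hn4 δ * NI q I) * h3'
    have e5 := hilb90 hn4 (by
      rw [hI, NI_mul, NI_cj]
      exact Nat.Coprime.coprime_mul_left_right (Nat.Coprime.mul_left (A.hS t) (A.hS t'))) e2 e4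
    rw [hI, cl_mul (A.S_ne hn4 t) (cj_ne_bot q (A.S_ne hn4 t')), cl_cj, A.hcl, A.hcl] at e5
    exact mul_inv_eq_one.mp e5
  subst ht
  have hs : s = s' := mul_right_cancel c1
  subst hs
  have ul : IsUnit (A.l0 hn4 R s t) := by
    have := uγ.mul uq
    rw [h3] at this
    have h4 := isUnit_of_mul_isUnit_left this
    cases b
    · simpa using h4
    · simpa using h4
  have hne : A.l0 hn4 R s t ≠ -A.l0 hn4 R s t := by
    intro h
    apply ((two_unit hn4).mul ul).ne_zero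
    linear_combination h
  cases b <;> cases b'
  · rfl
  · exact absurd (by simpa using c3.symm) hne
  · exact absurd (by simpa using c3) hne
  · rfl

end Aux

/-- the set of triples -/
noncomputable def Trip [NeZero n] (R : Rep q) :
    Finset (ClassGroup (𝓞 K) × ClassGroup (𝓞 K) × ZMod n) :=
  Finset.univ.filter fun x => x.2.2 ∈ Lam n (R.a x.1) (R.a x.2.1)

theorem sum_Trip [NeZero n] (R : Rep q) {M : Type*} [AddCommMonoid M]
    (f : ClassGroup (𝓞 K) × ClassGroup (𝓞 K) × ZMod n → M) :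
    ∑ x ∈ Trip R, f x = ∑ A, ∑ B, ∑ l ∈ Lam n (R.a A) (R.a B), f (A, B, l) := by
  unfold Trip
  rw [Finset.sum_filter, Fintype.sum_prod_type]
  refine Finset.sum_congr rfl fun A _ => ?_
  rw [Fintype.sum_prod_type]
  refine Finset.sum_congr rfl fun B _ => ?_
  rw [← Finset.sum_filter]
  refine Finset.sum_congr ?_ fun _ _ => rfl
  ext l
  rw [Finset.mem_filter]
  exact ⟨fun h => h.2, fun h => ⟨Finset.mem_univ _, h⟩⟩

theorem image_Ph [NeZero n] (h17 : jacobiSym n 17 = -1) (A : Aux q) (R : Rep q) :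
    Finset.univ.image (A.Ph hn4 R) = Trip R := by
  apply Finset.eq_of_subset_of_card_le
  · intro x hx
    obtain ⟨y, -, rfl⟩ := Finset.mem_image.mp hx
    exact Finset.mem_filter.mpr ⟨Finset.mem_univ _, A.Ph_mem hn4 R y⟩
  · rw [Finset.card_image_of_injective _ (A.Ph_inj hn4 R), Finset.card_eq_sum_ones, sum_Trip]
    simp only [← Finset.card_eq_sum_ones]
    rw [sum_card_Lam hn4 h17 R, Finset.card_univ, Fintype.card_prod, Fintype.card_prod,
      Fintype.card_bool]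
    apply le_of_eq
    ring

/-- **the identity of Brandt type** -/
theorem brandt : BrandtStmt := by
  intro K _ _ n q R hn4 h17
  have : NeZero n := ⟨q.d_pos.ne'⟩
  obtain ⟨A⟩ := aux_nonempty q hn4 h17
  obtain ⟨φ, h1, h2⟩ := A.exists_phi hn4 h17
  refine ⟨φ, h1, fun e he z hz => ?_⟩
  set th : ClassGroup (𝓞 K) × ClassGroup (𝓞 K) × ZMod n → ℂ := fun x =>
    ∑' p, (LL q hn4 (R.X x.1) (R.X x.2.1) x.2.2).indicator
      (tm q (NI q (R.X x.1)) (NI q (R.X x.2.1)) z) p with hth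
  have e1 : ∑ A, ∑ B, (R.chi e A : ℂ) * thW q (R.X A) (R.X B) (R.a A) (R.a B) z =
      ∑ x ∈ Trip R, (R.chi e x.1 : ℂ) * th x := by
    rw [sum_Trip]
    refine Finset.sum_congr rfl fun A _ => Finset.sum_congr rfl fun B _ => ?_
    have := thW_eq hn4 h17 (X := R.X A) (Y := R.X B) (by rw [rep_NI]; exact rep_cop R _)
      (by rw [rep_NI]; exact rep_cop R _) hz
    rw [← rep_NI, ← rep_NI, this, Finset.mul_sum]
  have e2 : ∀ x, 2 * th (A.Ph hn4 R x) = ec z + ((φ x.1 * φ x.2.1 : ℤ) : ℂ) * Fc Th3 z := by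
    intro x
    have hg : Gd q (R.X (A.Ph hn4 R x).1) (R.X (A.Ph hn4 R x).2.1) (A.Ph hn4 R x).2.2 :=
      ⟨by rw [rep_NI]; exact rep_cop R _, by rw [rep_NI]; exact R.hcop _, by
        rw [rep_NI, rep_NI]
        exact mem_Lam.mp (A.Ph_mem hn4 R x)⟩
    rw [← h2, A.Ph_card hn4 R x]
    exact theta_LL hn4 h17 hg hz
  rw [e1, ← image_Ph hn4 h17 A R, Finset.sum_image fun x _ y _ h => A.Ph_inj hn4 R h,
    Fintype.sum_prod_type]
  simp only [Fintype.sum_prod_type, Fintype.sum_bool]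
  push_cast
  rw [sq, sq, Finset.sum_mul_sum, Finset.sum_mul_sum, Finset.sum_mul, Finset.sum_mul,
    ← Finset.sum_add_distrib]
  refine Finset.sum_congr rfl fun s _ => ?_
  rw [Finset.sum_mul, Finset.sum_mul, ← Finset.sum_add_distrib]
  refine Finset.sum_congr rfl fun t _ => ?_
  have f1 := e2 (s, t, true)
  have f2 := e2 (s, t, false)
  have f3 : ∀ b, R.chi e (A.Ph hn4 R (s, t, b)).1 = R.chi e s * R.chi e t := by
    intro b
    show R.chi e (s * t⁻¹) = _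
    rw [chi_mul R hn4 he, chi_inv R hn4 he]
  rw [f3, f3]
  push_cast at f1 f2 ⊢
  linear_combination ((R.chi e s : ℂ) * R.chi e t / 2) * (f1 + f2)

include hn4 in
/-- **the principal genus consists of squares** -/
theorem principal_genus (h17 : jacobiSym n 17 = -1) (R : Rep q) {c : ClassGroup (𝓞 K)}
    (hc : ∀ e, e ∣ n → R.chi e c = 1) : ∃ s, c = s * s := by
  have : NeZero n := ⟨q.d_pos.ne'⟩
  obtain ⟨A⟩ := aux_nonempty q hn4 h17
  have h1 := card_Lam hn4 h17 R c (cl A.Q)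
  have h2 : ∀ e ∈ n.divisors, jacobiSym (-17) e * (R.chi e c * R.chi e (cl A.Q)) = 1 := by
    intro e he
    have he' := Nat.dvd_of_mem_divisors he
    have h3 : R.chi e (cl A.Q) = jacobiSym (-17) e := by
      rw [chi_eq R hn4 he' (A.Q_ne hn4) (Nat.Coprime.coprime_dvd_right he'
        (Nat.Coprime.coprime_mul_left_right A.hQ))]
      apply jacobiSym.mod_left'
      have h4 : ((NI q A.Q : ℕ) : ℤ) ≡ -17 [ZMOD n] := by
        apply (ZMod.intCast_eq_intCast_iff _ _ _).mp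
        push_cast
        exact A.hQ3
      exact h4.of_dvd (Int.natCast_dvd_natCast.mpr he')
    rw [hc e he', one_mul, ← h3, chi_sq R he']
  rw [Finset.sum_congr rfl h2, Finset.sum_const, nsmul_eq_mul, mul_one, Nat.cast_inj] at h1
  obtain ⟨l, hl⟩ : (Lam n (R.a c) (R.a (cl A.Q))).Nonempty := by
    rw [← Finset.card_pos, h1, Finset.card_pos]
    exact ⟨1, Nat.one_mem_divisors.mpr q.d_pos.ne'⟩
  have h3 : (c, cl A.Q, l) ∈ Trip R := Finset.mem_filter.mpr ⟨Finset.mem_univ _, hl⟩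
  rw [← image_Ph hn4 h17 A R, Finset.mem_image] at h3
  obtain ⟨⟨s, t, b⟩, -, h4⟩ := h3
  unfold Aux.Ph at h4
  simp only [Prod.mk.injEq] at h4
  refine ⟨s, ?_⟩
  have h5 : s * t = 1 := mul_eq_right.mp h4.2.1
  rw [← h4.1, ← eq_inv_of_mul_eq_one_left h5]

end Vale.Agent.P014D
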