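import Vale.Agent.P014D.Prm

/-!
# P014 (D): counting ideals and elements of given norm
-/

open NumberField Complex
open scoped Classical Real

namespace Vale.Agent.P014D

open Vale.Agent.P017.H185 Vale.Agent.P014.H70

/-! ### convolutions of completely multiplicative functions -/

/-- the Dirichlet convolution -/
def cv (u v : ℕ → ℤ) (m : ℕ) : ℤ := ∑ x ∈ m.divisorsAntidiagonal, u x.1 * v x.2

theorem cv_sub {u v : ℕ → ℤ} (hu : ∀ a b, u (a * b) = u a * u b)
    (hv : ∀ a b, v (a * b) = v a * v b) {k l : ℕ} (hk : 0 < k) (hl : 0 < l) (m : ℕ) :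
    ∑ x ∈ (k * l * m).divisorsAntidiagonal.filter (fun x => k ∣ x.1 ∧ l ∣ x.2), u x.1 * v x.2 =
      u k * v l * cv u v m := by
  unfold cv
  rw [Finset.mul_sum]
  symm
  refine Finset.sum_bij (fun x _ => (k * x.1, l * x.2)) ?_ ?_ ?_ ?_
  · intro x hx
    rw [Nat.mem_divisorsAntidiagonal] at hx
    rw [Finset.mem_filter, Nat.mem_divisorsAntidiagonal]
    refine ⟨⟨?_, ?_⟩, dvd_mul_right _ _, dvd_mul_right _ _⟩
    · rw [← hx.1]; ring
    · exact mul_ne_zero (mul_ne_zero hk.ne' hl.ne') hx.2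
  · intro x _ y _ h
    rw [Prod.mk.injEq] at h
    exact Prod.ext (Nat.eq_of_mul_eq_mul_left hk h.1) (Nat.eq_of_mul_eq_mul_left hl h.2)
  · rintro ⟨a, b⟩ hx
    rw [Finset.mem_filter, Nat.mem_divisorsAntidiagonal] at hx
    obtain ⟨⟨h1, h2⟩, ⟨a', rfl⟩, ⟨b', rfl⟩⟩ := hx
    refine ⟨(a', b'), ?_, rfl⟩
    rw [Nat.mem_divisorsAntidiagonal]
    refine ⟨?_, right_ne_zero_of_mul h2⟩
    apply Nat.eq_of_mul_eq_mul_left (Nat.mul_pos hk hl)
    rw [← h1]
    ring
  · intro x _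
    rw [hu, hv]
    ring

theorem cv_rec {u v : ℕ → ℤ} (hu : ∀ a b, u (a * b) = u a * u b)
    (hv : ∀ a b, v (a * b) = v a * v b) (hu1 : u 1 = 1) (hv1 : v 1 = 1) {p : ℕ} (hp : p.Prime)
    (m : ℕ) : cv u v (p * m) = (u p + v p) * cv u v m -
      u p * v p * (if p ∣ m then cv u v (m / p) else 0) := by
  have h1 := cv_sub hu hv hp.pos one_pos m
  have h2 := cv_sub hu hv one_pos hp.pos m
  rw [mul_one, hv1] at h1
  rw [one_mul, hu1] at h2
  have h3 : ∑ x ∈ (p * m).divisorsAntidiagonal.filter (fun x => p ∣ x.1 ∧ p ∣ x.2),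
      u x.1 * v x.2 = u p * v p * (if p ∣ m then cv u v (m / p) else 0) := by
    split_ifs with h
    · obtain ⟨m', rfl⟩ := h
      rw [Nat.mul_div_cancel_left _ hp.pos, ← mul_assoc]
      exact cv_sub hu hv hp.pos hp.pos m'
    · rw [mul_zero]
      apply Finset.sum_eq_zero
      rintro ⟨a, b⟩ hx
      rw [Finset.mem_filter, Nat.mem_divisorsAntidiagonal] at hx
      obtain ⟨⟨h1, -⟩, ⟨a', rfl⟩, ⟨b', rfl⟩⟩ := hx
      exfalso
      apply h
      refine ⟨a' * b', Nat.eq_of_mul_eq_mul_left hp.pos ?_⟩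
      rw [← h1]
      ring
  rw [add_mul, ← h3]
  have e1 : u p * cv u v m = u p * 1 * cv u v m := by ring
  have e2 : v p * cv u v m = 1 * v p * cv u v m := by ring
  rw [e1, e2, ← h1, ← h2]
  simp only [Finset.sum_filter]
  unfold cv
  rw [← Finset.sum_add_distrib, ← Finset.sum_sub_distrib]
  refine Finset.sum_congr rfl fun x hx => ?_
  rw [Nat.mem_divisorsAntidiagonal] at hx
  have h4 : p ∣ x.1 ∨ p ∣ x.2 := (Nat.Prime.dvd_mul hp).mp ⟨m, hx.1⟩
  by_cases ha : p ∣ x.1 <;> by_cases hb : p ∣ x.2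
  · simp [ha, hb]
  · simp [ha, hb]
  · simp [ha, hb]
  · exact absurd h4 (by simp [ha, hb])

theorem cv_one {u v : ℕ → ℤ} (hu1 : u 1 = 1) (hv1 : v 1 = 1) : cv u v 1 = 1 := by
  unfold cv
  simp [hu1, hv1]

theorem rec_unique {F G : ℕ → ℤ} {α β : ℕ → ℤ} (h1 : F 1 = G 1)
    (hF : ∀ p m, p.Prime → m ≠ 0 → F (p * m) = α p * F m - β p * (if p ∣ m then F (m / p) else 0))
    (hG : ∀ p m, p.Prime → m ≠ 0 → G (p * m) = α p * G m - β p * (if p ∣ m then G (m / p) else 0))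
    (m : ℕ) (hm : m ≠ 0) : F m = G m := by
  induction m using Nat.strong_induction_on with
  | _ m ih =>
    by_cases h : m = 1
    · rw [h, h1]
    obtain ⟨p, hp, m', rfl⟩ := Nat.exists_prime_and_dvd h
    have hm' : m' ≠ 0 := right_ne_zero_of_mul hm
    have hlt : m' < p * m' := lt_mul_of_one_lt_left (Nat.pos_of_ne_zero hm') hp.one_lt
    rw [hF p m' hp hm', hG p m' hp hm', ih m' hlt hm']
    split_ifs with h2
    · obtain ⟨k, rfl⟩ := h2
      rw [Nat.mul_div_cancel_left _ hp.pos, ih k _ (right_ne_zero_of_mul hm')]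
      exact lt_of_le_of_lt (Nat.le_mul_of_pos_left _ hp.pos) hlt
    · rfl

/-! ### ideals of given norm -/

variable {K : Type*} [Field K] [NumberField K] {n : ℕ} (q : QF K n)

theorem finite_NI {m : ℕ} (hm : m ≠ 0) : {I : Ideal (𝓞 K) | NI q I = m}.Finite := by
  have h0 : Ideal.span {(m : 𝓞 K)} ≠ 0 := QF.span_ne_bot (by exact_mod_cast hm)
  have := UniqueFactorizationMonoid.fintypeSubtypeDvd _ h0
  have h1 : {I : Ideal (𝓞 K) | I ∣ Ideal.span {(m : 𝓞 K)}}.Finite :=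
    Set.finite_coe_iff.mp (Finite.of_fintype {x // x ∣ Ideal.span {(m : 𝓞 K)}})
  refine h1.subset fun I hI => ?_
  have h2 : NI q I = m := hI
  show I ∣ _
  rw [← h2, ← mul_cj]
  exact dvd_mul_right _ _

/-- the ideals of norm `m` -/
noncomputable def TI (m : ℕ) : Finset (Ideal (𝓞 K)) :=
  if h : m = 0 then ∅ else (finite_NI q h).toFinset

theorem mem_TI {m : ℕ} (hm : m ≠ 0) {I : Ideal (𝓞 K)} : I ∈ TI q m ↔ NI q I = m := by
  unfold TI
  rw [dif_neg hm, Set.Finite.mem_toFinset]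
  rfl

theorem TI_one : TI q 1 = {⊤} := by
  ext I
  rw [mem_TI q one_ne_zero, Finset.mem_singleton]
  exact ⟨eq_top_of_NI q, fun h => h ▸ NI_top q⟩

section

variable {f : Ideal (𝓞 K) → ℤ} (hf : ∀ I J, I ≠ ⊥ → J ≠ ⊥ → f (I * J) = f I * f J)

include hf in
theorem sum_dvd {D : Ideal (𝓞 K)} (hD : D ≠ ⊥) {m : ℕ} (hm : m ≠ 0) :
    ∑ I ∈ (TI q (NI q D * m)).filter (fun I => D ∣ I), f I = f D * ∑ J ∈ TI q m, f J := by
  have hDm := mul_ne_zero (NI_ne_zero q hD) hm
  rw [Finset.mul_sum]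
  symm
  refine Finset.sum_bij (fun J _ => D * J) ?_ ?_ ?_ ?_
  · intro J hJ
    rw [mem_TI q hm] at hJ
    rw [Finset.mem_filter, mem_TI q hDm, NI_mul, hJ]
    exact ⟨rfl, dvd_mul_right _ _⟩
  · intro J _ J' _ h
    exact mul_left_cancel₀ hD h
  · intro I hI
    rw [Finset.mem_filter, mem_TI q hDm] at hI
    obtain ⟨h1, J, rfl⟩ := hI
    refine ⟨J, ?_, rfl⟩
    rw [mem_TI q hm]
    rw [NI_mul] at h1
    exact Nat.eq_of_mul_eq_mul_left (Nat.pos_of_ne_zero (NI_ne_zero q hD)) h1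
  · intro J hJ
    rw [mem_TI q hm] at hJ
    rw [hf D J hD (ne_bot_of_NI q (hJ ▸ hm))]

include hf in
theorem sum_dvd_p (hf1 : ∀ x, f (Ideal.span {x}) = 1) {p : ℕ} (hp : p.Prime) {m : ℕ}
    (hm : m ≠ 0) :
    ∑ I ∈ (TI q (p * m)).filter (fun I => Ideal.span {(p : 𝓞 K)} ∣ I), f I =
      if p ∣ m then ∑ J ∈ TI q (m / p), f J else 0 := by
  split_ifs with h
  · obtain ⟨m', rfl⟩ := h
    have := sum_dvd q hf (D := Ideal.span {(p : 𝓞 K)})
      (QF.span_ne_bot (by exact_mod_cast hp.ne_zero)) (right_ne_zero_of_mul hm)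
    rw [NI_nat, hf1, one_mul, mul_assoc] at this
    rw [Nat.mul_div_cancel_left _ hp.pos, this]
  · apply Finset.sum_eq_zero
    intro I hI
    rw [Finset.mem_filter, mem_TI q (mul_ne_zero hp.ne_zero hm)] at hI
    have h1 := NI_dvd q hI.2
    rw [NI_nat, hI.1] at h1
    exact absurd (Nat.dvd_of_mul_dvd_mul_left hp.pos h1) h

include hf in
theorem sum_inert (hn4 : n % 4 = 3) (hf1 : ∀ x, f (Ideal.span {x}) = 1) {p : ℕ} (hp : p.Prime)
    (h : jacobiSym p n = -1) {m : ℕ} (hm : m ≠ 0) :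
    ∑ I ∈ TI q (p * m), f I = if p ∣ m then ∑ J ∈ TI q (m / p), f J else 0 := by
  rw [← sum_dvd_p q hf hf1 hp hm, Finset.filter_true_of_mem]
  intro I hI
  rw [mem_TI q (mul_ne_zero hp.ne_zero hm)] at hI
  exact inert_dvd q hn4 hp h ⟨m, hI⟩

include hf in
theorem sum_ram {p : ℕ} (hp : p.Prime) {P : Ideal (𝓞 K)} (hP : NI q P = p) (hP2 : cj q P = P)
    {m : ℕ} (hm : m ≠ 0) : ∑ I ∈ TI q (p * m), f I = f P * ∑ J ∈ TI q m, f J := by
  rw [← sum_dvd q hf (ne_bot_of_NI q (hP ▸ hp.ne_zero)) hm, hP, Finset.filter_true_of_mem]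
  intro I hI
  rw [mem_TI q (mul_ne_zero hp.ne_zero hm)] at hI
  have := prime_dvd q hp hP (I := I) ⟨m, hI⟩
  rwa [hP2, or_self] at this

include hf in
theorem sum_split (hf1 : ∀ x, f (Ideal.span {x}) = 1) {p : ℕ} (hp : p.Prime)
    {P : Ideal (𝓞 K)} (hP : NI q P = p) (hP2 : P ≠ cj q P) {m : ℕ} (hm : m ≠ 0) :
    ∑ I ∈ TI q (p * m), f I = (f P + f (cj q P)) * ∑ J ∈ TI q m, f J -
      if p ∣ m then ∑ J ∈ TI q (m / p), f J else 0 := by
  have hP0 := ne_bot_of_NI q (hP ▸ hp.ne_zero : NI q P ≠ 0)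
  have h1 := sum_dvd q hf hP0 hm
  have h2 := sum_dvd q hf (cj_ne_bot q hP0) hm
  rw [hP] at h1
  rw [NI_cj, hP] at h2
  rw [add_mul, ← h1, ← h2, ← sum_dvd_p q hf hf1 hp hm]
  simp only [Finset.sum_filter]
  rw [← Finset.sum_add_distrib, ← Finset.sum_sub_distrib]
  refine Finset.sum_congr rfl fun I hI => ?_
  rw [mem_TI q (mul_ne_zero hp.ne_zero hm)] at hI
  have h3 := prime_dvd q hp hP (I := I) ⟨m, hI⟩
  have h4 : Ideal.span {(p : 𝓞 K)} ∣ I ↔ P ∣ I ∧ cj q P ∣ I := by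
    rw [← hP, ← mul_cj]
    constructor
    · intro h
      exact ⟨(dvd_mul_right _ _).trans h, (dvd_mul_left _ _).trans h⟩
    · rintro ⟨⟨J, rfl⟩, h5⟩
      have h6 : Prime (cj q P) := prime_of_NI q (by rw [NI_cj, hP]; exact hp)
      rcases h6.dvd_or_dvd h5 with h7 | h7
      · have h8 : Prime P := prime_of_NI q (hP ▸ hp)
        exact absurd (associated_iff_eq.mp (h6.associated_of_dvd h8 h7)).symm hP2
      · exact mul_dvd_mul_left _ h7
  by_cases ha : P ∣ I <;> by_cases hb : cj q P ∣ I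
  · simp [h4, ha, hb]
  · simp [h4, ha, hb]
  · simp [h4, ha, hb]
  · exact absurd h3 (by simp [ha, hb])

end

/-! ### elements of given norm -/

theorem finite_N (M : ℕ) : {x : 𝓞 K | q.N x = M}.Finite := by
  have h1 : (Set.Icc (-(4 * M : ℤ), -(4 * M : ℤ)) (4 * M, 4 * M)).Finite := Set.finite_Icc _ _
  refine Set.Finite.subset (h1.preimage (f := crd q) fun x _ y _ h => crd_inj q h) ?_
  intro x hx
  have h2 : q.N x = M := hx
  have h3 := two_N q x
  rw [h2] at h3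
  have hn : (1 : ℤ) ≤ n := by exact_mod_cast q.d_pos
  have n1 := mul_self_nonneg (crd q x).1
  have n2 := mul_self_nonneg (crd q x).2
  have n3 : (crd q x).2 * (crd q x).2 ≤ n * ((crd q x).2 * (crd q x).2) := le_mul_of_one_le_left n2 hn
  have key : ∀ a : ℤ, a * a ≤ 4 * M → -(4 * M : ℤ) ≤ a ∧ a ≤ 4 * M := by
    intro a ha
    constructor <;> nlinarith [mul_self_nonneg (a - 1), mul_self_nonneg (a + 1)]
  have b1 := key (crd q x).1 (by linarith)
  have b2 := key (crd q x).2 (by linarith)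
  exact ⟨⟨b1.1, b2.1⟩, b1.2, b2.2⟩

/-- the elements of norm `M` -/
noncomputable def EN (M : ℕ) : Finset (𝓞 K) := (finite_N q M).toFinset

theorem mem_EN {M : ℕ} {x : 𝓞 K} : x ∈ EN q M ↔ q.N x = M := by
  unfold EN
  rw [Set.Finite.mem_toFinset]
  rfl

theorem uv_inj (hn4 : n % 4 = 3) :
    Function.Injective fun p : ℤ × ℤ => (p.1 : 𝓞 K) + p.2 * om q hn4 := by
  have key : ∀ p : ℤ × ℤ, crd q ((p.1 : 𝓞 K) + p.2 * om q hn4) = (2 * p.1 + p.2, p.2) := by
    intro p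
    apply crd_eq
    have h := congrArg (algebraMap (𝓞 K) K) (two_om q hn4)
    rw [map_mul, map_add, map_ofNat, map_one, QF.coe_t] at h
    rw [map_add, map_mul, map_intCast, map_intCast]
    push_cast
    linear_combination (p.2 : K) * h
  intro p p' h
  have h1 := congrArg (crd q) h
  simp only [key, Prod.mk.injEq] at h1
  exact Prod.ext (by omega) h1.2

theorem card_units (hn4 : n % 4 = 3) : (EN q 1).card = if n = 3 then 6 else 2 := by
  have key : ∀ S : Finset (ℤ × ℤ),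
      (∀ p : ℤ × ℤ, p ∈ S ↔ p.1 ^ 2 + p.1 * p.2 + (((n + 1) / 4 : ℕ) : ℤ) * p.2 ^ 2 = 1) →
      (EN q 1).card = S.card := by
    intro S hS
    rw [← Finset.card_image_of_injective S (uv_inj q hn4)]
    congr 1
    ext x
    rw [mem_EN, Finset.mem_image]
    constructor
    · intro h
      obtain ⟨u, v, rfl⟩ := exists_uv q hn4 x
      refine ⟨(u, v), (hS _).mpr ?_, rfl⟩
      rw [← N_uv q hn4, h]
      rfl
    · rintro ⟨p, hp, rfl⟩
      have := N_uv q hn4 p.1 p.2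
      rw [(hS p).mp hp] at this
      exact_mod_cast this
  split_ifs with h
  · rw [key {(1, 0), (-1, 0), (0, 1), (0, -1), (1, -1), (-1, 1)}]
    · rfl
    · rintro ⟨u, v⟩
      subst h
      simp only [Finset.mem_insert, Finset.mem_singleton, Prod.mk.injEq]
      norm_num
      constructor
      · rintro (⟨rfl, rfl⟩ | ⟨rfl, rfl⟩ | ⟨rfl, rfl⟩ | ⟨rfl, rfl⟩ | ⟨rfl, rfl⟩ | ⟨rfl, rfl⟩) <;>
          norm_num
      · intro h
        have h1 : -1 ≤ u := by nlinarith [sq_nonneg (u + 2 * v)]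
        have h2 : u ≤ 1 := by nlinarith [sq_nonneg (u + 2 * v)]
        have h3 : -1 ≤ v := by nlinarith [sq_nonneg (2 * u + v)]
        have h4 : v ≤ 1 := by nlinarith [sq_nonneg (2 * u + v)]
        interval_cases u <;> interval_cases v <;> simp_all
  · rw [key {(1, 0), (-1, 0)}]
    · rfl
    · rintro ⟨u, v⟩
      simp only [Finset.mem_insert, Finset.mem_singleton, Prod.mk.injEq]
      obtain ⟨e, he, he2⟩ : ∃ e : ℤ, (((n + 1) / 4 : ℕ) : ℤ) = e ∧ 2 ≤ e := ⟨_, rfl, by omega⟩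
      rw [he]
      constructor
      · rintro (⟨rfl, rfl⟩ | ⟨rfl, rfl⟩) <;> norm_num
      · intro h
        have h1 : v = 0 := by
          by_contra hv
          have : 1 ≤ v ^ 2 := by
            have := sq_pos_of_ne_zero hv
            omega
          nlinarith [sq_nonneg (2 * u + v)]
        subst h1
        have h2 : u * u = 1 := by linarith
        rcases Int.eq_one_or_neg_one_of_mul_eq_one h2 with h3 | h3
        · exact Or.inl ⟨h3, rfl⟩
        · exact Or.inr ⟨h3, rfl⟩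

theorem card_elts {X : Ideal (𝓞 K)} (hX : X ≠ ⊥) {m : ℕ} (hm : m ≠ 0) :
    ((EN q (NI q X * m)).filter (fun x => x ∈ X)).card =
      (EN q 1).card * ((TI q m).filter (fun J => cl J = (cl X)⁻¹)).card := by
  have ha := NI_ne_zero q hX
  have hex : ∀ x ∈ X, ∃ J, Ideal.span {x} = X * J := fun x hx =>
    Ideal.dvd_iff_le.mpr ((Ideal.span_singleton_le_iff_mem X).mpr hx)
  choose! g hg using hex
  rw [Finset.card_eq_sum_card_fiberwise (f := g)
    (t := (TI q m).filter (fun J => cl J = (cl X)⁻¹)), mul_comm (EN q 1).card,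
    ← smul_eq_mul _ (EN q 1).card, ← Finset.sum_const]
  · refine Finset.sum_congr rfl fun J hJ => ?_
    rw [Finset.mem_filter, mem_TI q hm] at hJ
    have hJ0 : J ≠ ⊥ := ne_bot_of_NI q (hJ.1 ▸ hm)
    obtain ⟨x0, hx0, h0⟩ := cl_eq_one (mul_ne_zero hX hJ0)
      (by rw [cl_mul hX hJ0, hJ.2, mul_inv_cancel])
    have hN0 : q.N x0 = NI q X * m := by rw [← NI_span, ← h0, NI_mul, hJ.1]
    symm
    refine Finset.card_bij (fun u _ => u * x0) ?_ ?_ ?_
    · intro u hu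
      rw [mem_EN] at hu
      have h1 : u * x0 ∈ X := by
        apply X.mul_mem_left
        apply (Ideal.mul_le_left : X * J ≤ X)
        rw [h0]
        exact Ideal.mem_span_singleton_self _
      rw [Finset.mem_filter, Finset.mem_filter, mem_EN, N_mul, hu, one_mul]
      refine ⟨⟨hN0, h1⟩, ?_⟩
      apply mul_left_cancel₀ hX
      rw [← hg _ h1, h0]
      exact Ideal.span_singleton_mul_left_unit (unit_of_N q hu) x0
    · intro u _ u' _ h
      exact mul_right_cancel₀ hx0 h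
    · intro x hx
      rw [Finset.mem_filter, Finset.mem_filter, mem_EN] at hx
      obtain ⟨⟨h1, h2⟩, h3⟩ := hx
      have h4 := hg x h2
      rw [h3, h0, Ideal.span_singleton_eq_span_singleton] at h4
      obtain ⟨u, hu⟩ := h4.symm
      refine ⟨u, ?_, by rw [← hu, mul_comm]⟩
      rw [mem_EN]
      exact N_of_unit q u.isUnit
  · intro x hx
    rw [Finset.coe_filter, Set.mem_ofPred_eq, mem_EN] at hx
    obtain ⟨h1, h2⟩ := hx
    have h3 := hg x h2
    have h4 := NI_mul q X (g x)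
    rw [← h3, NI_span, h1] at h4
    have h5 : NI q (g x) = m := (Nat.eq_of_mul_eq_mul_left (Nat.pos_of_ne_zero ha) h4).symm
    rw [Finset.coe_filter, Set.mem_ofPred_eq, mem_TI q hm]
    refine ⟨h5, ?_⟩
    rw [eq_inv_iff_mul_eq_one, mul_comm, ← cl_mul hX (ne_bot_of_NI q (h5 ▸ hm)), ← h3, cl_span]

/-! ### summability and regrouping -/

theorem regroup {α : Type*} {f : α → ℂ} (hf : Summable f) (lev : α → ℕ) (F : ℕ → Finset α)
    (h1 : ∀ m, ∀ x ∈ F m, lev x = m) (h2 : ∀ x, f x ≠ 0 → x ∈ F (lev x)) :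
    HasSum (fun m => ∑ x ∈ F m, f x) (∑' x, f x) := by
  refine (HasSum.tsum_fiberwise hf.hasSum lev).congr_fun fun m => ?_
  rw [tsum_subtype (lev ⁻¹' {m}) f, tsum_eq_sum (s := F m)]
  · refine Finset.sum_congr rfl fun x hx => ?_
    rw [Set.indicator_of_mem]
    exact h1 m x hx
  · intro x hx
    rw [Set.indicator_apply_eq_zero]
    intro h3
    by_contra h4
    have h5 : lev x = m := h3
    exact hx (h5 ▸ h2 x h4)

theorem summable_N {z : ℂ} (hz : 0 < z.im) {r : ℝ} (hr : 0 < r) :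
    Summable fun x : 𝓞 K => ‖cexp (2 * π * I * z * ((q.N x : ℝ) * r : ℝ))‖ := by
  have hn : (0 : ℝ) < n := by exact_mod_cast q.d_pos
  have a1 := summable_norm_gs hz (t := r / 2) (by positivity) one_pos 0
  have a2 := summable_norm_gs hz (t := n * r / 2) (by positivity) one_pos 0
  have h := (summable_norm_mul a1 a2).comp_injective (i := crd q) fun x y h => crd_inj q h
  refine h.congr fun x => ?_
  simp only [Function.comp]
  congr 1
  unfold gs
  rw [← Complex.exp_add]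
  congr 1
  have h3 := two_N q x
  have h4 : (2 : ℂ) * (2 * (q.N x : ℂ)) = ((crd q x).1 : ℂ) * (crd q x).1 +
      n * (((crd q x).2 : ℂ) * (crd q x).2) := by exact_mod_cast h3
  push_cast
  linear_combination (-(π : ℂ) * I * z * r / 2) * h4

end Vale.Agent.P014D
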