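import Mathlib

/-!
# P014 (D): a system of lattices in the quaternions with the theta series of level `17`

From the representation numbers of small integers one deduces that there are at most two types,
with two and six units.
-/

open Quaternion
open scoped Classical

namespace Vale.Agent.P014D

/-- primitive cube roots of unity -/
def Cub (a : ℍ[ℝ]) : Prop := normSq a = 1 ∧ a.re = -1 / 2

theorem Cub.star {a : ℍ[ℝ]} (h : Cub a) : Cub (star a) :=
  ⟨by rw [normSq_star, h.1], by rw [re_star, h.2]⟩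

theorem Cub.ne_star {a : ℍ[ℝ]} (h : Cub a) : a ≠ Star.star a := by
  intro h1
  have h2 := congrArg QuaternionAlgebra.imI h1
  have h3 := congrArg QuaternionAlgebra.imJ h1
  have h4 := congrArg QuaternionAlgebra.imK h1
  have h5 := h.1
  have h6 := h.2
  rw [normSq_def'] at h5
  simp only [imI_star, imJ_star, imK_star] at h2 h3 h4
  have e1 : a.imI = 0 := by linarith
  have e2 : a.imJ = 0 := by linarith
  have e3 : a.imK = 0 := by linarith
  rw [e1, e2, e3, h6] at h5
  norm_num at h5

/-- the six units -/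
noncomputable def U6 (a : ℍ[ℝ]) : Finset ℍ[ℝ] := {1, -1, a, -a, star a, -star a}

theorem two_neq : (2 : ℍ[ℝ]) ≠ 0 := by
  intro h
  have h1 : (1 : ℍ[ℝ]) + 1 = 0 := by rw [one_add_one_eq_two, h]
  have h2 := congrArg QuaternionAlgebra.re h1
  simp only [re_add, re_one, re_zero] at h2
  norm_num at h2

theorem ne_of_re {x y : ℍ[ℝ]} (h : x.re ≠ y.re) : x ≠ y := fun h1 => h (congrArg _ h1)

theorem U6_card {a : ℍ[ℝ]} (h : Cub a) : (U6 a).card = 6 := by
  have h1 := h.2
  have h2 := h.star.2
  have h3 := h.ne_star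
  have h4 : -a ≠ -star a := fun h => h3 (neg_injective h)
  unfold U6
  rw [Finset.card_insert_of_notMem, Finset.card_insert_of_notMem, Finset.card_insert_of_notMem,
    Finset.card_insert_of_notMem, Finset.card_insert_of_notMem, Finset.card_singleton]
  all_goals
    simp only [Finset.mem_insert, Finset.mem_singleton, not_or]
  · apply ne_of_re; simp only [re_neg, h2]; norm_num
  · exact ⟨by apply ne_of_re; simp only [re_neg, h1, h2]; norm_num, h4⟩
  · refine ⟨?_, h3, ?_⟩ <;> apply ne_of_re <;> simp only [re_neg, h1, h2] <;> norm_num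
  · refine ⟨?_, ?_, ?_, ?_⟩ <;> apply ne_of_re <;> simp only [re_neg, re_one, h1, h2] <;> norm_num
  · refine ⟨?_, ?_, ?_, ?_, ?_⟩ <;> apply ne_of_re <;> simp only [re_neg, re_one, h1, h2] <;>
      norm_num

theorem U6_re {a u : ℍ[ℝ]} (h : Cub a) (hu : u ∈ U6 a) (h2 : u.re = -1 / 2) :
    u = a ∨ u = star a := by
  have h1 := h.2
  have h3 := h.star.2
  unfold U6 at hu
  simp only [Finset.mem_insert, Finset.mem_singleton] at hu
  rcases hu with rfl | rfl | rfl | rfl | rfl | rfl
  · rw [re_one] at h2; norm_num at h2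
  · rw [re_neg, re_one] at h2; norm_num at h2
  · exact Or.inl rfl
  · rw [re_neg, h1] at h2; norm_num at h2
  · exact Or.inr rfl
  · rw [re_neg, h3] at h2; norm_num at h2

theorem re_comm (x y : ℍ[ℝ]) : (x * y).re = (y * x).re := by
  simp only [re_mul]; ring

theorem same_id {u z : ℍ[ℝ]} (h : Cub u) (hz : u * z = z * u) :
    3 * normSq z = (2 * z.re) ^ 2 + (2 * z.re) * (2 * (z * u).re) + (2 * (z * u).re) ^ 2 := by
  have h2 := congrArg QuaternionAlgebra.imI hz
  have h3 := congrArg QuaternionAlgebra.imJ hz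
  have h4 := congrArg QuaternionAlgebra.imK hz
  have h5 := h.1
  have h6 := h.2
  rw [normSq_def'] at h5 ⊢
  simp only [imI_mul, imJ_mul, imK_mul] at h2 h3 h4
  rw [re_mul, h6]
  rw [h6] at h5
  have e1 : u.imJ * z.imK - u.imK * z.imJ = 0 := by linarith
  have e2 : u.imK * z.imI - u.imI * z.imK = 0 := by linarith
  have e3 : u.imI * z.imJ - u.imJ * z.imI = 0 := by linarith
  linear_combination (-4 * (z.imI ^ 2 + z.imJ ^ 2 + z.imK ^ 2)) * h5 +
    4 * (u.imJ * z.imK - u.imK * z.imJ) * e1 + 4 * (u.imK * z.imI - u.imI * z.imK) * e2 +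
    4 * (u.imI * z.imJ - u.imJ * z.imI) * e3

theorem opp_id {u z : ℍ[ℝ]} (h : Cub u) (hz : u * z = z * star u) : z.re = 0 := by
  have h2 := congrArg QuaternionAlgebra.imI hz
  have h3 := congrArg QuaternionAlgebra.imJ hz
  have h4 := congrArg QuaternionAlgebra.imK hz
  have h5 := h.1
  have h6 := h.2
  rw [normSq_def'] at h5
  simp only [imI_mul, imJ_mul, imK_mul, imI_star, imJ_star, imK_star, re_star] at h2 h3 h4
  rw [h6] at h5
  have e1 : u.imI * z.re = 0 := by linarith
  have e2 : u.imJ * z.re = 0 := by linarith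
  have e3 : u.imK * z.re = 0 := by linarith
  linear_combination (-4 / 3 * z.re) * h5 + 4 / 3 * u.imI * e1 + 4 / 3 * u.imJ * e2 +
    4 / 3 * u.imK * e3

theorem no18 (x y : ℤ) : x ^ 2 + x * y + y ^ 2 ≠ 18 := by
  intro h
  rcases Int.even_or_odd' x with ⟨a, ha | ha⟩ <;> rcases Int.even_or_odd' y with ⟨b, hb | hb⟩ <;>
    rw [ha, hb] at h <;> ring_nf at h <;> omega

/-- a system of lattices -/
structure BG (ι : Type*) where
  I : ι → ι → AddSubgroup ℍ[ℝ]
  mul : ∀ {s t u x y}, x ∈ I s t → y ∈ I t u → x * y ∈ I s u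
  star : ∀ {s t x}, x ∈ I s t → star x ∈ I t s
  one : ∀ s, 1 ∈ I s s
  int : ∀ {s t x}, x ∈ I s t → ∃ m : ℤ, normSq x = m
  S : ι → ι → ℕ → Finset ℍ[ℝ]
  mem_S : ∀ {s t m x}, x ∈ S s t m ↔ x ∈ I s t ∧ normSq x = m
  r2 : ∀ s t, (S s t 2).card + (S s t 1).card = 6
  r3 : ∀ s t, (S s t 3).card = 6
  r5 : ∀ s t, (S s t 5).card + 2 * (S s t 1).card = 12
  col : ι → ι → ℍ[ℝ] → Fin 3
  hcol : ∀ {s t u x y}, x ∈ S s t 2 → y ∈ S s u 2 → col s t x = col s u y →
    ∃ z ∈ I t u, Star.star x * y = 2 * z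

namespace BG

variable {ι : Type*} (B : BG ι)

theorem tr_int {s : ι} {x : ℍ[ℝ]} (hx : x ∈ B.I s s) : ∃ m : ℤ, 2 * x.re = m := by
  obtain ⟨a, ha⟩ := B.int hx
  obtain ⟨b, hb⟩ := B.int ((B.I s s).add_mem hx (B.one s))
  rw [normSq_add, star_one, mul_one, map_one, ha] at hb
  exact ⟨b - a - 1, by push_cast; linarith⟩

/-- the types with six units -/
def Six (s : ι) : Prop := ∃ a ∈ B.I s s, Cub a

theorem mul_S {s t u : ι} {x y : ℍ[ℝ]} {m k : ℕ} (hx : x ∈ B.S s t m) (hy : y ∈ B.S t u k) :
    x * y ∈ B.S s u (m * k) := by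
  rw [B.mem_S] at hx hy ⊢
  refine ⟨B.mul hx.1 hy.1, ?_⟩
  rw [map_mul, hx.2, hy.2, Nat.cast_mul]

theorem star_S {s t : ι} {x : ℍ[ℝ]} {m : ℕ} (hx : x ∈ B.S s t m) : Star.star x ∈ B.S t s m := by
  rw [B.mem_S] at hx ⊢
  exact ⟨B.star hx.1, by rw [normSq_star, hx.2]⟩

theorem neg_S {s t : ι} {x : ℍ[ℝ]} {m : ℕ} (hx : x ∈ B.S s t m) : -x ∈ B.S s t m := by
  rw [B.mem_S] at hx ⊢
  exact ⟨(B.I s t).neg_mem hx.1, by rw [normSq_neg, hx.2]⟩

theorem one_S (s : ι) : 1 ∈ B.S s s 1 := by
  rw [B.mem_S]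
  exact ⟨B.one s, by simp⟩

theorem U6_sub {s : ι} {a : ℍ[ℝ]} (ha : a ∈ B.I s s) (h : Cub a) : U6 a ⊆ B.S s s 1 := by
  have h1 : a ∈ B.S s s 1 := B.mem_S.mpr ⟨ha, by rw [h.1, Nat.cast_one]⟩
  intro u hu
  unfold U6 at hu
  simp only [Finset.mem_insert, Finset.mem_singleton] at hu
  rcases hu with rfl | rfl | rfl | rfl | rfl | rfl
  · exact B.one_S s
  · exact B.neg_S (B.one_S s)
  · exact h1
  · exact B.neg_S h1
  · exact B.star_S h1
  · exact B.neg_S (B.star_S h1)

theorem card_six {s : ι} (h : B.Six s) : (B.S s s 1).card = 6 := by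
  obtain ⟨a, ha, h⟩ := h
  have h1 := Finset.card_le_card (B.U6_sub ha h)
  rw [U6_card h] at h1
  have := B.r2 s s
  omega

theorem unit_two {s : ι} (h : ¬ B.Six s) {u : ℍ[ℝ]} (hu : u ∈ B.S s s 1) : u = 1 ∨ u = -1 := by
  have hu' := B.mem_S.mp hu
  obtain ⟨m, hm⟩ := B.tr_int hu'.1
  have h1 := hu'.2
  rw [Nat.cast_one] at h1
  have h2 := h1
  rw [normSq_def'] at h2
  have n1 := sq_nonneg u.imI
  have n2 := sq_nonneg u.imJ
  have n3 := sq_nonneg u.imK
  have b1 : m ≤ 2 := by
    have : (m : ℝ) ≤ 2 := by nlinarith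
    exact_mod_cast this
  have b2 : -2 ≤ m := by
    have : (-2 : ℝ) ≤ m := by nlinarith
    exact_mod_cast this
  have key : u.re ^ 2 = 1 → u.imI = 0 ∧ u.imJ = 0 ∧ u.imK = 0 := by
    intro h3
    refine ⟨?_, ?_, ?_⟩ <;> apply pow_eq_zero_iff (n := 2) two_ne_zero |>.mp <;> linarith
  interval_cases m
  · right
    have h3 : u.re = -1 := by push_cast at hm; linarith
    obtain ⟨e1, e2, e3⟩ := key (by rw [h3]; norm_num)
    ext <;> simp [h3, e1, e2, e3]
  · exact absurd ⟨u, hu'.1, h1, by push_cast at hm; linarith⟩ h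
  · exfalso
    have h3 : u.re = 0 := by push_cast at hm; linarith
    have h4 : ∀ v ∈ B.S s s 1, v.re = 0 → 1 + v ∈ B.S s s 2 := by
      intro v hv hv0
      rw [B.mem_S] at hv ⊢
      refine ⟨(B.I s s).add_mem (B.one s) hv.1, ?_⟩
      rw [normSq_add, hv.2, one_mul, re_star, hv0, map_one]
      norm_num
    have h5 : u ≠ -u := by
      intro h6
      have h7 : u = 0 := by
        have : (2 : ℍ[ℝ]) * u = 0 := by rw [two_mul]; nth_rewrite 2 [h6]; simp
        exact (mul_eq_zero.mp this).resolve_left two_neq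
      rw [h7, map_zero] at h1
      exact zero_ne_one h1
    have m1 := h4 u hu h3
    have m2 := h4 (-u) (B.neg_S hu) (by rw [re_neg, h3, neg_zero])
    have s1 : ({1, -1, u, -u} : Finset ℍ[ℝ]) ⊆ B.S s s 1 := by
      intro v hv
      simp only [Finset.mem_insert, Finset.mem_singleton] at hv
      rcases hv with rfl | rfl | rfl | rfl
      · exact B.one_S s
      · exact B.neg_S (B.one_S s)
      · exact hu
      · exact B.neg_S hu
    have s2 : ({1 + u, 1 + -u, -(1 + u)} : Finset ℍ[ℝ]) ⊆ B.S s s 2 := by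
      intro v hv
      simp only [Finset.mem_insert, Finset.mem_singleton] at hv
      rcases hv with rfl | rfl | rfl
      · exact m1
      · exact m2
      · exact B.neg_S m1
    have c1 := Finset.card_le_card s1
    have c2 := Finset.card_le_card s2
    rw [Finset.card_insert_of_notMem, Finset.card_insert_of_notMem, Finset.card_insert_of_notMem,
      Finset.card_singleton] at c1
    · rw [Finset.card_insert_of_notMem, Finset.card_insert_of_notMem, Finset.card_singleton] at c2
      · have := B.r2 s s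
        omega
      · rw [Finset.mem_singleton]
        apply ne_of_re
        simp only [re_neg, re_add, re_one, h3]
        norm_num
      · simp only [Finset.mem_insert, Finset.mem_singleton, not_or]
        refine ⟨fun h6 => h5 (add_left_cancel h6), ?_⟩
        apply ne_of_re
        simp only [re_neg, re_add, re_one, h3]
        norm_num
    · rw [Finset.mem_singleton]
      exact h5
    · simp only [Finset.mem_insert, Finset.mem_singleton, not_or]
      refine ⟨?_, ?_⟩ <;> apply ne_of_re <;> simp only [re_neg, re_one, h3] <;> norm_num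
    · simp only [Finset.mem_insert, Finset.mem_singleton, not_or]
      refine ⟨?_, ?_, ?_⟩ <;> apply ne_of_re <;> simp only [re_neg, re_one, h3] <;> norm_num
  · exact absurd ⟨-u, (B.I s s).neg_mem hu'.1, by rw [normSq_neg, h1], by
      rw [re_neg]; push_cast at hm; linarith⟩ h
  · left
    have h3 : u.re = 1 := by push_cast at hm; linarith
    obtain ⟨e1, e2, e3⟩ := key (by rw [h3]; norm_num)
    ext <;> simp [h3, e1, e2, e3]

theorem card_two {s : ι} (h : ¬ B.Six s) : (B.S s s 1).card = 2 := by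
  have : B.S s s 1 = {1, -1} := by
    ext u
    simp only [Finset.mem_insert, Finset.mem_singleton]
    constructor
    · exact B.unit_two h
    · rintro (rfl | rfl)
      · exact B.one_S s
      · exact B.neg_S (B.one_S s)
  rw [this, Finset.card_insert_of_notMem, Finset.card_singleton]
  rw [Finset.mem_singleton]
  apply ne_of_re
  simp only [re_neg, re_one]
  norm_num

theorem S_ne_zero {s t : ι} {x : ℍ[ℝ]} {m : ℕ} (hx : x ∈ B.S s t m) (hm : m ≠ 0) : x ≠ 0 := by
  rintro rfl
  have := (B.mem_S.mp hx).2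
  rw [map_zero] at this
  exact hm (by exact_mod_cast this.symm)

theorem card_transfer {s t : ι} {u : ℍ[ℝ]} (hu : u ∈ B.S s t 1) :
    (B.S s s 1).card = (B.S s t 1).card ∧ (B.S t t 1).card = (B.S s t 1).card := by
  have h0 := B.S_ne_zero hu one_ne_zero
  have h1 := (B.mem_S.mp hu).2
  constructor
  · refine Finset.card_bij (fun x _ => x * u) (fun x hx => B.mul_S hx hu)
      (fun x _ y _ h => mul_right_cancel₀ h0 h) fun y hy => ⟨y * Star.star u,
        B.mul_S hy (B.star_S hu), ?_⟩
    rw [mul_assoc, star_mul_self, h1]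
    simp
  · refine Finset.card_bij (fun x _ => u * x) (fun x hx => B.mul_S hu hx)
      (fun x _ y _ h => mul_left_cancel₀ h0 h) fun y hy => ⟨Star.star u * y,
        B.mul_S (B.star_S hu) hy, ?_⟩
    rw [← mul_assoc, self_mul_star, h1]
    simp

theorem col_unit {s t u : ι} {x y : ℍ[ℝ]} (hx : x ∈ B.S s t 2) (hy : y ∈ B.S s u 2)
    (h : B.col s t x = B.col s u y) : ∃ z ∈ B.S t u 1, y = x * z := by
  obtain ⟨z, hz, h1⟩ := B.hcol hx hy h
  have h2 := (B.mem_S.mp hx).2
  have h3 := (B.mem_S.mp hy).2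
  have h4 : normSq (2 : ℍ[ℝ]) = 4 := by
    have := normSq_natCast (R := ℝ) 2
    rw [Nat.cast_ofNat] at this
    rw [this]
    norm_num
  refine ⟨z, B.mem_S.mpr ⟨hz, ?_⟩, ?_⟩
  · have h5 := congrArg normSq h1
    rw [map_mul, map_mul, normSq_star, h2, h3, h4] at h5
    push_cast at h5 ⊢
    linarith
  · have h5 : x * (Star.star x * y) = x * (2 * z) := by rw [h1]
    rw [← mul_assoc, self_mul_star, h2] at h5
    have h6 : (((2 : ℕ) : ℝ) : ℍ[ℝ]) = 2 := by
      rw [coe_natCast, Nat.cast_ofNat]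
    rw [h6, two_mul, two_mul, mul_add, ← two_mul, ← two_mul] at h5
    exact mul_left_cancel₀ two_neq h5

theorem not_two_two {s t : ι} (hs : ¬ B.Six s) (ht : ¬ B.Six t) : (B.S s t 1).Nonempty := by
  by_contra h0
  rw [Finset.not_nonempty_iff_eq_empty] at h0
  have h1 := B.r2 s t
  rw [h0, Finset.card_empty, add_zero] at h1
  have h2 := B.r2 s s
  rw [B.card_two hs] at h2
  obtain ⟨p, hp⟩ : (B.S s s 2).Nonempty := Finset.card_pos.mp (by omega)
  have h3 := Finset.card_le_mul_card_image_of_maps_to (f := B.col s t) (s := B.S s t 2)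
    (t := Finset.univ.erase (B.col s s p)) (fun x hx => ?_) 2 (fun k _ => ?_)
  · rw [Finset.card_erase_of_mem (Finset.mem_univ _), Finset.card_univ, Fintype.card_fin] at h3
    omega
  · rw [Finset.mem_erase]
    refine ⟨fun h => ?_, Finset.mem_univ _⟩
    obtain ⟨z, hz, -⟩ := B.col_unit hp hx h.symm
    rw [h0] at hz
    exact absurd hz (Finset.notMem_empty z)
  · by_cases h4 : ((B.S s t 2).filter (fun a => B.col s t a = k)).Nonempty
    · obtain ⟨x, hx⟩ := h4
      rw [Finset.mem_filter] at hx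
      refine le_trans (Finset.card_le_card (t := {x, -x}) fun y hy => ?_) Finset.card_le_two
      rw [Finset.mem_filter] at hy
      obtain ⟨z, hz, h5⟩ := B.col_unit hx.1 hy.1 (hx.2.trans hy.2.symm)
      simp only [Finset.mem_insert, Finset.mem_singleton]
      rcases B.unit_two ht hz with rfl | rfl
      · left; rw [h5, mul_one]
      · right; rw [h5, mul_neg, mul_one]
    · rw [Finset.not_nonempty_iff_eq_empty] at h4
      rw [h4]
      simp

theorem eig {s t : ι} {a b v : ℍ[ℝ]} {m : ℕ} (ha : a ∈ B.I s s) (ha' : Cub a) (hb : b ∈ B.I t t)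
    (hb' : Cub b) (hv : v ∈ B.S s t m) (hm : m ≠ 0) (hc : (B.S s t m).card = 6) :
    v * b = a * v ∨ v * b = Star.star a * v := by
  have h0 := B.S_ne_zero hv hm
  have h1 : (U6 a).image (fun u => u * v) = B.S s t m := by
    apply Finset.eq_of_subset_of_card_le
    · intro y hy
      rw [Finset.mem_image] at hy
      obtain ⟨u, hu, rfl⟩ := hy
      have := B.mul_S (B.U6_sub ha ha' hu) hv
      rwa [one_mul] at this
    · rw [Finset.card_image_of_injective _ (mul_left_injective₀ h0), U6_card ha', hc]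
  have h2 : v * b ∈ B.S s t m := by
    have := B.mul_S hv (B.mem_S.mpr ⟨hb, by rw [hb'.1, Nat.cast_one]⟩ : b ∈ B.S t t 1)
    rwa [mul_one] at this
  rw [← h1, Finset.mem_image] at h2
  obtain ⟨u, hu, h3⟩ := h2
  have h4 : u.re = -1 / 2 := by
    have h5 : u = v * (b * v⁻¹) := by rw [← mul_assoc, ← h3, mul_assoc, mul_inv_cancel₀ h0, mul_one]
    rw [h5, re_comm, mul_assoc, inv_mul_cancel₀ h0, mul_one, hb'.2]
  rcases U6_re ha' hu h4 with rfl | rfl
  · exact Or.inl h3.symm
  · exact Or.inr h3.symm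

theorem not_six_six {s t : ι} (hs : B.Six s) (ht : B.Six t) : (B.S s t 1).Nonempty := by
  by_contra h0
  rw [Finset.not_nonempty_iff_eq_empty] at h0
  obtain ⟨a, ha, ha'⟩ := hs
  obtain ⟨b, hb, hb'⟩ := ht
  have h2 := B.r2 s t
  have h3 := B.r3 s t
  have h5 := B.r5 s t
  rw [h0, Finset.card_empty] at h2 h5
  have hbb : b * Star.star b = 1 := by rw [self_mul_star, hb'.1]; rfl
  have flip : ∀ w u : ℍ[ℝ], Cub u → w * b = u * w → b * Star.star w = Star.star w * u := by
    intro w u hu h
    have h6 := congrArg Star.star h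
    rw [star_mul, star_mul] at h6
    have huu : Star.star u * u = 1 := by rw [star_mul_self, hu.1]; rfl
    calc b * Star.star w = b * (Star.star w * Star.star u) * u := by
          rw [mul_assoc, mul_assoc, huu, mul_one]
      _ = _ := by rw [← h6, ← mul_assoc, hbb, one_mul]
  have same : ∀ v ∈ B.S s t 2, ∀ w ∈ B.S s t 3, ∀ u ∈ B.I s s, Cub u → v * b = u * v →
      w * b ≠ u * w := by
    intro v hv w hw u hu hu' e1 e2
    have hz := B.mul_S hv (B.star_S hw)
    have h6 : u * (v * Star.star w) = (v * Star.star w) * u := by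
      rw [← mul_assoc, ← e1, mul_assoc, flip w u hu' e2, mul_assoc]
    have h7 := same_id hu' h6
    rw [B.mem_S] at hz
    obtain ⟨x, hx⟩ := B.tr_int hz.1
    obtain ⟨y, hy⟩ := B.tr_int (B.mul hz.1 hu)
    rw [hx, hy, hz.2] at h7
    apply no18 x y
    have : ((x ^ 2 + x * y + y ^ 2 : ℤ) : ℝ) = (18 : ℤ) := by
      push_cast at h7 ⊢
      linarith
    exact_mod_cast this
  have opp : ∀ v w u : ℍ[ℝ], Cub u → v * b = u * v → w * b = Star.star u * w →
      (v * Star.star w).re = 0 := by
    intro v w u hu e1 e2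
    apply opp_id hu
    rw [← mul_assoc, ← e1, mul_assoc, flip w _ hu.star e2, mul_assoc]
  have orth : ∀ v ∈ B.S s t 2, ∀ w ∈ B.S s t 3, (v * Star.star w).re = 0 := by
    intro v hv w hw
    rcases B.eig ha ha' hb hb' hv two_ne_zero (by omega) with e1 | e1 <;>
      rcases B.eig ha ha' hb hb' hw three_ne_zero h3 with e2 | e2
    · exact absurd e2 (same v hv w hw a ha ha' e1)
    · exact opp v w a ha' e1 e2
    · exact opp v w _ ha'.star e1 (by rwa [star_star])
    · exact absurd e2 (same v hv w hw _ (B.star ha) ha'.star e1)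
  have h6 := Finset.card_le_card_of_injOn (s := B.S s t 2 ×ˢ B.S s t 3) (t := B.S s t 5)
    (fun p => p.1 + p.2) ?_ ?_
  · rw [Finset.card_product] at h6
    have : (B.S s t 2).card = 6 := by omega
    rw [this, h3] at h6
    omega
  · intro p hp
    rw [Finset.mem_coe, Finset.mem_product] at hp
    have e1 := orth _ hp.1 _ hp.2
    have e2 := B.mem_S.mp hp.1
    have e3 := B.mem_S.mp hp.2
    rw [Finset.mem_coe, B.mem_S]
    refine ⟨(B.I s t).add_mem e2.1 e3.1, ?_⟩
    rw [normSq_add, e1, e2.2, e3.2]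
    norm_num
  · intro p hp p' hp' h
    rw [Finset.mem_coe, Finset.mem_product] at hp hp'
    have e0 : p.1 - p'.1 = p'.2 - p.2 := by
      have : p.1 + p.2 = p'.1 + p'.2 := h
      rw [sub_eq_sub_iff_add_eq_add, this, add_comm]
    have e1 : normSq (p.1 - p'.1) = 0 := by
      rw [normSq_def]
      nth_rewrite 2 [e0]
      rw [star_sub, sub_mul, mul_sub, mul_sub, re_sub, re_sub, re_sub, orth _ hp.1 _ hp.2,
        orth _ hp.1 _ hp'.2, orth _ hp'.1 _ hp.2, orth _ hp'.1 _ hp'.2]
      norm_num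
    rw [normSq_eq_zero] at e1
    rw [e1] at e0
    exact Prod.ext (sub_eq_zero.mp e1) (sub_eq_zero.mp e0.symm).symm

/-- **two types** -/
theorem exists_phi : ∃ φ : ι → ℤ, (∀ s, φ s = 1 ∨ φ s = -3) ∧
    ∀ s t, 2 * ((B.S s t 1).card : ℤ) - 3 = φ s * φ t := by
  refine ⟨fun s => if B.Six s then -3 else 1, fun s => ?_, fun s t => ?_⟩
  · by_cases h : B.Six s
    · right; simp only [if_pos h]
    · left; simp only [if_neg h]
  · by_cases h0 : (B.S s t 1).Nonempty
    · obtain ⟨u, hu⟩ := h0
      obtain ⟨h1, h2⟩ := B.card_transfer hu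
      by_cases hs : B.Six s <;> by_cases ht : B.Six t
      · simp only [if_pos hs, if_pos ht]
        rw [← h1, B.card_six hs]
        norm_num
      · rw [B.card_six hs] at h1
        rw [B.card_two ht] at h2
        omega
      · rw [B.card_two hs] at h1
        rw [B.card_six ht] at h2
        omega
      · simp only [if_neg hs, if_neg ht]
        rw [← h1, B.card_two hs]
        norm_num
    · by_cases hs : B.Six s <;> by_cases ht : B.Six t
      · exact absurd (B.not_six_six hs ht) h0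
      · rw [Finset.not_nonempty_iff_eq_empty] at h0
        simp only [if_pos hs, if_neg ht, h0]
        norm_num
      · rw [Finset.not_nonempty_iff_eq_empty] at h0
        simp only [if_neg hs, if_pos ht, h0]
        norm_num
      · exact absurd (B.not_two_two hs ht) h0

end BG

end Vale.Agent.P014D
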