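import Vale.Agent.P014D.Thw
import Vale.Agent.P014D.Quat

/-!
# P014 (D): the lattices of Gross points inside the quaternions
-/

open NumberField Quaternion
open scoped ComplexConjugate

namespace Vale.Agent.P014D

open Vale.Agent.P017.H185 Vale.Agent.P014.H70 Vale.Agent.P014B Vale.Agent.P014.H687

/-! ### quaternions as pairs of complex numbers -/

/-- the quaternion `α + β j` -/
def hq (α β : ℂ) : ℍ[ℝ] := ⟨α.re, α.im, β.re, β.im⟩

theorem hq_re (α β : ℂ) : (hq α β).re = α.re := rfl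

theorem hq_imI (α β : ℂ) : (hq α β).imI = α.im := rfl

theorem hq_imJ (α β : ℂ) : (hq α β).imJ = β.re := rfl

theorem hq_imK (α β : ℂ) : (hq α β).imK = β.im := rfl

theorem hq_mul (α β α' β' : ℂ) :
    hq α β * hq α' β' = hq (α * α' - β * conj β') (α * β' + β * conj α') := by
  ext <;> simp [hq_re, hq_imI, hq_imJ, hq_imK] <;> ring

theorem hq_star (α β : ℂ) : star (hq α β) = hq (conj α) (-β) := by
  ext <;> simp [hq_re, hq_imI, hq_imJ, hq_imK]

theorem hq_add (α β α' β' : ℂ) : hq (α + α') (β + β') = hq α β + hq α' β' := by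
  ext <;> simp [hq_re, hq_imI, hq_imJ, hq_imK]

theorem hq_zero : hq 0 0 = 0 := by
  ext <;> simp [hq_re, hq_imI, hq_imJ, hq_imK]

theorem hq_one : hq 1 0 = 1 := by
  ext <;> simp [hq_re, hq_imI, hq_imJ, hq_imK]

theorem hq_norm (α β : ℂ) : ((normSq (hq α β) : ℝ) : ℂ) = α * conj α + β * conj β := by
  rw [normSq_def', Complex.mul_conj, Complex.mul_conj, ← Complex.ofReal_add]
  congr 1
  simp [hq, Complex.normSq_apply]
  ring

theorem hq_inj {α β α' β' : ℂ} (h : hq α β = hq α' β') : α = α' ∧ β = β' :=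
  ⟨Complex.ext (congrArg QuaternionAlgebra.re h) (congrArg QuaternionAlgebra.imI h),
    Complex.ext (congrArg QuaternionAlgebra.imJ h) (congrArg QuaternionAlgebra.imK h)⟩

/-! ### the three colours -/

/-- the colour of a pair modulo two -/
def cf (e u1 v1 u2 v2 : ZMod 2) : Fin 3 :=
  if e = 0 then (if u1 = 0 ∧ u2 = 0 then 0 else if u1 = v1 ∧ u2 = v2 then 1 else 2)
  else (if u2 = u1 ∧ v2 = u1 + v1 then 0 else if u2 = v1 ∧ v2 = u1 then 1 else 2)

set_option synthInstance.maxSize 2000 in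
theorem cf_spec : ∀ e u1 v1 u2 v2 u3 v3 u4 v4 : ZMod 2,
    (u1 ^ 2 + u1 * v1 + e * v1 ^ 2) + (u2 ^ 2 + u2 * v2 + e * v2 ^ 2) = 0 →
    ¬ (u1 = 0 ∧ v1 = 0 ∧ u2 = 0 ∧ v2 = 0) →
    (u3 ^ 2 + u3 * v3 + e * v3 ^ 2) + (u4 ^ 2 + u4 * v4 + e * v4 ^ 2) = 0 →
    ¬ (u3 = 0 ∧ v3 = 0 ∧ u4 = 0 ∧ v4 = 0) → cf e u1 v1 u2 v2 = cf e u3 v3 u4 v4 →
    ((u1 + v1) * u3 + e * v1 * v3 + (u2 * (u4 + v4) + e * v2 * v4) = 0 ∧
      u1 * v3 - v1 * u3 + (v2 * u4 - u2 * v4) = 0) ∧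
    ((u1 + v1) * u4 + e * v1 * v4 + (u2 * (u3 + v3) + e * v2 * v3) = 0 ∧
      u1 * v4 - v1 * u4 + (v2 * u3 - u2 * v3) = 0) := by
  decide +kernel

open scoped Classical

variable {K : Type} [Field K] [NumberField K] {n : ℕ} (q : QF K n) (hn4 : n % 4 = 3)

/-- coordinates in the integral basis -/
noncomputable def uu (z : 𝓞 K) : ℤ := (exists_uv q hn4 z).choose

/-- coordinates in the integral basis -/
noncomputable def vv (z : 𝓞 K) : ℤ := (exists_uv q hn4 z).choose_spec.choose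

theorem uv_spec (z : 𝓞 K) : z = uu q hn4 z + vv q hn4 z * om q hn4 :=
  (exists_uv q hn4 z).choose_spec.choose_spec

/-- the colour of a pair -/
noncomputable def colp (p : 𝓞 K × 𝓞 K) : Fin 3 :=
  cf (((n + 1) / 4 : ℕ) : ZMod 2) (uu q hn4 p.1) (vv q hn4 p.1) (uu q hn4 p.2) (vv q hn4 p.2)

theorem two_dvd_uv {u v : ℤ} (hu : (u : ZMod 2) = 0) (hv : (v : ZMod 2) = 0) :
    (2 : 𝓞 K) ∣ u + v * om q hn4 := by
  obtain ⟨a, rfl⟩ := (ZMod.intCast_zmod_eq_zero_iff_dvd u 2).mp hu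
  obtain ⟨b, rfl⟩ := (ZMod.intCast_zmod_eq_zero_iff_dvd v 2).mp hv
  exact ⟨a + b * om q hn4, by push_cast; ring⟩

theorem colp_spec {p p' : 𝓞 K × 𝓞 K} (h1 : 2 ∣ q.N p.1 + q.N p.2)
    (h2 : ¬ ((2 : 𝓞 K) ∣ p.1 ∧ (2 : 𝓞 K) ∣ p.2)) (h3 : 2 ∣ q.N p'.1 + q.N p'.2)
    (h4 : ¬ ((2 : 𝓞 K) ∣ p'.1 ∧ (2 : 𝓞 K) ∣ p'.2)) (h : colp q hn4 p = colp q hn4 p') :
    (2 : 𝓞 K) ∣ q.s p.1 * p'.1 + p.2 * q.s p'.2 ∧ (2 : 𝓞 K) ∣ q.s p.1 * p'.2 + p.2 * q.s p'.1 := by
  have key : ∀ r : 𝓞 K × 𝓞 K, 2 ∣ q.N r.1 + q.N r.2 → ¬ ((2 : 𝓞 K) ∣ r.1 ∧ (2 : 𝓞 K) ∣ r.2) →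
      ((uu q hn4 r.1 : ZMod 2) ^ 2 + (uu q hn4 r.1 : ZMod 2) * vv q hn4 r.1 +
        (((n + 1) / 4 : ℕ) : ZMod 2) * (vv q hn4 r.1 : ZMod 2) ^ 2) +
      ((uu q hn4 r.2 : ZMod 2) ^ 2 + (uu q hn4 r.2 : ZMod 2) * vv q hn4 r.2 +
        (((n + 1) / 4 : ℕ) : ZMod 2) * (vv q hn4 r.2 : ZMod 2) ^ 2) = 0 ∧
      ¬ ((uu q hn4 r.1 : ZMod 2) = 0 ∧ (vv q hn4 r.1 : ZMod 2) = 0 ∧
        (uu q hn4 r.2 : ZMod 2) = 0 ∧ (vv q hn4 r.2 : ZMod 2) = 0) := by
    intro r e1 e2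
    constructor
    · have n1 := N_uv q hn4 (uu q hn4 r.1) (vv q hn4 r.1)
      have n2 := N_uv q hn4 (uu q hn4 r.2) (vv q hn4 r.2)
      rw [← uv_spec] at n1 n2
      have e3 : ((q.N r.1 + q.N r.2 : ℤ) : ZMod 2) = 0 := by
        rw [ZMod.intCast_zmod_eq_zero_iff_dvd]
        exact_mod_cast e1
      rw [n1, n2] at e3
      simp only [Int.cast_add, Int.cast_mul, Int.cast_pow, Int.cast_natCast] at e3
      exact e3
    · rintro ⟨a1, a2, a3, a4⟩
      apply e2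
      constructor
      · rw [uv_spec q hn4 r.1]
        exact two_dvd_uv q hn4 a1 a2
      · rw [uv_spec q hn4 r.2]
        exact two_dvd_uv q hn4 a3 a4
  obtain ⟨k1, k2⟩ := key p h1 h2
  obtain ⟨k3, k4⟩ := key p' h3 h4
  obtain ⟨⟨c1, c2⟩, c3, c4⟩ := cf_spec _ _ _ _ _ _ _ _ _ k1 k2 k3 k4 h
  have hs : ∀ z : 𝓞 K, q.s z = uu q hn4 z + vv q hn4 z * (1 - om q hn4) := by
    intro z
    conv_lhs => rw [uv_spec q hn4 z]
    rw [map_add, map_mul, map_intCast, map_intCast, s_om]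
  have hw := om_sq q hn4
  have gen : ∀ x y x' y' : 𝓞 K, q.s x * x' + y * q.s y' =
      (((uu q hn4 x + vv q hn4 x) * uu q hn4 x' + ((n + 1) / 4 : ℕ) * vv q hn4 x * vv q hn4 x' +
        (uu q hn4 y * (uu q hn4 y' + vv q hn4 y') + ((n + 1) / 4 : ℕ) * vv q hn4 y * vv q hn4 y') :
          ℤ) : 𝓞 K) +
      ((uu q hn4 x * vv q hn4 x' - vv q hn4 x * uu q hn4 x' +
        (vv q hn4 y * uu q hn4 y' - uu q hn4 y * vv q hn4 y') : ℤ) : 𝓞 K) * om q hn4 := by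
    intro x y x' y'
    rw [hs x, hs y']
    simp only [Int.cast_add, Int.cast_mul, Int.cast_sub, Int.cast_natCast]
    have e1 := uv_spec q hn4 x'
    have e2 := uv_spec q hn4 y
    linear_combination (uu q hn4 x + vv q hn4 x * (1 - om q hn4)) * e1 +
      (uu q hn4 y' + vv q hn4 y' * (1 - om q hn4)) * e2 -
      ((vv q hn4 x : 𝓞 K) * vv q hn4 x' + vv q hn4 y * vv q hn4 y') * hw
  constructor
  · rw [gen]
    apply two_dvd_uv
    · simp only [Int.cast_add, Int.cast_mul, Int.cast_natCast]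
      exact c1
    · simp only [Int.cast_add, Int.cast_mul, Int.cast_sub]
      exact c2
  · rw [gen]
    apply two_dvd_uv
    · simp only [Int.cast_add, Int.cast_mul, Int.cast_natCast]
      exact c3
    · simp only [Int.cast_add, Int.cast_mul, Int.cast_sub]
      exact c4

/-! ### a complex embedding -/

theorem exists_emb : ∃ φ : 𝓞 K →+* ℂ, Function.Injective φ ∧ ∀ z, conj (φ z) = φ (q.s z) := by
  let ψ : K →+* ℂ := (IsAlgClosed.lift : K →ₐ[ℚ] ℂ).toRingHom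
  refine ⟨ψ.comp (algebraMap (𝓞 K) K), ψ.injective.comp fun x y h => QF.ext' h, fun z => ?_⟩
  have h1 : ψ q.θ ^ 2 = -(n : ℂ) := by rw [← map_pow, q.hθ, map_neg, map_natCast]
  have h2 : conj (ψ q.θ) = -ψ q.θ := by
    have h3 := congrArg Complex.re h1
    have h4 := congrArg Complex.im h1
    have hn : (0 : ℝ) < n := by exact_mod_cast q.d_pos
    simp only [sq, Complex.mul_re, Complex.mul_im, Complex.neg_re, Complex.neg_im,
      Complex.natCast_re, Complex.natCast_im, neg_zero] at h3 h4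
    have h5 : (ψ q.θ).re = 0 := by
      by_contra h6
      have h7 : (ψ q.θ).im = 0 := by
        apply mul_left_cancel₀ h6
        linarith
      rw [h7] at h3
      nlinarith [mul_self_nonneg (ψ q.θ).re]
    apply Complex.ext
    · rw [Complex.conj_re, Complex.neg_re, h5, neg_zero]
    · rw [Complex.conj_im, Complex.neg_im]
  show conj (ψ (algebraMap (𝓞 K) K z)) = ψ (algebraMap (𝓞 K) K (q.s z))
  rw [QF.coe_s, q.σ_apply]
  conv_lhs => rw [q.eq_re_im (algebraMap (𝓞 K) K z)]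
  simp only [map_add, map_sub, map_mul, map_ratCast, h2]
  ring

/-- the embedding -/
noncomputable def ph : 𝓞 K →+* ℂ := (exists_emb q).choose

theorem ph_inj : Function.Injective (ph q) := (exists_emb q).choose_spec.1

theorem conj_ph (z : 𝓞 K) : conj (ph q z) = ph q (q.s z) := (exists_emb q).choose_spec.2 z

theorem ph_t_sq : ph q q.t ^ 2 = -(n : ℂ) := by rw [← map_pow, q.t_sq, map_neg, map_natCast]

theorem ph_t_ne : ph q q.t ≠ 0 := by
  rw [Ne, map_eq_zero_iff _ (ph_inj q)]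
  exact q.t_ne_zero

theorem conj_ph_t : conj (ph q q.t) = -ph q q.t := by rw [conj_ph, q.s_t, map_neg]

theorem ph_N (z : 𝓞 K) : ph q z * ph q (q.s z) = q.N z := by
  rw [← map_mul, q.mul_s, map_natCast]

/-! ### membership lemmas -/

theorem mem_of_theta {X : Ideal (𝓞 K)} (h : Nat.Coprime (NI q X) n) {z : 𝓞 K}
    (hz : q.t * z ∈ X) : z ∈ X := by
  obtain ⟨u, v, huv⟩ := Nat.isCoprime_iff_coprime.mpr h
  have h1 : ((u * NI q X + v * n : ℤ) : 𝓞 K) = 1 := by rw [huv, Int.cast_one]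
  push_cast at h1
  have h2 : z = (u * z) * NI q X + (-(v * q.t)) * (q.t * z) := by
    linear_combination (-z) * h1 + (v * z) * q.t_sq
  rw [h2]
  exact X.add_mem (X.mul_mem_left _ (NI_mem q X)) (X.mul_mem_left _ hz)

theorem mem_of_two {X : Ideal (𝓞 K)} (h : Odd (NI q X)) {z : 𝓞 K} (hz : 2 * z ∈ X) : z ∈ X := by
  obtain ⟨k, hk⟩ := h
  have h1 : ((NI q X : ℕ) : 𝓞 K) = 2 * k + 1 := by rw [hk]; push_cast; ring
  have h2 : z = z * NI q X + (-k) * (2 * z) := by rw [h1]; ring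
  rw [h2]
  exact X.add_mem (X.mul_mem_left _ (NI_mem q X)) (X.mul_mem_left _ hz)

omit [NumberField K] in
theorem two_dvd_of_odd {m : ℕ} (h : Odd m) {z : 𝓞 K} (hz : (2 : 𝓞 K) ∣ m * z) : (2 : 𝓞 K) ∣ z := by
  obtain ⟨k, rfl⟩ := h
  have : z = ((2 * k + 1 : ℕ) : 𝓞 K) * z - 2 * (k * z) := by push_cast; ring
  rw [this]
  exact dvd_sub hz (dvd_mul_right _ _)

omit [NumberField K] in
theorem ex_div {A B C : Ideal (𝓞 K)} {m : ℕ} (h : A * B = Ideal.span {(m : 𝓞 K)} * C) {x y : 𝓞 K}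
    (hx : x ∈ A) (hy : y ∈ B) : ∃ w ∈ C, (m : 𝓞 K) * w = x * y := by
  have := Ideal.mul_mem_mul hx hy
  rwa [h, Ideal.mem_span_singleton_mul] at this

/-! ### the system of lattices -/

/-- the data: odd representatives and an auxiliary ideal of norm `-17` modulo `n` -/
structure Aux (q : QF K n) where
  S : ClassGroup (𝓞 K) → Ideal (𝓞 K)
  Q : Ideal (𝓞 K)
  hS : ∀ s, Nat.Coprime (NI q (S s)) (17 * n)
  hS2 : ∀ s, Odd (NI q (S s))
  hcl : ∀ s, cl (S s) = s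
  hQ : Nat.Coprime (NI q Q) (17 * n)
  hQ2 : Odd (NI q Q)
  hQ3 : (NI q Q : ZMod n) = -17

namespace Aux

variable {q} (A : Aux q)

/-- the first ideal -/
noncomputable def X (s t : ClassGroup (𝓞 K)) : Ideal (𝓞 K) := A.S s * cj q (A.S t)

/-- the second ideal -/
noncomputable def Y (s t : ClassGroup (𝓞 K)) : Ideal (𝓞 K) := A.S s * A.S t * A.Q

theorem NI_X (s t : ClassGroup (𝓞 K)) : NI q (A.X s t) = NI q (A.S s) * NI q (A.S t) := by
  unfold X
  rw [NI_mul, NI_cj]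

theorem NI_Y (s t : ClassGroup (𝓞 K)) :
    NI q (A.Y s t) = NI q (A.S s) * NI q (A.S t) * NI q A.Q := by
  unfold Y
  rw [NI_mul, NI_mul]

theorem gd (s t : ClassGroup (𝓞 K)) : Gd q (A.X s t) (A.Y s t) 1 where
  hX := by
    rw [NI_X]
    exact Nat.Coprime.coprime_mul_left_right (Nat.Coprime.mul_left (A.hS s) (A.hS t))
  hY := by
    rw [NI_Y]
    exact Nat.Coprime.mul_left (Nat.Coprime.mul_left (A.hS s) (A.hS t)) A.hQ
  hl := by
    rw [NI_X, NI_Y]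
    push_cast
    rw [A.hQ3]
    ring

theorem hYn (s t : ClassGroup (𝓞 K)) : Nat.Coprime (NI q (A.Y s t)) n :=
  Nat.Coprime.coprime_mul_left_right (A.gd s t).hY

/-- square root of the norm -/
noncomputable def sg (s : ClassGroup (𝓞 K)) : ℂ := (√(NI q (A.S s) : ℝ) : ℝ)

/-- the scale of `j` -/
noncomputable def kp : ℂ := (√(17 / (NI q A.Q : ℝ)) : ℝ)

theorem NS_ne (s : ClassGroup (𝓞 K)) : NI q (A.S s) ≠ 0 := (A.hS2 s).pos.ne'

theorem NQ_ne : NI q A.Q ≠ 0 := A.hQ2.pos.ne'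

theorem sg_sq (s : ClassGroup (𝓞 K)) : A.sg s ^ 2 = NI q (A.S s) := by
  unfold sg
  rw [← Complex.ofReal_pow, Real.sq_sqrt (Nat.cast_nonneg _), Complex.ofReal_natCast]

theorem sg_ne (s : ClassGroup (𝓞 K)) : A.sg s ≠ 0 := by
  intro h
  have := A.sg_sq s
  rw [h, zero_pow two_ne_zero] at this
  exact A.NS_ne s (by exact_mod_cast this.symm)

theorem conj_sg (s : ClassGroup (𝓞 K)) : conj (A.sg s) = A.sg s := Complex.conj_ofReal _

theorem kp_sq : A.kp ^ 2 * NI q A.Q = 17 := by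
  unfold kp
  have : ((NI q A.Q : ℕ) : ℂ) ≠ 0 := by exact_mod_cast A.NQ_ne
  rw [← Complex.ofReal_pow, Real.sq_sqrt (by positivity)]
  push_cast
  field_simp

theorem kp_ne : A.kp ≠ 0 := by
  intro h
  have := A.kp_sq
  rw [h] at this
  norm_num at this

theorem conj_kp : conj A.kp = A.kp := Complex.conj_ofReal _

/-- the embedding of pairs -/
noncomputable def emb (s t : ClassGroup (𝓞 K)) : 𝓞 K × 𝓞 K →+ ℍ[ℝ] where
  toFun p := hq (ph q p.1 / (ph q q.t * A.sg s * A.sg t))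
    (ph q p.2 * A.kp / (ph q q.t * A.sg s * A.sg t))
  map_zero' := by simp [hq_zero]
  map_add' p p' := by
    rw [← hq_add, Prod.fst_add, Prod.snd_add, map_add, map_add, add_mul, add_div, add_div]

theorem emb_apply (s t : ClassGroup (𝓞 K)) (p : 𝓞 K × 𝓞 K) :
    A.emb s t p = hq (ph q p.1 / (ph q q.t * A.sg s * A.sg t))
      (ph q p.2 * A.kp / (ph q q.t * A.sg s * A.sg t)) := rfl

theorem emb_inj (s t : ClassGroup (𝓞 K)) : Function.Injective (A.emb s t) := by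
  intro p p' h
  obtain ⟨h1, h2⟩ := hq_inj h
  have h0 : ph q q.t * A.sg s * A.sg t ≠ 0 :=
    mul_ne_zero (mul_ne_zero (ph_t_ne q) (A.sg_ne s)) (A.sg_ne t)
  rw [div_left_inj' h0] at h1 h2
  exact Prod.ext (ph_inj q h1) (ph_inj q (mul_right_cancel₀ A.kp_ne h2))

theorem emb_norm (s t : ClassGroup (𝓞 K)) (p : 𝓞 K × 𝓞 K) :
    normSq (A.emb s t p) * (n * NI q (A.X s t) * NI q (A.Y s t) : ℕ) =
      (NI q (A.Y s t) * q.N p.1 + 17 * (NI q (A.X s t) * q.N p.2) : ℕ) := by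
  apply Complex.ofReal_injective
  rw [Complex.ofReal_mul, emb_apply, hq_norm, NI_X, NI_Y]
  simp only [map_div₀, map_mul, conj_ph, q.s_t, map_neg, conj_sg, conj_kp]
  push_cast
  have h1 := ph_t_ne q
  have h2 := A.sg_ne s
  have h3 := A.sg_ne t
  rw [← ph_N, ← ph_N, ← A.sg_sq s, ← A.sg_sq t, ← A.kp_sq]
  have h4 : (n : ℂ) = -ph q q.t ^ 2 := by rw [ph_t_sq]; ring
  rw [h4]
  field_simp
  ring

theorem emb_star (s t : ClassGroup (𝓞 K)) (p : 𝓞 K × 𝓞 K) :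
    star (A.emb s t p) = A.emb t s (-q.s p.1, -p.2) := by
  rw [emb_apply, emb_apply, hq_star]
  simp only [map_div₀, map_mul, conj_ph, q.s_t, conj_sg, map_neg]
  congr 1 <;> ring

theorem star_mem {s t : ClassGroup (𝓞 K)} {p : 𝓞 K × 𝓞 K}
    (hp : p ∈ LL q hn4 (A.X s t) (A.Y s t) 1) :
    ((-q.s p.1, -p.2) : 𝓞 K × 𝓞 K) ∈ LL q hn4 (A.X t s) (A.Y t s) 1 := by
  obtain ⟨h1, h2, h3⟩ := hp
  refine ⟨neg_mem ?_, neg_mem ?_, ?_⟩
  · have : A.X t s = cj q (A.X s t) := by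
      unfold X
      rw [cj_mul, cj_cj, mul_comm]
    rw [this, s_mem_cj]
    exact h1
  · have : A.Y t s = A.Y s t := by
      unfold Y
      rw [mul_comm (A.S t)]
    rw [this]
    exact h2
  · simp only [map_neg, rho_s, h3]
    ring

theorem mul_ex {s t u : ClassGroup (𝓞 K)} {p p' : 𝓞 K × 𝓞 K}
    (hp : p ∈ LL q hn4 (A.X s t) (A.Y s t) 1) (hp' : p' ∈ LL q hn4 (A.X t u) (A.Y t u) 1) :
    ∃ r ∈ LL q hn4 (A.X s u) (A.Y s u) 1, A.emb s t p * A.emb t u p' = A.emb s u r ∧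
      (NI q A.Q : 𝓞 K) * NI q (A.S t) * (q.t * r.1) =
        NI q A.Q * (p.1 * p'.1) + 17 * (p.2 * q.s p'.2) ∧
      (NI q (A.S t) : 𝓞 K) * (q.t * r.2) = p.1 * p'.2 - p.2 * q.s p'.1 := by
  obtain ⟨x, y⟩ := p
  obtain ⟨x', y'⟩ := p'
  obtain ⟨h1, h2, h3⟩ := hp
  obtain ⟨h1', h2', h3'⟩ := hp'
  simp only [one_mul] at h1 h2 h3 h1' h2' h3' ⊢
  obtain ⟨w1, m1, e1⟩ := ex_div (C := A.X s u) (m := NI q (A.S t)) (by
    unfold X
    rw [← mul_cj]
    ring) h1 h1'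
  obtain ⟨w, m0, e0⟩ := ex_div (C := A.X s u) (m := NI q (A.S t * A.Q)) (by
    unfold X Y
    rw [← mul_cj, cj_mul, cj_mul, cj_mul]
    ring) h2 ((s_mem_cj q).mpr h2')
  obtain ⟨w2, m2, e2⟩ := ex_div (C := A.Y s u) (m := NI q (A.S t)) (by
    unfold X Y
    rw [← mul_cj]
    ring) h1 h2'
  obtain ⟨w3, m3, e3⟩ := ex_div (C := A.Y s u) (m := NI q (A.S t)) (by
    unfold X Y
    rw [← mul_cj, cj_mul, cj_cj]
    ring) h2 ((s_mem_cj q).mpr h1')
  rw [NI_mul, Nat.cast_mul] at e0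
  have ut : IsUnit ((NI q (A.S t) : ℕ) : ZMod n) :=
    (ZMod.isUnit_iff_coprime _ _).mpr (Nat.Coprime.coprime_mul_left_right (A.hS t))
  have uq : IsUnit ((NI q A.Q : ℕ) : ZMod n) :=
    (ZMod.isUnit_iff_coprime _ _).mpr (Nat.Coprime.coprime_mul_left_right A.hQ)
  have r1 := congrArg (rho q hn4) e1
  have r0 := congrArg (rho q hn4) e0
  have r2 := congrArg (rho q hn4) e2
  have r3 := congrArg (rho q hn4) e3
  simp only [map_mul, map_natCast, rho_s, h3, h3'] at r0 r1 r2 r3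
  have hq3 := A.hQ3
  obtain ⟨x'', hx''⟩ : q.t ∣ w1 + 17 * w := by
    rw [← rho_eq_zero q hn4, ← (ut.mul uq).mul_right_eq_zero, map_add, map_mul, map_ofNat]
    linear_combination (NI q A.Q : ZMod n) * r1 + 17 * r0 +
      (rho q hn4 y * rho q hn4 y') * hq3
  obtain ⟨y'', hy''⟩ : q.t ∣ w2 - w3 := by
    rw [← rho_eq_zero q hn4, ← ut.mul_right_eq_zero, map_sub]
    linear_combination r2 - r3
  have f1 : (NI q A.Q : 𝓞 K) * NI q (A.S t) * (q.t * x'') =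
      NI q A.Q * (x * x') + 17 * (y * q.s y') := by
    rw [← hx'']
    linear_combination (NI q A.Q : 𝓞 K) * e1 + 17 * e0
  have f2 : (NI q (A.S t) : 𝓞 K) * (q.t * y'') = x * y' - y * q.s x' := by
    rw [← hy'']
    linear_combination e2 - e3
  refine ⟨(x'', y''), ⟨?_, ?_, ?_⟩, ?_, f1, f2⟩
  · apply mem_of_theta q (A.gd s u).hX
    rw [← hx'']
    exact Ideal.add_mem _ m1 (Ideal.mul_mem_left _ _ m0)
  · apply mem_of_theta q (A.hYn s u)
    rw [← hy'']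
    exact Ideal.sub_mem _ m2 m3
  · obtain ⟨v, hv⟩ : q.t ∣ x - y := by
      rw [← rho_eq_zero q hn4, map_sub, h3, sub_self]
    obtain ⟨v', hv'⟩ : q.t ∣ x' - y' := by
      rw [← rho_eq_zero q hn4, map_sub, h3', sub_self]
    obtain ⟨k, hk⟩ : (n : ℤ) ∣ NI q A.Q + 17 := by
      rw [← ZMod.intCast_zmod_eq_zero_iff_dvd]
      push_cast
      rw [hq3]
      ring
    have hk' : (NI q A.Q : 𝓞 K) + 17 = n * k := by exact_mod_cast congrArg (Int.cast : ℤ → 𝓞 K) hk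
    have hs' := congrArg q.s hv'
    rw [map_sub, map_mul, q.s_t] at hs'
    have f3 : (NI q A.Q : 𝓞 K) * NI q (A.S t) * (x'' - y'') =
        NI q A.Q * (x * v' - y * q.s v') - q.t * k * (y * q.s y') := by
      apply mul_left_cancel₀ q.t_ne_zero
      linear_combination f1 - (NI q A.Q : 𝓞 K) * f2 + (NI q A.Q : 𝓞 K) * x * hv' +
        (NI q A.Q : 𝓞 K) * y * hs' + (y * q.s y') * hk' + (k * (y * q.s y')) * q.t_sq
    have r4 := congrArg (rho q hn4) f3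
    simp only [map_mul, map_sub, map_natCast, rho_s, h3, rho_t] at r4
    show rho q hn4 x'' = 1 * rho q hn4 y''
    rw [one_mul, ← sub_eq_zero, ← (uq.mul ut).mul_right_eq_zero]
    linear_combination r4
  · rw [emb_apply, emb_apply, emb_apply, hq_mul]
    simp only [map_div₀, map_mul, conj_ph, q.s_t, map_neg, conj_sg, conj_kp]
    have g1 := congrArg (ph q) f1
    have g2 := congrArg (ph q) f2
    simp only [map_mul, map_add, map_sub, map_natCast, map_ofNat] at g1 g2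
    rw [← A.sg_sq t, ← A.kp_sq] at g1
    rw [← A.sg_sq t] at g2
    have n1 := ph_t_ne q
    have n2 := A.sg_ne s
    have n3 := A.sg_ne t
    have n4 := A.sg_ne u
    have n5 : ((NI q A.Q : ℕ) : ℂ) ≠ 0 := by exact_mod_cast A.NQ_ne
    congr 1
    · field_simp
      apply mul_left_cancel₀ n5
      linear_combination -g1
    · field_simp
      linear_combination (-A.kp) * g2

end Aux

end Vale.Agent.P014D
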