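import Mathlib

/-!
# P014 (D): the form `x² + 17 y²`
-/

namespace Vale.Agent.P014D

theorem reduce17 : ∀ (N : ℕ) (A B C : ℤ), A = N → 0 < A → A * C - B ^ 2 = 17 →
    ∃ x y : ℤ, 0 < A * x ^ 2 + 2 * B * x * y + C * y ^ 2 ∧
      A * x ^ 2 + 2 * B * x * y + C * y ^ 2 ≤ 4 := by
  intro N
  induction N using Nat.strong_induction_on with
  | _ N ih =>
    intro A B C hA h0 h
    by_cases h4 : A ≤ 4
    · exact ⟨1, 0, by linarith, by linarith⟩
    obtain ⟨k, B', hB, h1, h2⟩ : ∃ k B' : ℤ, B = B' + k * A ∧ -A ≤ 2 * B' ∧ 2 * B' ≤ A := by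
      have e1 := Int.emod_add_mul_ediv B A
      have e2 := Int.emod_nonneg B h0.ne'
      have e3 := Int.emod_lt_of_pos B h0
      by_cases h5 : 2 * (B % A) ≤ A
      · exact ⟨B / A, B % A, by linarith, by linarith, h5⟩
      · exact ⟨B / A + 1, B % A - A, by linarith, by linarith, by linarith⟩
    have h3 : (C - 2 * k * B + k ^ 2 * A) * A - B' ^ 2 = 17 := by
      rw [hB] at h ⊢
      linear_combination h
    set C' := C - 2 * k * B + k ^ 2 * A with hC'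
    have h5 : 0 < C' := by
      by_contra h6
      push Not at h6
      nlinarith [sq_nonneg B']
    have h6 : C' < A := by
      by_contra h6
      push Not at h6
      nlinarith
    obtain ⟨x, y, h7⟩ := ih C'.toNat (by omega) C' B' A (by omega) h5 h3
    refine ⟨y - k * x, x, ?_⟩
    have e : A * (y - k * x) ^ 2 + 2 * B * (y - k * x) * x + C * x ^ 2 =
        C' * x ^ 2 + 2 * B' * x * y + A * y ^ 2 := by
      rw [hC', hB]
      ring
    rw [e]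
    exact h7

/-- `m M` is the norm of an element of the ideal `(M, √-17 - l)` -/
def Sol (M : ℕ) (l : ℤ) (m : ℕ) : Prop :=
  ∃ a b : ℤ, (M : ℤ) ∣ a - l * b ∧ a ^ 2 + 17 * b ^ 2 = m * M

theorem Sol.four {M : ℕ} {l : ℤ} (ho : Odd M) (h : Sol M l 4) : Sol M l 1 := by
  obtain ⟨a, b, h1, h2⟩ := h
  obtain ⟨k, hk⟩ := ho
  push_cast at h2
  rcases Int.even_or_odd' a with ⟨x, hx | hx⟩ <;> rcases Int.even_or_odd' b with ⟨y, hy | hy⟩ <;>
    rw [hx, hy] at h1 h2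
  · refine ⟨x, y, ?_, by push_cast; linarith⟩
    have h3 : IsCoprime (M : ℤ) 2 := ⟨1, -k, by rw [hk]; push_cast; ring⟩
    apply h3.dvd_of_dvd_mul_left
    rwa [show 2 * (x - l * y) = 2 * x - l * (2 * y) by ring]
  · exfalso; ring_nf at h2; omega
  · exfalso; ring_nf at h2; omega
  · exfalso; ring_nf at h2; omega

theorem sol_small {M : ℕ} {l : ℤ} (ho : Odd M) (h : (M : ℤ) ∣ l ^ 2 + 17) :
    Sol M l 1 ∨ Sol M l 2 ∨ Sol M l 3 := by
  obtain ⟨C, hC⟩ := h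
  have h0 : (0 : ℤ) < M := by exact_mod_cast ho.pos
  obtain ⟨x, y, h1, h2⟩ := reduce17 M M l C rfl h0 (by linarith)
  obtain ⟨m, hm⟩ : ∃ m : ℕ, M * x ^ 2 + 2 * l * x * y + C * y ^ 2 = m :=
    ⟨_, (Int.toNat_of_nonneg h1.le).symm⟩
  have h3 : Sol M l m := ⟨M * x + l * y, y, ⟨x, by ring⟩, by
    rw [← hm]
    linear_combination y ^ 2 * hC⟩
  rw [hm] at h1 h2
  have h4 : m = 1 ∨ m = 2 ∨ m = 3 ∨ m = 4 := by omega
  rcases h4 with rfl | rfl | rfl | rfl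
  · exact Or.inl h3
  · exact Or.inr (Or.inl h3)
  · exact Or.inr (Or.inr h3)
  · exact Or.inl (h3.four ho)

theorem sq_mod8 (a : ℤ) : a ^ 2 % 8 = 0 ∨ a ^ 2 % 8 = 1 ∨ a ^ 2 % 8 = 4 := by
  have h : a % 8 = 0 ∨ a % 8 = 1 ∨ a % 8 = 2 ∨ a % 8 = 3 ∨ a % 8 = 4 ∨ a % 8 = 5 ∨ a % 8 = 6 ∨
      a % 8 = 7 := by omega
  rcases h with h | h | h | h | h | h | h | h <;> simp [sq, Int.mul_emod, h]

theorem sol_six {p : ℕ} {l : ℤ} (h4 : p % 4 = 3) (h3 : Nat.Coprime p 3)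
    (h : (p : ℤ) ∣ l ^ 2 + 17) : Sol p l 6 := by
  have h1 : Sol p l 3 := by
    rcases sol_small (Nat.odd_iff.mpr (by omega)) h with h | h | h
    · obtain ⟨a, b, -, h⟩ := h
      exfalso
      push_cast at h
      rcases sq_mod8 a with h1 | h1 | h1 <;> rcases sq_mod8 b with h2 | h2 | h2 <;> omega
    · obtain ⟨a, b, -, h⟩ := h
      exfalso
      push_cast at h
      rcases sq_mod8 a with h1 | h1 | h1 <;> rcases sq_mod8 b with h2 | h2 | h2 <;> omega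
    · exact h
  obtain ⟨a, b, ⟨k, h1⟩, h2⟩ := h1
  obtain ⟨c, hc⟩ := h
  push_cast at h2
  have h5 : (3 : ℤ) ∣ (a + 1 * b) * (a + (-1) * b) := ⟨p - 6 * b ^ 2, by linear_combination h2⟩
  have key : ∀ e : ℤ, e ^ 2 = 1 → (3 : ℤ) ∣ a + e * b → Sol p l 6 := by
    rintro e he ⟨w, hw⟩
    refine ⟨w - 6 * e * b, e * w, ?_, ?_⟩
    · apply (Nat.isCoprime_iff_coprime.mpr h3).dvd_of_dvd_mul_left
      refine ⟨k * (1 - l * e) - c * e * b, ?_⟩
      push_cast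
      linear_combination (1 - l * e) * h1 - (1 - l * e) * hw - e * b * hc - l * b * he
    · push_cast
      have : 9 * ((w - 6 * e * b) ^ 2 + 17 * (e * w) ^ 2) = 9 * (6 * p) := by
        have e1 : 3 * w = a + e * b := hw.symm
        have e2 : 9 * ((w - 6 * e * b) ^ 2 + 17 * (e * w) ^ 2) =
            (3 * w - 18 * e * b) ^ 2 + 17 * e ^ 2 * (3 * w) ^ 2 := by ring
        rw [e2, e1]
        linear_combination 18 * h2 +
          (17 * a ^ 2 + 34 * a * b * e + 306 * b ^ 2 + 17 * b ^ 2 * e ^ 2) * he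
      linarith
  rcases Int.prime_three.dvd_or_dvd h5 with h6 | h6
  · exact key 1 (by norm_num) h6
  · exact key (-1) (by norm_num) h6

theorem sol_unique {n : ℕ} (hn : 0 < n) {l u w u' w' : ℤ} (h1 : (n : ℤ) ∣ u - l * w)
    (h2 : u ^ 2 + 17 * w ^ 2 = 3 * n) (h1' : (n : ℤ) ∣ u' - l * w')
    (h2' : u' ^ 2 + 17 * w' ^ 2 = 3 * n) : w ^ 2 = w' ^ 2 := by
  obtain ⟨k, hk⟩ := h1
  obtain ⟨k', hk'⟩ := h1'
  have hn' : (0 : ℤ) < n := by exact_mod_cast hn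
  have e1 : u * w' - u' * w = n * (k * w' - k' * w) := by linear_combination w' * hk - w * hk'
  have e2 : (u * u' + 17 * w * w') ^ 2 + 17 * (u * w' - u' * w) ^ 2 = 9 * n ^ 2 := by
    linear_combination (u' ^ 2 + 17 * w' ^ 2) * h2 + 3 * (n : ℤ) * h2'
  have e3 : k * w' - k' * w = 0 := by
    by_contra h
    have h3 : 1 ≤ (k * w' - k' * w) ^ 2 := by
      have := sq_pos_of_ne_zero h
      omega
    rw [e1, mul_pow] at e2
    have h4 : 0 < (n : ℤ) ^ 2 := by positivity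
    nlinarith [sq_nonneg (u * u' + 17 * w * w')]
  rw [e3, mul_zero] at e1
  apply mul_left_cancel₀ (by omega : (3 * (n : ℤ)) ≠ 0)
  linear_combination w' ^ 2 * h2 - w ^ 2 * h2' - (u * w' + u' * w) * e1

/-- the lattice of slope `l` has a cube root of unity -/
def Ev (n : ℕ) (l : ℤ) : Prop := ∃ u k : ℤ, (n : ℤ) ∣ u - l * (2 * k) ∧ u ^ 2 + 68 * k ^ 2 = 3 * n

theorem ev_iff {n : ℕ} (hn : 0 < n) {l u w : ℤ} (h1 : (n : ℤ) ∣ u - l * w)
    (h2 : u ^ 2 + 17 * w ^ 2 = 3 * n) : Ev n l ↔ Even w := by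
  constructor
  · rintro ⟨u', k, h3, h4⟩
    have h5 := sol_unique hn h1 h2 h3 (by linarith)
    have h6 : Even (w ^ 2) := ⟨2 * k ^ 2, by linarith⟩
    exact (Int.even_pow.mp h6).1
  · rintro ⟨k, rfl⟩
    exact ⟨u, k, by rwa [two_mul], by linarith⟩

theorem ev_parity {p d : ℕ} {l l' : ℤ} (hc : Nat.Coprime p d) (hp4 : p % 4 = 3) (hd : Odd d)
    (hl : (p : ℤ) ∣ l ^ 2 + 17) (hl' : (d : ℤ) ∣ l ^ 2 + 17) (h1 : Sol p l 6) (h2 : Sol d l 2)
    (h3 : (p : ℤ) ∣ l + l') (h4 : (d : ℤ) ∣ l - l') : Ev (p * d) l ↔ ¬ Ev (p * d) l' := by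
  obtain ⟨f, g, ⟨k1, e1⟩, n1⟩ := h1
  obtain ⟨a, b, ⟨k2, e2⟩, n2⟩ := h2
  obtain ⟨c1, e3⟩ := hl
  obtain ⟨c2, e4⟩ := hl'
  obtain ⟨c3, e5⟩ := h3
  obtain ⟨c4, e6⟩ := h4
  push_cast at n1 n2
  have hd2 := Nat.odd_iff.mp hd
  have o1 : f % 2 = 1 ∧ g % 2 = 1 := by
    have a1 : f % 2 = 0 → f ^ 2 % 4 = 0 := fun h => by
      obtain ⟨x, rfl⟩ : ∃ x, f = 2 * x := ⟨f / 2, by omega⟩
      rw [mul_pow]; omega
    have a2 : g % 2 = 0 → g ^ 2 % 4 = 0 := fun h => by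
      obtain ⟨x, rfl⟩ : ∃ x, g = 2 * x := ⟨g / 2, by omega⟩
      rw [mul_pow]; omega
    rcases sq_mod8 f with h1 | h1 | h1 <;> rcases sq_mod8 g with h2 | h2 | h2 <;> omega
  have o2 : a % 2 = 1 ∧ b % 2 = 1 := by
    have a1 : a % 2 = 0 → a ^ 2 % 4 = 0 := fun h => by
      obtain ⟨x, rfl⟩ : ∃ x, a = 2 * x := ⟨a / 2, by omega⟩
      rw [mul_pow]; omega
    have a2 : b % 2 = 0 → b ^ 2 % 4 = 0 := fun h => by
      obtain ⟨x, rfl⟩ : ∃ x, b = 2 * x := ⟨b / 2, by omega⟩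
      rw [mul_pow]; omega
    rcases sq_mod8 a with h1 | h1 | h1 <;> rcases sq_mod8 b with h2 | h2 | h2 <;> omega
  obtain ⟨f', hf⟩ : ∃ x, f = 2 * x + 1 := ⟨f / 2, by omega⟩
  obtain ⟨g', hg⟩ : ∃ x, g = 2 * x + 1 := ⟨g / 2, by omega⟩
  obtain ⟨a', ha⟩ : ∃ x, a = 2 * x + 1 := ⟨a / 2, by omega⟩
  obtain ⟨b', hb⟩ : ∃ x, b = 2 * x + 1 := ⟨b / 2, by omega⟩
  obtain ⟨u1, hu1⟩ : ∃ u, 2 * u = a * f - 17 * b * g :=
    ⟨2 * a' * f' + a' + f' - 17 * (2 * b' * g' + b' + g') - 8, by rw [ha, hb, hf, hg]; ring⟩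
  obtain ⟨w1, hw1⟩ : ∃ w, 2 * w = a * g + b * f :=
    ⟨2 * a' * g' + a' + g' + (2 * b' * f' + b' + f') + 1, by rw [ha, hb, hf, hg]; ring⟩
  have hpos : 0 < p * d := Nat.mul_pos (by omega) hd.pos
  have cp : IsCoprime (p : ℤ) 2 := ⟨1, -((p / 2 : ℕ) : ℤ), by omega⟩
  have cd : IsCoprime (d : ℤ) 2 := ⟨1, -((d / 2 : ℕ) : ℤ), by omega⟩
  have cpd := Nat.isCoprime_iff_coprime.mpr hc
  have i1 : Ev (p * d) l ↔ Even w1 := by
    refine ev_iff (u := u1) hpos ?_ ?_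
    · push_cast
      apply cpd.mul_dvd
      · apply cp.dvd_of_dvd_mul_left
        exact ⟨k1 * (a - l * b) - c1 * b * g, by
          linear_combination hu1 - l * hw1 + (a - l * b) * e1 - b * g * e3⟩
      · apply cd.dvd_of_dvd_mul_left
        exact ⟨k2 * (f - l * g) - c2 * b * g, by
          linear_combination hu1 - l * hw1 + (f - l * g) * e2 - b * g * e4⟩
    · push_cast
      have : 4 * (u1 ^ 2 + 17 * w1 ^ 2) = 4 * (3 * (p * d)) := by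
        have e : 4 * (u1 ^ 2 + 17 * w1 ^ 2) = (2 * u1) ^ 2 + 17 * (2 * w1) ^ 2 := by ring
        rw [e, hu1, hw1]
        linear_combination (a ^ 2 + 17 * b ^ 2) * n1 + 6 * (p : ℤ) * n2
      linarith
  have i2 : Ev (p * d) l' ↔ Even (w1 - a * g) := by
    refine ev_iff (u := u1 + 17 * b * g) hpos ?_ ?_
    · push_cast
      apply cpd.mul_dvd
      · apply cp.dvd_of_dvd_mul_left
        exact ⟨k1 * (a + l * b) + c1 * b * g - c3 * (b * f - a * g), by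
          linear_combination hu1 - l' * hw1 + (a + l * b) * e1 + b * g * e3 -
            (b * f - a * g) * e5⟩
      · apply cd.dvd_of_dvd_mul_left
        exact ⟨k2 * (f + l * g) + c2 * b * g + c4 * (b * f - a * g), by
          linear_combination hu1 - l' * hw1 + (f + l * g) * e2 + b * g * e4 +
            (b * f - a * g) * e6⟩
    · push_cast
      have : 4 * ((u1 + 17 * b * g) ^ 2 + 17 * (w1 - a * g) ^ 2) = 4 * (3 * (p * d)) := by
        have e : 4 * ((u1 + 17 * b * g) ^ 2 + 17 * (w1 - a * g) ^ 2) =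
          (2 * u1 + 34 * b * g) ^ 2 + 17 * (2 * w1 - 2 * a * g) ^ 2 := by ring
        rw [e, hu1, hw1]
        linear_combination (a ^ 2 + 17 * b ^ 2) * n1 + 6 * (p : ℤ) * n2
      linarith
  have o3 : Odd (a * g) := (Int.odd_iff.mpr o2.1).mul (Int.odd_iff.mpr o1.2)
  rw [i1, i2, Int.even_sub, ← Int.not_odd_iff_even (n := a * g)]
  tauto

end Vale.Agent.P014D
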