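import Vale.Agent.P014D.Ind
import Vale.Agent.P014D.F17

/-!
# P014 (D): an involution on Gross points and its fixed points
-/

open NumberField
open scoped Classical

namespace Vale.Agent.P014D

open Vale.Agent.P017.H185 Vale.Agent.P014.H70 Vale.Agent.P014B Vale.Agent.P014.H687

/-! ### the symbol at `17` -/

theorem J17_of_norm : ∀ (N : ℕ) (m m' s b : ℤ), m.natAbs = N → m * m' = s ^ 2 - 17 * b ^ 2 →
    (∀ l : ℕ, l.Prime → jacobiSym l 17 = -1 → ¬ ((l : ℤ) ∣ m ∧ (l : ℤ) ∣ m')) →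
    ¬ (17 : ℤ) ∣ m → jacobiSym m 17 = 1 := by
  intro N
  induction N using Nat.strong_induction_on with
  | _ N ih =>
    intro m m' s b hN h hl h17
    by_cases h1 : m.natAbs = 1
    · rcases Int.natAbs_eq_iff.mp h1 with rfl | rfl <;> norm_num
    obtain ⟨l, hp, hlm⟩ := Nat.exists_prime_and_dvd h1
    have hp' : Prime (l : ℤ) := Nat.prime_iff_prime_int.mp hp
    obtain ⟨m1, rfl⟩ : (l : ℤ) ∣ m := Int.natCast_dvd.mpr hlm
    have h2 : ¬ (17 : ℤ) ∣ m1 := fun h => h17 (h.mul_left _)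
    have h0 : m1 ≠ 0 := by
      rintro rfl
      exact h2 (dvd_zero _)
    have h3 : m1.natAbs < N := by
      rw [← hN, Int.natAbs_mul, Int.natAbs_natCast]
      exact lt_mul_of_one_lt_left (Int.natAbs_pos.mpr h0) hp.one_lt
    have h4 : Nat.Coprime l 17 := by
      rw [Nat.coprime_comm, Nat.Prime.coprime_iff_not_dvd (by norm_num)]
      intro h5
      exact h17 (Dvd.dvd.mul_right (by exact_mod_cast h5) _)
    rcases J_cases (a := l) (m := 17) (by rwa [Int.natAbs_natCast]) with h5 | h5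
    · rw [jacobiSym.mul_left, h5, one_mul]
      refine ih _ h3 m1 (l * m') s b rfl (by linear_combination h) ?_ h2
      rintro r hr hr2 ⟨h6, h7⟩
      rcases (Nat.prime_iff_prime_int.mp hr).dvd_or_dvd h7 with h8 | h8
      · have h9 : r = l := (Nat.prime_dvd_prime_iff_eq hr hp).mp (by exact_mod_cast h8)
        rw [h9, h5] at hr2
        norm_num at hr2
      · exact hl r hr hr2 ⟨h6.mul_left _, h8⟩
    · have ho : Odd l := hp.odd_of_ne_two (by
        rintro rfl
        norm_num at h5)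
      have h6 : jacobiSym 17 l = -1 := by
        rw [← h5]
        exact jacobiSym.quadratic_reciprocity_one_mod_four (a := 17) (by norm_num) ho
      have := Fact.mk hp
      have h7 : (l : ℤ) ∣ b := by
        by_contra h7
        have h8 : (b : ZMod l) ≠ 0 := by rwa [Ne, ZMod.intCast_zmod_eq_zero_iff_dvd]
        have h9 := congrArg (Int.cast : ℤ → ZMod l) h
        push_cast at h9
        rw [ZMod.natCast_self, zero_mul, zero_mul] at h9
        apply ZMod.nonsquare_of_jacobiSym_eq_neg_one h6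
        refine ⟨s / b, ?_⟩
        push_cast
        field_simp
        linear_combination h9
      obtain ⟨b', rfl⟩ := h7
      obtain ⟨s', rfl⟩ : (l : ℤ) ∣ s := hp'.dvd_of_dvd_pow (n := 2)
        ⟨m1 * m' + 17 * l * b' ^ 2, by linear_combination -h⟩
      have h8 : m1 * m' = l * (s' ^ 2 - 17 * b' ^ 2) := by
        apply mul_left_cancel₀ hp'.ne_zero
        linear_combination h
      obtain ⟨m2, rfl⟩ := (hp'.dvd_or_dvd ⟨_, h8⟩).resolve_right fun h9 =>
        hl l hp h5 ⟨dvd_mul_right _ _, h9⟩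
      have h9 : ¬ (17 : ℤ) ∣ m2 := fun h => h2 (h.mul_left _)
      rw [← mul_assoc, jacobiSym.mul_left, jacobiSym.mul_left, h5]
      have h10 : m2.natAbs < N := by
        refine lt_of_le_of_lt ?_ h3
        rw [Int.natAbs_mul, Int.natAbs_natCast]
        exact Nat.le_mul_of_pos_left _ hp.pos
      rw [ih _ h10 m2 m' s' b' rfl ?_ ?_ h9]
      · norm_num
      · apply mul_left_cancel₀ hp'.ne_zero
        linear_combination h8
      · rintro r hr hr2 ⟨h11, h12⟩
        exact hl r hr hr2 ⟨(h11.mul_left _).mul_left _, h12⟩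

theorem not_norm17 {d : ℕ} (hd : Squarefree d) {r s : ℤ} (h : r ^ 2 + s ^ 2 = d)
    (hJ : jacobiSym (r + 4 * s) 17 = -1) (a b : ℤ) : a ^ 2 + 17 * b ^ 2 ≠ d := by
  have h17 : Prime (17 : ℤ) := Nat.prime_iff_prime_int.mp (by norm_num : Nat.Prime 17)
  have key : ∀ a : ℤ, ¬ (17 : ℤ) ∣ a + r → a ^ 2 + 17 * b ^ 2 ≠ d := by
    intro a ha h1
    have h2 := J17_of_norm _ (a + r) (a - r) s b rfl (by linear_combination h1 - h) (by
      rintro l hl hl2 ⟨h3, h4⟩
      have hl' : Prime (l : ℤ) := Nat.prime_iff_prime_int.mp hl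
      have ho : Odd l := hl.odd_of_ne_two (by
        rintro rfl
        norm_num at hl2)
      have h5 : ¬ (l : ℤ) ∣ 2 := fun h6 => by
        have h7 : l ∣ 2 := by exact_mod_cast h6
        rw [(Nat.prime_dvd_prime_iff_eq hl Nat.prime_two).mp h7] at ho
        exact absurd ho (by decide)
      have h6 : (l : ℤ) ∣ r := (hl'.dvd_or_dvd (a := 2) (b := r) (by
        have := dvd_sub h3 h4
        rwa [show a + r - (a - r) = 2 * r by ring] at this)).resolve_left h5
      have h7 : (l : ℤ) ∣ a := (dvd_add_left h6).mp h3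
      have h8 : jacobiSym 17 l = -1 := by
        rw [← hl2]
        exact jacobiSym.quadratic_reciprocity_one_mod_four (a := 17) (by norm_num) ho
      have := Fact.mk hl
      obtain ⟨r', rfl⟩ := h6
      obtain ⟨a', rfl⟩ := h7
      have h9 : (l : ℤ) ∣ b := by
        by_contra h7
        have h10 : (b : ZMod l) ≠ 0 := by rwa [Ne, ZMod.intCast_zmod_eq_zero_iff_dvd]
        have h11 := congrArg (Int.cast : ℤ → ZMod l) (h1.trans h.symm)
        push_cast at h11
        rw [ZMod.natCast_self] at h11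
        apply ZMod.nonsquare_of_jacobiSym_eq_neg_one h8
        refine ⟨s / b, ?_⟩
        push_cast
        field_simp
        linear_combination h11
      obtain ⟨b', rfl⟩ := h9
      have h10 : l * l ∣ d := by
        have : ((l * l : ℕ) : ℤ) ∣ d := ⟨a' ^ 2 + 17 * b' ^ 2, by
          push_cast
          linear_combination -h1⟩
        exact_mod_cast this
      exact hl.one_lt.ne' (Nat.isUnit_iff.mp (hd l h10))) ha
    have h3 : (r + 4 * s + a) ^ 2 ≡ 2 * (r + 4 * s) * (a + r) [ZMOD (17 : ℕ)] :=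
      Int.modEq_iff_dvd.mpr ⟨b ^ 2 - s ^ 2, by push_cast; linear_combination h - h1⟩
    have h4 := jacobiSym.mod_left' h3
    rw [jacobiSym.pow_left, jacobiSym.mul_left, jacobiSym.mul_left, hJ, h2] at h4
    have h5 : jacobiSym 2 17 = 1 := by norm_num
    rw [h5] at h4
    nlinarith [sq_nonneg (jacobiSym (r + 4 * s + a) 17)]
  by_cases ha : (17 : ℤ) ∣ a + r
  · by_cases ha' : (17 : ℤ) ∣ -a + r
    · intro h1
      have h2 : (17 : ℤ) ∣ r := by omega
      have h3 : (17 : ℤ) ∣ a := by omega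
      obtain ⟨r', rfl⟩ := h2
      obtain ⟨a', rfl⟩ := h3
      obtain ⟨s', rfl⟩ : (17 : ℤ) ∣ s := h17.dvd_of_dvd_pow (n := 2)
        ⟨17 * a' ^ 2 + b ^ 2 - 17 * r' ^ 2, by linear_combination h - h1⟩
      rw [show 17 * r' + 4 * (17 * s') = 17 * (r' + 4 * s') by ring, jacobiSym.mul_left] at hJ
      norm_num at hJ
    · have := key (-a) ha'
      rwa [neg_sq] at this
  · exact key a ha

theorem sol_two {d : ℕ} (hd : Squarefree d) (h4 : d % 4 = 1) {r s : ℤ} (h : r ^ 2 + s ^ 2 = d)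
    (hJ : jacobiSym (r + 4 * s) 17 = -1) {l : ℤ} (hl : (d : ℤ) ∣ l ^ 2 + 17) : Sol d l 2 := by
  rcases sol_small (Nat.odd_iff.mpr (by omega)) hl with h1 | h1 | h1
  · obtain ⟨a, b, -, h1⟩ := h1
    exact absurd (by rw [h1]; simp) (not_norm17 hd h hJ a b)
  · exact h1
  · obtain ⟨a, b, -, h1⟩ := h1
    exfalso
    push_cast at h1
    rcases sq_mod8 a with h2 | h2 | h2 <;> rcases sq_mod8 b with h3 | h3 | h3 <;> omega

/-! ### lattices -/

variable {K : Type} [Field K] [NumberField K] {n : ℕ} {q : QF K n} (hn4 : n % 4 = 3)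

theorem LS_conj {X Y : Ideal (𝓞 K)} (hX : X ≠ ⊥) (hY : Y ≠ ⊥) (l : ZMod n) (m : ℕ) :
    (LS q hn4 X (cj q Y) l m).card = (LS q hn4 X Y l m).card := by
  have hY' := cj_ne_bot q hY
  refine Finset.card_bij (fun p _ => (p.1, q.s p.2)) ?_ ?_ ?_
  · intro p hp
    rw [mem_LS q hn4 hX hY', mem_cj, NI_cj] at hp
    rw [mem_LS q hn4 hX hY]
    simpa only [rho_s, N_s] using hp
  · intro p _ p' _ h
    rw [Prod.mk.injEq] at h
    refine Prod.ext h.1 ?_
    rw [← q.s_s p.2, h.2, q.s_s]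
  · intro p hp
    refine ⟨(p.1, q.s p.2), ?_, Prod.ext rfl (q.s_s _)⟩
    rw [mem_LS q hn4 hX hY] at hp
    rw [mem_LS q hn4 hX hY', s_mem_cj, NI_cj]
    simpa only [rho_s, N_s] using hp

theorem mem_LS_top {l : ZMod n} {p : 𝓞 K × 𝓞 K} : p ∈ LS q hn4 ⊤ ⊤ l 1 ↔
    rho q hn4 p.1 = l * rho q hn4 p.2 ∧ q.N p.1 + 17 * q.N p.2 = n := by
  rw [mem_LS q hn4 top_ne_bot top_ne_bot, NI_top]
  simp

theorem two_crd (z : 𝓞 K) : 2 * z = ((crd q z).1 : 𝓞 K) + (crd q z).2 * q.t := by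
  apply QF.ext'
  rw [map_mul, map_ofNat, crd_spec q z, map_add, map_mul, map_intCast, map_intCast, QF.coe_t]

theorem LS_top_le (L : ℤ) (h : ¬ Ev n L) : (LS q hn4 ⊤ ⊤ (L : ZMod n) 1).card ≤ 2 := by
  refine le_trans (Finset.card_le_card (t := {(q.t, 0), (-q.t, 0)}) ?_) Finset.card_le_two
  rintro ⟨x, y⟩ hp
  obtain ⟨h1, h2⟩ := (mem_LS_top hn4).mp hp
  simp only at h1 h2
  have e1 := two_N q x
  have e2 := two_N q y
  have e3 := two_crd (q := q) x
  have e4 := two_crd (q := q) y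
  have e5 : (n : ℤ) ∣ (crd q x).1 - L * (crd q y).1 := by
    rw [← ZMod.intCast_zmod_eq_zero_iff_dvd]
    have a1 := two_rho q hn4 x
    have a2 := two_rho q hn4 y
    unfold tr at a1 a2
    push_cast
    rw [← a1, ← a2, h1]
    ring
  generalize (crd q x).1 = u at *
  generalize (crd q x).2 = v at *
  generalize (crd q y).1 = w at *
  generalize (crd q y).2 = z at *
  have e6 : u * u + n * (v * v) + 17 * (w * w + n * (z * z)) = 4 * n := by
    have h3 := congrArg (Nat.cast : ℕ → ℤ) h2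
    push_cast at h3
    linear_combination 4 * h3 - e1 - 17 * e2
  have n0 : (0 : ℤ) < n := by exact_mod_cast q.d_pos
  have hz : z = 0 := by
    by_contra hz
    have : 0 < z * z := mul_self_pos.mpr hz
    nlinarith [mul_self_nonneg u, mul_self_nonneg w, mul_nonneg n0.le (mul_self_nonneg v)]
  subst hz
  obtain ⟨k, rfl⟩ : ∃ k, w = 2 * k := by
    rcases Int.even_or_odd' w with ⟨k, hk | hk⟩
    · exact ⟨k, hk⟩
    · exfalso
      rw [hk] at e2
      ring_nf at e2
      omega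
  have hv : v * v ≤ 4 := by
    by_contra hv
    push Not at hv
    nlinarith [mul_self_nonneg u, mul_self_nonneg k]
  have hv1 : -2 ≤ v := by nlinarith
  have hv2 : v ≤ 2 := by nlinarith
  have two : ∀ e : ℤ, e * e = 1 → v = 2 * e → x = e * q.t ∧ y = 0 := by
    rintro e he rfl
    have a1 : u * u + 68 * (k * k) = 0 := by linear_combination e6 - 4 * n * he
    have a2 : u = 0 := by nlinarith [mul_self_nonneg u, mul_self_nonneg k]
    have a3 : k = 0 := by nlinarith [mul_self_nonneg u, mul_self_nonneg k]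
    rw [a2] at e3
    rw [a3] at e4
    push_cast at e3 e4
    exact ⟨mul_left_cancel₀ two_ne (by linear_combination e3),
      mul_left_cancel₀ two_ne (by linear_combination e4)⟩
  rw [Finset.mem_insert, Finset.mem_singleton, Prod.mk.injEq, Prod.mk.injEq]
  interval_cases v
  · right
    simpa using two (-1) (by norm_num) (by norm_num)
  · exact absurd ⟨u, k, e5, by linear_combination e6⟩ h
  · exfalso
    have a1 : u ^ 2 + 68 * k ^ 2 = 4 * n := by linear_combination e6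
    obtain ⟨j, rfl⟩ : ∃ j, u = 2 * j := by
      rcases Int.even_or_odd' u with ⟨j, hj | hj⟩
      · exact ⟨j, hj⟩
      · exfalso
        rw [hj] at a1
        ring_nf at a1
        omega
    have a2 : j ^ 2 + 17 * k ^ 2 = n := by linarith
    rcases sq_mod8 j with a3 | a3 | a3 <;> rcases sq_mod8 k with a4 | a4 | a4 <;> omega
  · exact absurd ⟨u, k, e5, by linear_combination e6⟩ h
  · left
    simpa using two 1 (by norm_num) (by norm_num)

theorem LS_top_ge (L : ℤ) (h : Ev n L) : 3 ≤ (LS q hn4 ⊤ ⊤ (L : ZMod n) 1).card := by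
  obtain ⟨u, k, h1, h2⟩ := h
  obtain ⟨j, rfl⟩ : ∃ j, u = 2 * j + 1 := by
    rcases Int.even_or_odd' u with ⟨j, hj | hj⟩
    · exfalso
      rw [hj] at h2
      ring_nf at h2
      omega
    · exact ⟨j, hj⟩
  have c1 : crd q (j + om q hn4) = (2 * j + 1, 1) := by
    apply crd_eq
    have := congrArg (algebraMap (𝓞 K) K) (two_om q hn4)
    rw [map_mul, map_add, map_one, map_ofNat, QF.coe_t] at this
    rw [map_add, map_intCast]
    push_cast
    linear_combination this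
  have c2 : crd q q.t = (0, 2) := by
    apply crd_eq
    rw [QF.coe_t]
    simp
  have c3 : crd q (-q.t) = (0, -2) := by
    apply crd_eq
    rw [map_neg, QF.coe_t]
    simp
  have m1 : ((j + om q hn4, k) : 𝓞 K × 𝓞 K) ∈ LS q hn4 ⊤ ⊤ (L : ZMod n) 1 := by
    rw [mem_LS_top]
    constructor
    · rw [← (two_unit hn4).mul_right_inj, two_rho, map_intCast]
      unfold tr
      rw [c1]
      have := (ZMod.intCast_zmod_eq_zero_iff_dvd _ n).mpr h1
      push_cast at this ⊢
      linear_combination this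
    · have a1 := two_N q (j + om q hn4)
      have a2 := Dat.N_int_mul (q := q) k 1
      rw [c1] at a1
      rw [mul_one, N_one] at a2
      zify
      simp only at a1 ⊢
      push_cast at a2
      have a3 : 4 * ((q.N (j + om q hn4) : ℤ) + 17 * q.N (k : 𝓞 K)) = 4 * n := by
        rw [a2]
        linear_combination a1 + h2
      linarith
  have m2 : ((q.t, 0) : 𝓞 K × 𝓞 K) ∈ LS q hn4 ⊤ ⊤ (L : ZMod n) 1 := by
    rw [mem_LS_top]
    simp [rho_t, N_t, N_zero]
  have m3 : ((-q.t, 0) : 𝓞 K × 𝓞 K) ∈ LS q hn4 ⊤ ⊤ (L : ZMod n) 1 := by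
    rw [mem_LS_top]
    simp [rho_t, N_t, N_zero, N_neg]
  refine Finset.two_lt_card_iff.mpr ⟨_, _, _, m1, m2, m3, ?_, ?_, ?_⟩ <;> intro h <;>
    have := congrArg (fun p : 𝓞 K × 𝓞 K => (crd q p.1).2) h <;>
    simp only [c1, c2, c3] at this <;> omega

namespace Aux

variable (A : Aux q)

theorem X_self (s : ClassGroup (𝓞 K)) : A.X s s = Ideal.span {(NI q (A.S s) : 𝓞 K)} := mul_cj q _

theorem uS (s : ClassGroup (𝓞 K)) : IsUnit ((NI q (A.S s) : ℕ) : ZMod n) :=
  (ZMod.isUnit_iff_coprime _ _).mpr (Nat.Coprime.coprime_mul_left_right (A.hS s))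

theorem card_inv {s t : ClassGroup (𝓞 K)} (h : s * t * cl A.Q = 1) :
    (LS q hn4 (A.X t t) (A.Y t t) 1 1).card = (LS q hn4 (A.X s s) (A.Y s s) 1 1).card := by
  obtain ⟨β, -, hβ⟩ := cl_eq_one (A.Y_ne hn4 s t) (by rw [A.cl_Y hn4, h])
  have h1 : q.N β = NI q (A.S s) * NI q (A.S t) * NI q A.Q := by rw [← NI_span, ← hβ, NI_Y]
  rw [← LS_conj hn4 (A.X_ne hn4 t t) (A.Y_ne hn4 t t)]
  refine LS_scale hn4 (A.gd s s).hX (A.gd t t).hX (A.hYn s s) (by rw [NI_cj]; exact A.hYn t t)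
    (γ := NI q (A.S s) * NI q (A.S t)) (δ := β * β) ?_ ?_ ?_ 1
  · rw [X_self, X_self, cj_nat, Ideal.span_singleton_mul_span_singleton]
  · rw [cj_cj, ← Ideal.span_singleton_mul_span_singleton, ← hβ]
    unfold Y
    ring
  · have h2 := rho_sq q hn4 β
    rw [h1] at h2
    rw [NI_cj, NI_X, NI_Y, map_mul, map_mul, map_natCast, map_natCast]
    push_cast at h2 ⊢
    linear_combination (-((NI q (A.S t) : ZMod n) * NI q (A.S t))) * h2

theorem card_fix {s : ClassGroup (𝓞 K)} {γ : 𝓞 K} (h : A.Y s s = Ideal.span {γ}) {l : ZMod n}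
    (hl : rho q hn4 γ = l * NI q (A.S s)) :
    (LS q hn4 (A.X s s) (A.Y s s) 1 1).card = (LS q hn4 ⊤ ⊤ l 1).card := by
  refine LS_scale hn4 (by rw [NI_top]; exact Nat.coprime_one_left n) (A.gd s s).hX
    (by rw [NI_top]; exact Nat.coprime_one_left n) (A.hYn s s)
    (γ := NI q (A.S s)) (δ := q.s γ) ?_ ?_ ?_ 1
  · rw [X_self, cj_nat, Ideal.top_mul]
  · rw [h, cj_span, Ideal.top_mul]
  · rw [h, NI_span, ← rho_sq q hn4, rho_s, NI_X, map_natCast]
    push_cast
    linear_combination ((NI q (A.S s) : ZMod n) * rho q hn4 γ) * hl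

theorem exists_L {s : ClassGroup (𝓞 K)} {γ : 𝓞 K} (h : A.Y s s = Ideal.span {γ}) :
    ∃ L : ℤ, rho q hn4 γ = L * NI q (A.S s) ∧ (L : ZMod n) ^ 2 = -17 := by
  have : NeZero n := ⟨q.d_pos.ne'⟩
  obtain ⟨w, hw⟩ := (A.uS s).exists_left_inv
  have h1 := rho_sq q hn4 γ
  rw [← NI_span, ← h, NI_Y] at h1
  push_cast at h1
  rw [A.hQ3] at h1
  refine ⟨(rho q hn4 γ * w).val, ?_, ?_⟩
  · rw [Int.cast_natCast, ZMod.natCast_zmod_val, mul_assoc, hw, mul_one]
  · rw [Int.cast_natCast, ZMod.natCast_zmod_val]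
    linear_combination w ^ 2 * h1 - 17 * (w * NI q (A.S s) + 1) * hw

theorem fix_rel {p d : ℕ} (hn : n = p * d) (hp : p.Prime) {P : Ideal (𝓞 K)} (hP : NI q P = p)
    (hP2 : cj q P = P) {s t : ClassGroup (𝓞 K)} (hs : s * s * cl A.Q = 1) (ht : t = s * cl P) :
    ∃ L L' : ℤ, (n : ℤ) ∣ L ^ 2 + 17 ∧ (p : ℤ) ∣ L + L' ∧ (d : ℤ) ∣ L - L' ∧
      (LS q hn4 (A.X s s) (A.Y s s) 1 1).card = (LS q hn4 ⊤ ⊤ (L : ZMod n) 1).card ∧
      (LS q hn4 (A.X t t) (A.Y t t) 1 1).card = (LS q hn4 ⊤ ⊤ (L' : ZMod n) 1).card := by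
  have hP0 : P ≠ ⊥ := ne_bot_of_NI q (hP ▸ hp.ne_zero)
  have hPP : P * P = Ideal.span {(p : 𝓞 K)} := by
    rw [← hP, ← mul_cj, hP2]
  have hcl : cl P * cl P = 1 := by rw [← cl_mul hP0 hP0, hPP, cl_span]
  obtain ⟨γ, -, hγ⟩ := cl_eq_one (A.Y_ne hn4 s s) (by rw [A.cl_Y hn4, hs])
  obtain ⟨γ1, -, hγ1⟩ := cl_eq_one (A.Y_ne hn4 t t) (by
    rw [A.cl_Y hn4, ht, mul_mul_mul_comm, hcl, mul_one, hs])
  obtain ⟨β, -, hβ⟩ := cl_eq_one (mul_ne_zero (A.X_ne hn4 t s) hP0) (by
    rw [cl_mul (A.X_ne hn4 t s) hP0, A.cl_X hn4, ht, mul_right_comm s, mul_inv_cancel, one_mul,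
      hcl])
  have h1 : Ideal.span {γ1 * (q.s γ * p)} = Ideal.span {β * β * NI q A.Q} := by
    rw [← Ideal.span_singleton_mul_span_singleton, ← Ideal.span_singleton_mul_span_singleton,
      ← Ideal.span_singleton_mul_span_singleton, ← Ideal.span_singleton_mul_span_singleton,
      ← cj_span, ← hγ, ← hγ1, ← hβ, ← hPP, ← mul_cj]
    unfold X Y
    rw [cj_mul, cj_mul]
    ring
  obtain ⟨u, hu⟩ := Ideal.span_singleton_eq_span_singleton.mp h1
  have hγ' : A.Y t t = Ideal.span {γ1 * u} := by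
    rw [hγ1, Ideal.span_singleton_mul_right_unit u.isUnit]
  set γ' := γ1 * u with hγ''
  obtain ⟨L, l1, l2⟩ := A.exists_L hn4 hγ
  obtain ⟨L', l1', -⟩ := A.exists_L hn4 hγ'
  have hN : q.N β = NI q (A.S t) * NI q (A.S s) * p := by
    rw [← NI_span, ← hβ, NI_mul, NI_X, hP]
  have e1 := two_N q β
  rw [hN] at e1
  push_cast at e1
  have hn' : (n : ℤ) = p * d := by exact_mod_cast hn
  obtain ⟨b, hb⟩ : (p : ℤ) ∣ (crd q β).1 := by
    apply (Nat.prime_iff_prime_int.mp hp).dvd_of_dvd_pow (n := 2)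
    refine ⟨4 * (NI q (A.S t) * NI q (A.S s)) - d * ((crd q β).2 * (crd q β).2), ?_⟩
    linear_combination -e1 - ((crd q β).2 * (crd q β).2) * hn'
  have hp0 : (p : ℤ) ≠ 0 := by exact_mod_cast hp.ne_zero
  have e2 : 4 * ((NI q (A.S t) : ℤ) * NI q (A.S s)) = p * b ^ 2 + d * (crd q β).2 ^ 2 := by
    apply mul_left_cancel₀ hp0
    rw [hb] at e1
    linear_combination e1 + ((crd q β).2 * (crd q β).2) * hn'
  have e3 : tr q (γ' * q.s γ) = NI q A.Q * (p * b ^ 2 - 2 * (NI q (A.S t) * NI q (A.S s))) := by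
    apply tr_eq
    have a1 := add_s q β
    have a2 := q.mul_s β
    have a3 : γ' * q.s γ * p = β * β * NI q A.Q := by
      rw [← hu, hγ'']
      ring
    have a4 := congrArg q.s a3
    unfold tr at a1
    rw [hb] at a1
    rw [hN] at a2
    rw [map_mul _ _ (p : 𝓞 K), map_natCast, map_mul _ _ (NI q A.Q : 𝓞 K), map_natCast,
      map_mul _ β β] at a4
    apply mul_left_cancel₀ (a := (p : 𝓞 K)) (by exact_mod_cast hp.ne_zero)
    push_cast at a1 a2 ⊢
    linear_combination a3 + a4 + (NI q A.Q * (β + q.s β + p * b)) * a1 - 2 * NI q A.Q * a2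
  have e4 := two_rho q hn4 (γ' * q.s γ)
  rw [e3, map_mul, rho_s, l1, l1'] at e4
  push_cast at e4
  rw [A.hQ3, ← l2] at e4
  have uL : IsUnit (L : ZMod n) := by
    have := (ZMod.isUnit_iff_coprime _ _).mpr (Nat.Coprime.coprime_mul_left_right A.hQ)
    rw [A.hQ3, ← l2, sq] at this
    exact isUnit_of_mul_isUnit_left this
  have e5 : (n : ℤ) ∣ 2 * (NI q (A.S t) * NI q (A.S s)) * (L + L') - L * (p * b ^ 2) := by
    rw [← ZMod.intCast_zmod_eq_zero_iff_dvd, ← uL.mul_right_eq_zero]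
    push_cast
    linear_combination e4
  have c1 : IsCoprime (n : ℤ) (2 * (NI q (A.S t) * NI q (A.S s))) := by
    have : Nat.Coprime (2 * (NI q (A.S t) * NI q (A.S s))) n :=
      Nat.Coprime.mul_left (Nat.coprime_two_left.mpr (Nat.odd_iff.mpr (by omega)))
        (Nat.Coprime.coprime_mul_left_right (Nat.Coprime.mul_left (A.hS t) (A.hS s)))
    exact_mod_cast Nat.isCoprime_iff_coprime.mpr this.symm
  rw [hn'] at c1 e5
  obtain ⟨k, hk⟩ := e5
  refine ⟨L, L', ?_, ?_, ?_, A.card_fix hn4 hγ l1, A.card_fix hn4 hγ' l1'⟩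
  · rw [← ZMod.intCast_zmod_eq_zero_iff_dvd]
    push_cast
    rw [l2]
    ring
  · exact c1.of_mul_left_left.dvd_of_dvd_mul_left ⟨d * k + L * b ^ 2, by linear_combination hk⟩
  · exact c1.of_mul_left_right.dvd_of_dvd_mul_left ⟨L * (crd q β).2 ^ 2 - p * k, by
      linear_combination L * e2 - hk⟩

end Aux

end Vale.Agent.P014D
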