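import Vale.Agent.P014D.Fix
import Vale.Agent.P014B.Iface2
import Vale.Agent.P017.H185.Fam

/-!
# P014 (E): the `2`-adic induction for the second family
-/

open NumberField
open scoped Classical

namespace Vale.Agent.P014D

open Vale.Agent.P017.H185 Vale.Agent.P014.H70 Vale.Agent.P014B Vale.Agent.P014.H687

section

variable {K : Type} [Field K] [NumberField K] {n : ℕ} {q : QF K n} (hn4 : n % 4 = 3)

theorem Aux.brandtId (h17 : jacobiSym n 17 = -1) (A : Aux q) (R : Rep q)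
    {φ : ClassGroup (𝓞 K) → ℤ}
    (h2 : ∀ s t, 2 * ((LS q hn4 (A.X s t) (A.Y s t) 1 1).card : ℤ) - 3 = φ s * φ t) :
    BrandtId R φ := by
  have : NeZero n := ⟨q.d_pos.ne'⟩
  intro e he z hz
  set th : ClassGroup (𝓞 K) × ClassGroup (𝓞 K) × ZMod n → ℂ := fun x =>
    ∑' p, (LL q hn4 (R.X x.1) (R.X x.2.1) x.2.2).indicator
      (tm q (NI q (R.X x.1)) (NI q (R.X x.2.1)) z) p with hth
  have e1 : ∑ A, ∑ B, (R.chi e A : ℂ) * thW q (R.X A) (R.X B) (R.a A) (R.a B) z =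
      ∑ x ∈ Trip R, (R.chi e x.1 : ℂ) * th x := by
    rw [sum_Trip]
    refine Finset.sum_congr rfl fun A _ => Finset.sum_congr rfl fun B _ => ?_
    have := thW_eq hn4 h17 (X := R.X A) (Y := R.X B) (by rw [rep_NI]; exact rep_cop R _)
      (by rw [rep_NI]; exact rep_cop R _) hz
    rw [← rep_NI, ← rep_NI, this, Finset.mul_sum]
  have e2 : ∀ x, 2 * th (A.Ph hn4 R x) = ec z + ((φ x.1 * φ x.2.1 : ℤ) : ℂ) * Fc Th3 z := by
    intro x
    have hg : Gd q (R.X (A.Ph hn4 R x).1) (R.X (A.Ph hn4 R x).2.1) (A.Ph hn4 R x).2.2 :=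
      ⟨by rw [rep_NI]; exact rep_cop R _, by rw [rep_NI]; exact R.hcop _, by
        rw [rep_NI, rep_NI]
        exact mem_Lam.mp (A.Ph_mem hn4 R x)⟩
    rw [← h2, A.Ph_card hn4 R x]
    exact theta_LL hn4 h17 hg hz
  rw [e1, ← image_Ph hn4 h17 A R, Finset.sum_image fun x _ y _ h => A.Ph_inj hn4 R h,
    Fintype.sum_prod_type]
  simp only [Fintype.sum_prod_type, Fintype.sum_bool]
  push_cast
  rw [sq, sq, Finset.sum_mul_sum, Finset.sum_mul_sum, Finset.sum_mul, Finset.sum_mul,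
    ← Finset.sum_add_distrib]
  refine Finset.sum_congr rfl fun s _ => ?_
  rw [Finset.sum_mul, Finset.sum_mul, ← Finset.sum_add_distrib]
  refine Finset.sum_congr rfl fun t _ => ?_
  have f1 := e2 (s, t, true)
  have f2 := e2 (s, t, false)
  have f3 : ∀ b, R.chi e (A.Ph hn4 R (s, t, b)).1 = R.chi e s * R.chi e t := by
    intro b
    show R.chi e (s * t⁻¹) = _
    rw [chi_mul R hn4 he, chi_inv R hn4 he]
  rw [f3, f3]
  push_cast at f1 f2 ⊢
  linear_combination ((R.chi e s : ℂ) * R.chi e t / 2) * (f1 + f2)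

include hn4 in
theorem Aux.chi_Q (A : Aux q) (R : Rep q) {e : ℕ} (he : e ∣ n) :
    R.chi e (cl A.Q) = jacobiSym (-17) e := by
  rw [chi_eq R hn4 he (A.Q_ne hn4) (Nat.Coprime.coprime_dvd_right he
    (Nat.Coprime.coprime_mul_left_right A.hQ))]
  apply jacobiSym.mod_left'
  have h4 : ((NI q A.Q : ℕ) : ℤ) ≡ -17 [ZMOD n] := by
    apply (ZMod.intCast_eq_intCast_iff _ _ _).mp
    push_cast
    exact A.hQ3
  exact h4.of_dvd (Int.natCast_dvd_natCast.mpr he)

include hn4 in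
theorem exists_dt' {κ : ℝ} (R : Rep q) {φ : ClassGroup (𝓞 K) → ℤ} (h1 : ∀ c, φ c = 1 ∨ φ c = -3)
    (hG : ∃ ε : ℝ, (ε = 1 ∨ ε = -1) ∧ ∀ n₁ n₂ : ℕ, n₁ * n₂ = n →
      ((∑ A, R.chi n₁ A * φ A : ℤ) : ℝ) ^ 2 = ε * κ * (wn n : ℝ) ^ 2 * (ell n₁ * ell n₂)) :
    ∃ x : Dt κ n, x.h = Fintype.card (ClassGroup (𝓞 K)) ∧ ∀ d, d ∣ n → d ≠ n →
      ∑ e ∈ d.divisors, x.P e = x.h - 2 ^ (d.primeFactors.card + 2) *
        (Finset.univ.filter fun c => (∀ p ∈ d.primeFactors, R.chi p c = 1) ∧ φ c = -3).card := by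
  have key : ∀ d, d ∣ n → d ≠ n → ∑ e ∈ d.divisors, ∑ A, R.chi e A * φ A =
      Fintype.card (ClassGroup (𝓞 K)) - 2 ^ (d.primeFactors.card + 2) *
        (Finset.univ.filter fun c => (∀ p ∈ d.primeFactors, R.chi p c = 1) ∧ φ c = -3).card := by
    intro d hd hdn
    rw [← sum_sum_chi R hn4 hd hdn, Finset.sum_comm, Finset.card_filter, Nat.cast_sum,
      Finset.mul_sum, ← Finset.sum_sub_distrib]
    refine Finset.sum_congr rfl fun c _ => ?_
    rw [← Finset.sum_mul, sum_div_chi R hd]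
    by_cases h2 : ∀ p ∈ d.primeFactors, R.chi p c = 1
    · rw [if_pos h2]
      rcases h1 c with h | h
      · rw [if_neg (fun h3 => by rw [h] at h3; exact absurd h3.2 (by decide)), h]
        simp
      · rw [if_pos ⟨h2, h⟩, h]
        push_cast
        ring
    · rw [if_neg h2, if_neg fun h3 => h2 h3.1]
      simp
  refine ⟨⟨fun e => ∑ A, R.chi e A * φ A, Fintype.card (ClassGroup (𝓞 K)), hG,
    fun d hd hdn => ?_, fun d hd hdn => ?_⟩, rfl, key⟩
  · rw [card_eq_genus R hn4 hd hdn]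
    exact dvd_mul_right _ _
  · rw [key d hd hdn, sub_sub_cancel_left, dvd_neg]
    exact dvd_mul_right _ _

include q hn4 in
/-- the class number is divisible by one more factor two -/
theorem h_even {p f : ℕ} (hn : n = p * f) (hp : p.Prime) (hp4 : 4 < p) (hf : f ≠ 1)
    (hJ : ∀ r : ℕ, r.Prime → r ∣ f → jacobiSym p r = 1) :
    2 ^ (f.primeFactors.card + 1) ∣ (Fintype.card (ClassGroup (𝓞 K)) : ℤ) := by
  obtain ⟨R⟩ := rep_nonempty q
  have hf0 : f ≠ 0 := right_ne_zero_of_mul (hn ▸ q.d_pos.ne')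
  have hfn : f ∣ n := ⟨p, by rw [hn, mul_comm]⟩
  have hcop : Nat.Coprime p f := Nat.coprime_of_squarefree_mul (hn ▸ q.hd)
  rw [card_eq_genus R hn4 hfn (by
    intro h
    rw [← h] at hn
    exact hp.one_lt.ne' ((Nat.mul_eq_right hf0).mp hn.symm)), pow_succ]
  apply mul_dvd_mul_left
  obtain ⟨P, hP, hP2⟩ := exists_ram q (p := p) ⟨f, hn⟩
  have hP0 : P ≠ ⊥ := ne_bot_of_NI q (hP ▸ hp.ne_zero)
  have hcl : cl P * cl P = 1 := by
    rw [← cl_mul hP0 hP0]
    nth_rewrite 2 [← hP2]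
    rw [mul_cj, cl_span]
  have hne : cl P ≠ 1 := by
    intro h
    obtain ⟨x, -, hx⟩ := cl_eq_one hP0 h
    have e1 := two_N q x
    rw [← NI_span, ← hx, hP] at e1
    have hn' : (n : ℤ) = p * f := by exact_mod_cast hn
    generalize (crd q x).1 = u at e1
    generalize (crd q x).2 = v at e1
    obtain ⟨b, rfl⟩ : (p : ℤ) ∣ u := by
      apply (Nat.prime_iff_prime_int.mp hp).dvd_of_dvd_pow (n := 2)
      exact ⟨4 - f * (v * v), by linear_combination -e1 - v * v * hn'⟩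
    have e2 : (p : ℤ) * (b * b) + f * (v * v) = 4 := by
      apply mul_left_cancel₀ (a := (p : ℤ)) (by omega)
      linear_combination -e1 - v * v * hn'
    have e3 : b = 0 := by
      by_contra h3
      have h4 : 0 < b * b := mul_self_pos.mpr h3
      have h5 : (4 : ℤ) < p := by omega
      nlinarith [mul_nonneg (Int.natCast_nonneg f) (mul_self_nonneg v)]
    have e4 : f ∣ 2 ^ 2 := by
      have : (f : ℤ) ∣ 4 := ⟨v * v, by rw [e3] at e2; linarith⟩
      exact_mod_cast this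
    have ho : Odd f := Odd.of_dvd_nat (Nat.odd_iff.mpr (by omega)) hfn
    exact hf (Nat.Coprime.eq_one_of_dvd (Nat.coprime_two_right.mpr ho |>.pow_right 2) e4)
  have h2 : ∑ _c ∈ Finset.univ.filter fun c => ∀ r ∈ f.primeFactors, R.chi r c = 1,
      (1 : ZMod 2) = 0 := by
    refine Finset.sum_involution (fun c _ => c * cl P) (fun _ _ => rfl) ?_ ?_ fun c _ => ?_
    · intro c _ _ h3
      exact hne (mul_eq_left.mp h3)
    · intro c hc
      rw [Finset.mem_filter] at hc ⊢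
      refine ⟨Finset.mem_univ _, fun r hr => ?_⟩
      have h3 := Nat.dvd_of_mem_primeFactors hr
      rw [chi_mul R hn4 (h3.trans hfn), hc.2 r hr, one_mul, chi_eq R hn4 (h3.trans hfn) hP0
        (by rw [hP]; exact Nat.Coprime.coprime_dvd_right h3 hcop), hP]
      exact hJ r (Nat.prime_of_mem_primeFactors hr) h3
    · rw [mul_assoc, hcl, mul_one]
  rw [Finset.sum_const, nsmul_eq_mul, mul_one, ZMod.natCast_eq_zero_iff] at h2
  exact_mod_cast h2

theorem sq_one {G : Type*} [CommGroup G] (h4 : ∀ c : G, orderOf c ≠ 4) {s : G}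
    (h : s * s * (s * s) = 1) : s * s = 1 := by
  by_contra h1
  apply h4 s
  have := Fact.mk Nat.prime_two
  refine orderOf_eq_prime_pow (p := 2) (n := 1) ?_ ?_
  · rw [pow_one, sq]
    exact h1
  · rw [← h]
    norm_num
    rw [← sq, ← sq, ← pow_mul]

/-- the number of special Gross points in two genera is odd -/
theorem odd_count (h17 : jacobiSym n 17 = -1) (A : Aux q) (R : Rep q) {φ : ClassGroup (𝓞 K) → ℤ}
    (h1 : ∀ c, φ c = 1 ∨ φ c = -3)
    (h2 : ∀ s t, 2 * ((LS q hn4 (A.X s t) (A.Y s t) 1 1).card : ℤ) - 3 = φ s * φ t)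
    {p p₁ d' : ℕ} (hn : n = p * (p₁ * d')) (hp : p.Prime) (hp₁ : p₁.Prime) (hp3 : p ≠ 3)
    (hp4 : p % 4 = 3) (j1 : jacobiSym p p₁ = -1)
    (j2 : ∀ r : ℕ, r.Prime → r ∣ d' → jacobiSym p r = 1)
    (j3 : ∀ r : ℕ, r.Prime → r ∣ p₁ * d' → jacobiSym (-17) r = 1)
    (h4 : ∀ c : ClassGroup (𝓞 K), orderOf c ≠ 4)
    (hS : ∀ l : ℤ, ((p₁ * d' : ℕ) : ℤ) ∣ l ^ 2 + 17 → Sol (p₁ * d') l 2) :
    Odd (Finset.univ.filter fun c =>
      (∀ r ∈ d'.primeFactors, R.chi r c = 1) ∧ φ c = -3).card := by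
  have hdn : p₁ * d' ∣ n := ⟨p, by rw [hn, mul_comm]⟩
  have hd'n : d' ∣ n := (dvd_mul_left _ _).trans hdn
  have hp₁n : p₁ ∣ n := (dvd_mul_right _ _).trans hdn
  have hd0 : p₁ * d' ≠ 0 := ne_zero_of_dvd_ne_zero q.d_pos.ne' hdn
  have hcop : Nat.Coprime p (p₁ * d') := Nat.coprime_of_squarefree_mul (hn ▸ q.hd)
  have dv : ∀ r ∈ d'.primeFactors, r ∣ n := fun r hr =>
    (Nat.dvd_of_mem_primeFactors hr).trans hd'n
  obtain ⟨P, hP, hP2⟩ := exists_ram q (p := p) ⟨_, hn⟩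
  have hP0 : P ≠ ⊥ := ne_bot_of_NI q (hP ▸ hp.ne_zero)
  have hcl : cl P * cl P = 1 := by
    rw [← cl_mul hP0 hP0]
    nth_rewrite 2 [← hP2]
    rw [mul_cj, cl_span]
  have chP : ∀ r, r ∣ p₁ * d' → R.chi r (cl P) = jacobiSym p r := fun r hr => by
    rw [chi_eq R hn4 (hr.trans hdn) hP0 (by rw [hP]; exact Nat.Coprime.coprime_dvd_right hr hcop),
      hP]
  have pg : ∀ c, R.chi p₁ c = 1 → (∀ r ∈ d'.primeFactors, R.chi r c = 1) → ∃ s, c = s * s := by
    intro c c1 c2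
    refine principal_genus hn4 h17 R (genus_all R hn4 hn hp fun r hr => ?_)
    have hr' := Nat.prime_of_mem_primeFactors hr
    rcases (Nat.Prime.dvd_mul hr').mp (Nat.dvd_of_mem_primeFactors hr) with h | h
    · rwa [(Nat.prime_dvd_prime_iff_eq hr' hp₁).mp h]
    · exact c2 r (Nat.mem_primeFactors.mpr ⟨hr', h, right_ne_zero_of_mul hd0⟩)
  have chQ : ∀ r : ℕ, r.Prime → r ∣ p₁ * d' → R.chi r (cl A.Q) = 1 := fun r hr h => by
    rw [A.chi_Q hn4 R (h.trans hdn), j3 r hr h]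
  have chQ' : ∀ r ∈ d'.primeFactors, R.chi r (cl A.Q) = 1 := fun r hr =>
    chQ r (Nat.prime_of_mem_primeFactors hr) ((Nat.dvd_of_mem_primeFactors hr).mul_left _)
  have chP' : ∀ r ∈ d'.primeFactors, R.chi r (cl P) = 1 := fun r hr => by
    rw [chP r ((Nat.dvd_of_mem_primeFactors hr).mul_left _)]
    exact j2 r (Nat.prime_of_mem_primeFactors hr) (Nat.dvd_of_mem_primeFactors hr)
  have tors : ∀ a, a * a = 1 → (∀ r ∈ d'.primeFactors, R.chi r a = 1) → a = 1 ∨ a = cl P := by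
    intro a a1 a2
    rcases chi_cases R hp₁n a with h | h
    · obtain ⟨s, rfl⟩ := pg a h a2
      exact Or.inl (sq_one h4 a1)
    · right
      obtain ⟨s, hs⟩ := pg (a * cl P) (by
        rw [chi_mul R hn4 hp₁n, h, chP p₁ (dvd_mul_right _ _), j1]
        norm_num) fun r hr => by rw [chi_mul R hn4 (dv r hr), a2 r hr, chP' r hr, mul_one]
      have h5 : s * s = 1 := sq_one h4 (by rw [← hs, mul_mul_mul_comm, a1, hcl, mul_one])
      rw [← hs] at h5
      rw [← mul_one a, ← hcl, ← mul_assoc, h5, one_mul]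
  obtain ⟨c0, f0, g0⟩ : ∃ c0, c0 * c0 * cl A.Q = 1 ∧ ∀ r ∈ d'.primeFactors, R.chi r c0 = 1 := by
    obtain ⟨s, hs⟩ := pg (cl A.Q) (chQ p₁ hp₁ (dvd_mul_right _ _)) chQ'
    obtain ⟨a, S, a1, a2⟩ := decomp h4 s⁻¹
    refine ⟨S * S, ?_, fun r hr => by rw [chi_mul R hn4 (dv r hr), chi_sq R (dv r hr)]⟩
    have h5 : a * (S * S) * s = 1 := by rw [← a2, inv_mul_cancel]
    calc S * S * (S * S) * cl A.Q = a * (S * S) * s * (a * (S * S) * s) := by
          rw [hs, mul_mul_mul_comm (a * (S * S)), mul_mul_mul_comm a, a1, one_mul]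
      _ = 1 := by rw [h5, mul_one]
  have ev : ∀ s (L : ℤ), (LS q hn4 (A.X s s) (A.Y s s) 1 1).card =
      (LS q hn4 ⊤ ⊤ (L : ZMod n) 1).card → (φ s = -3 ↔ Ev n L) := by
    intro s L h
    have h5 := h2 s s
    rw [h] at h5
    constructor
    · intro h6
      by_contra h7
      have := LS_top_le (q := q) hn4 L h7
      rw [h6] at h5
      omega
    · intro h6
      have := LS_top_ge (q := q) hn4 L h6
      refine (h1 s).resolve_left fun h7 => ?_
      rw [h7] at h5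
      omega
  have one : φ c0 = -3 ↔ ¬ φ (c0 * cl P) = -3 := by
    obtain ⟨L, L', l1, l2, l3, l4, l5⟩ := A.fix_rel hn4 hn hp hP hP2 f0 rfl
    rw [ev _ _ l4, ev _ _ l5, hn]
    have l6 : (p : ℤ) ∣ L ^ 2 + 17 := (Int.natCast_dvd_natCast.mpr ⟨_, hn⟩).trans l1
    have l7 := (Int.natCast_dvd_natCast.mpr hdn).trans l1
    exact ev_parity hcop hp4 (Odd.of_dvd_nat (Nat.odd_iff.mpr (by omega)) hdn) l6 l7
      (sol_six hp4 ((Nat.coprime_primes hp Nat.prime_three).mpr hp3) l6) (hS L l7) l2 l3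
  obtain ⟨c, f1, g1, g2, g3⟩ : ∃ c, c * c * cl A.Q = 1 ∧ (∀ r ∈ d'.primeFactors, R.chi r c = 1) ∧
      φ c = -3 ∧ ¬ φ (c * cl P) = -3 := by
    by_cases h : φ c0 = -3
    · exact ⟨c0, f0, g0, h, one.mp h⟩
    · refine ⟨c0 * cl P, by rw [mul_mul_mul_comm, hcl, mul_one, f0], fun r hr => by
        rw [chi_mul R hn4 (dv r hr), g0 r hr, chP' r hr, mul_one], ?_, ?_⟩
      · by_contra h5
        exact h (one.mpr h5)
      · rwa [mul_assoc, hcl, mul_one]
  set T := Finset.univ.filter fun c => (∀ r ∈ d'.primeFactors, R.chi r c = 1) ∧ φ c = -3 with hT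
  have m1 : c ∈ T := Finset.mem_filter.mpr ⟨Finset.mem_univ _, g1, g2⟩
  have ci : (c * cl A.Q)⁻¹ = c := by
    rw [inv_eq_iff_mul_eq_one, mul_right_comm, f1]
  have h5 : ∑ _c ∈ T.erase c, (1 : ZMod 2) = 0 := by
    refine Finset.sum_involution (fun c _ => (c * cl A.Q)⁻¹) (fun _ _ => rfl) ?_ ?_ fun c _ => ?_
    · intro x hx _ h6
      rw [Finset.mem_erase, hT, Finset.mem_filter] at hx
      rw [inv_eq_iff_mul_eq_one, mul_right_comm] at h6
      have h7 := tors (x * c⁻¹) (by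
        rw [mul_mul_mul_comm, ← mul_inv, mul_inv_eq_one]
        exact mul_right_cancel (h6.trans f1.symm)) fun r hr => by
          rw [chi_mul R hn4 (dv r hr), chi_inv R hn4 (dv r hr), hx.2.2.1 r hr, g1 r hr, mul_one]
      rcases h7 with h7 | h7
      · exact hx.1 (mul_inv_eq_one.mp h7)
      · apply g3
        rw [← h7, mul_comm, inv_mul_cancel_right]
        exact hx.2.2.2
    · intro x hx
      rw [Finset.mem_erase, hT, Finset.mem_filter] at hx ⊢
      refine ⟨fun h6 => hx.1 ?_, Finset.mem_univ _, fun r hr => ?_, ?_⟩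
      · rw [← ci, inv_inj] at h6
        exact mul_right_cancel h6
      · rw [chi_inv R hn4 (dv r hr), chi_mul R hn4 (dv r hr), hx.2.2.1 r hr, chQ' r hr, mul_one]
      · have h6 := A.card_inv hn4 (s := x) (t := (x * cl A.Q)⁻¹) (by
          rw [mul_right_comm, mul_inv_cancel])
        have h7 := h2 x x
        rw [← h6, h2, hx.2.2.2] at h7
        refine (h1 _).resolve_left fun h8 => ?_
        rw [h8] at h7
        norm_num at h7
    · rw [mul_inv, inv_inv, mul_inv_cancel_right]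
  rw [Finset.sum_const, nsmul_eq_mul, mul_one, ZMod.natCast_eq_zero_iff] at h5
  rw [← Finset.card_erase_add_one m1]
  exact (even_iff_two_dvd.mpr h5).add_one

end

/-! ### the auxiliary prime -/

theorem mod_four {d : ℕ} (h0 : d ≠ 0) (h : ∀ p : ℕ, p.Prime → p ∣ d → p % 4 = 1) : d % 4 = 1 := by
  induction d using Nat.recOnMul with
  | zero => exact absurd rfl h0
  | one => rfl
  | prime p hp => exact h p hp dvd_rfl
  | mul a b ha hb =>
    rw [Nat.mul_mod, ha (left_ne_zero_of_mul h0) fun p hp hpa => h p hp (hpa.mul_right _),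
      hb (right_ne_zero_of_mul h0) fun p hp hpa => h p hp (hpa.mul_left _)]

theorem J17_one {d : ℕ} (h0 : d ≠ 0) (h : ∀ p : ℕ, p.Prime → p ∣ d → jacobiSym p 17 = 1) :
    jacobiSym d 17 = 1 := by
  induction d using Nat.recOnMul with
  | zero => exact absurd rfl h0
  | one => simp
  | prime p hp => exact h p hp dvd_rfl
  | mul a b ha hb =>
    rw [Nat.cast_mul, jacobiSym.mul_left,
      ha (left_ne_zero_of_mul h0) fun p hp hpa => h p hp (hpa.mul_right _),
      hb (right_ne_zero_of_mul h0) fun p hp hpa => h p hp (hpa.mul_left _), mul_one]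

theorem redei_aux {p p₁ d' : ℕ} (hsq : Squarefree (p * (p₁ * d'))) (hp : p.Prime) (ho : Odd p)
    (hp₁ : p₁.Prime) (h4 : ∀ r : ℕ, r.Prime → r ∣ p₁ * d' → r % 4 = 1) (hR : Red (p₁ * d'))
    (j1 : jacobiSym p p₁ = -1) (j2 : ∀ r : ℕ, r.Prime → r ∣ d' → jacobiSym p r = 1) :
    Redei (p * (p₁ * d')) := by
  set d := p₁ * d' with hd
  have key : ∀ a : ℕ, a ∣ p * d → ¬ p ∣ a → (∀ r : ℕ, r.Prime → r ∣ p * d →
      (¬ r ∣ a → IsSquare (a : ZMod r)) ∧ (r ∣ a → IsSquare ((p * d / a : ℕ) : ZMod r))) →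
      a = 1 := by
    intro a ha hpa hloc
    obtain ⟨b, hb⟩ : a ∣ d :=
      ((Nat.Prime.coprime_iff_not_dvd hp).mpr hpa).symm.dvd_of_dvd_mul_left ha
    have hab : Squarefree (a * b) := hb ▸ hsq.of_mul_right
    have ha0 : a ≠ 0 := left_ne_zero_of_mul hab.ne_zero
    have hcop := Nat.coprime_of_squarefree_mul hab
    have h1 : jacobiSym a p = 1 := J_prime_one hp (by exact_mod_cast hpa)
      (by exact_mod_cast (hloc p hp (dvd_mul_right _ _)).1 hpa)
    have ha4 : a % 4 = 1 := mod_four ha0 fun r hr h => h4 r hr (h.trans ⟨b, hb⟩)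
    rw [jacobiSym.quadratic_reciprocity_one_mod_four ha4 ho] at h1
    have h2 : ¬ p₁ ∣ a := by
      rintro ⟨a', rfl⟩
      have h3 : a' ∣ d' := ⟨b, Nat.eq_of_mul_eq_mul_left hp₁.pos (by rw [← hd, hb]; ring)⟩
      rw [jacobiSym.mul_right' _ hp₁.ne_zero (right_ne_zero_of_mul ha0), j1,
        J_one_of_primes (right_ne_zero_of_mul ha0) fun r hr h => j2 r hr (h.trans h3)] at h1
      norm_num at h1
    have h3 : a ∣ d' :=
      ((Nat.Prime.coprime_iff_not_dvd hp₁).mpr h2).symm.dvd_of_dvd_mul_left ⟨b, hb⟩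
    have h5 : p * d / a = p * b := by
      rw [hb, mul_left_comm, Nat.mul_div_cancel_left _ (Nat.pos_of_ne_zero ha0)]
    refine (hR a b hb.symm (fun r hr h => ?_) fun r hr h => ?_).resolve_right fun h =>
      h2 ⟨d', by rw [← hd, hb, h, mul_one]⟩
    · have h6 : ¬ r ∣ a := fun h7 => hr.one_lt.ne' (Nat.eq_one_of_dvd_coprimes hcop h7 h)
      refine J_prime_one hr (by exact_mod_cast h6) ?_
      exact_mod_cast (hloc r hr (by rw [hb, ← mul_assoc]; exact h.mul_left _)).1 h6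
    · have h6 := (hloc r hr (h.trans ha)).2 h
      rw [h5] at h6
      have h7 : jacobiSym (p * b : ℕ) r = 1 := by
        refine J_prime_one hr ?_ (by exact_mod_cast h6)
        intro h8
        have h9 : r ∣ p * b := by exact_mod_cast h8
        have h10 : r * r ∣ p * d := by
          rw [hb, mul_left_comm]
          exact Nat.mul_dvd_mul h h9
        exact hr.one_lt.ne' (Nat.isUnit_iff.mp (hsq r h10))
      rwa [Nat.cast_mul, jacobiSym.mul_left, j2 r hr (h.trans h3), one_mul] at h7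
  intro a ha hloc
  by_cases hpa : p ∣ a
  · right
    obtain ⟨c, hc⟩ := ha
    have ha0 : a ≠ 0 := left_ne_zero_of_mul (hc ▸ hsq.ne_zero)
    have h1 : p * d / a = c := by
      rw [hc]
      exact Nat.mul_div_cancel_left c (Nat.pos_of_ne_zero ha0)
    have h2 := key (p * d / a) (Nat.div_dvd_of_dvd ⟨c, hc⟩) (by
      rw [h1]
      intro hpc
      have : p * p ∣ p * d := by
        rw [hc]
        exact Nat.mul_dvd_mul hpa hpc
      exact hp.one_lt.ne' (Nat.isUnit_iff.mp (hsq p this))) (local_symm hsq ⟨c, hc⟩ hloc)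
    rw [h1] at h2
    rw [hc, h2, mul_one]
  · exact Or.inl (key a ha hpa hloc)

theorem exists_aux_prime {p₁ d' : ℕ} (hsq : Squarefree (p₁ * d')) (hp₁ : p₁.Prime)
    (h : ∀ r : ℕ, r.Prime → r ∣ p₁ * d' → r % 4 = 1 ∧ jacobiSym r 17 = 1) :
    ∃ p : ℕ, p.Prime ∧ 4 < p ∧ p % 4 = 3 ∧ jacobiSym p 17 = -1 ∧ jacobiSym p p₁ = -1 ∧
      ∀ r : ℕ, r.Prime → r ∣ d' → jacobiSym p r = 1 := by
  have h68 : Nat.Coprime 68 (p₁ * d') := by
    apply Nat.coprime_of_dvd
    intro r hr h1 h2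
    obtain ⟨h3, h4⟩ := h r hr h2
    rcases (Nat.Prime.dvd_mul hr (m := 2 ^ 2) (n := 17)).mp h1 with h5 | h5
    · have := (Nat.prime_dvd_prime_iff_eq hr Nat.prime_two).mp (hr.dvd_of_dvd_pow h5)
      omega
    · rw [(Nat.prime_dvd_prime_iff_eq hr (by norm_num)).mp h5] at h4
      norm_num at h4
  have hcop := Nat.coprime_of_squarefree_mul hsq
  obtain ⟨r1, hr1⟩ := exists_J_left hp₁.squarefree
    (Nat.odd_iff.mpr (by have := (h p₁ hp₁ (dvd_mul_right _ _)).1; omega)) hp₁.one_lt.ne'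
  obtain ⟨r2, m1, m2⟩ := Nat.chineseRemainder hcop r1 1
  obtain ⟨r, m3, m4⟩ := Nat.chineseRemainder h68 3 r2
  have j1 : jacobiSym r p₁ = -1 := by
    rw [← hr1]
    exact jacobiSym.mod_left' (Int.natCast_modEq_iff.mpr ((m4.of_mul_right _).trans m1))
  have c1 : Nat.Coprime r (68 * (p₁ * d')) := by
    refine Nat.Coprime.mul_right ?_ (Nat.Coprime.mul_right ?_ ?_)
    · rw [Nat.Coprime, m3.gcd_eq]
      norm_num
    · exact cop_of_J hp₁.ne_zero (by rw [j1]; norm_num)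
    · rw [Nat.Coprime, ((m4.of_mul_left _).trans m2).gcd_eq, Nat.gcd_one_left]
  have : NeZero (68 * (p₁ * d')) := ⟨mul_ne_zero (by norm_num) hsq.ne_zero⟩
  obtain ⟨p, h1, h2, h3⟩ := Nat.forall_exists_prime_gt_and_eq_mod (q := 68 * (p₁ * d'))
    ((ZMod.isUnit_iff_coprime r _).mpr c1) 4
  have h4 := (ZMod.natCast_eq_natCast_iff _ _ _).mp h3
  have h5 : p ≡ 3 [MOD 68] := (h4.of_mul_right _).trans m3
  refine ⟨p, h2, h1, by unfold Nat.ModEq at h5; omega, ?_, ?_, fun s _ hs => ?_⟩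
  · rw [jacobiSym.mod_left' (Int.natCast_modEq_iff.mpr (h5.of_dvd (by norm_num : 17 ∣ 68)))]
    norm_num
  · rw [← j1]
    exact jacobiSym.mod_left' (Int.natCast_modEq_iff.mpr ((h4.of_mul_left _).of_mul_right _))
  · rw [jacobiSym.mod_left' (Int.natCast_modEq_iff.mpr
      (((((h4.of_mul_left _).trans m4).of_mul_left _).trans m2).of_dvd hs)), Nat.cast_one,
      jacobiSym.one_left]

theorem odd_prime {κ : ℝ} {p : ℕ} (hp : p.Prime) (x : Dt κ p) (m : x.Min) : Odd (x.P 1) := by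
  have h1 := m p 1 (mul_one p).symm hp
  have h2 := x.f2 1 (one_dvd _) hp.one_lt.ne
  simp only [Nat.primeFactors_one, Finset.card_empty, zero_add, pow_one, Nat.divisors_one,
    Finset.sum_singleton] at h1 h2
  rw [Int.odd_iff]
  omega

/-- **the `2`-adic induction for the second family** -/
theorem ind2 (hG : GrossStmt) (hL : LStmt) : Ind2Stmt := by
  obtain ⟨κ, hκ, hG⟩ := hG
  have hex : ∀ n, Adm n → Nonempty (Dt κ n) := fun n hn =>
    ⟨(exists_dt brandt hG (qf n hn.1) hn.2.1 hn.2.2).choose⟩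
  obtain ⟨x3, m3⟩ := exists_dt brandt hG q3 (by norm_num) (by norm_num)
  have h3 : Odd (x3.P 1) := odd_prime Nat.prime_three x3 (m3 (Or.inr Nat.prime_three))
  have z1 : ∀ a : ℤ, Odd a → a ≠ 0 := by
    rintro a ha rfl
    exact absurd ha (by decide)
  have l1 : ell 1 ≠ 0 := by
    obtain ⟨ε3, -, g3⟩ := x3.gross
    have e3 := g3 1 3 rfl
    intro h
    rw [h, zero_mul, mul_zero] at e3
    exact z1 _ h3 (by exact_mod_cast pow_eq_zero_iff two_ne_zero |>.mp e3)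
  refine ⟨l1, ?_⟩
  rintro d ⟨hsq, hpr, hR, r, s, hrs, hJ⟩
  have hd1 : d ≠ 1 := fun h => not_norm17 hsq hrs hJ 1 0 (by rw [h]; norm_num)
  obtain ⟨p₁, hp₁, d', rfl⟩ := Nat.exists_prime_and_dvd hd1
  obtain ⟨p, hp, hp5, hp4, j0, j1, j2⟩ := exists_aux_prime hsq hp₁ hpr
  set d := p₁ * d' with hd
  have hd0 : d ≠ 0 := hsq.ne_zero
  have hd'0 : d' ≠ 0 := right_ne_zero_of_mul hd0
  have adm : ∀ f, f ∣ d → Adm (p * f) := by
    intro f hf
    have hf0 : f ≠ 0 := ne_zero_of_dvd_ne_zero hd0 hf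
    refine ⟨?_, ?_, ?_⟩
    · rw [Nat.squarefree_mul ((Nat.Prime.coprime_iff_not_dvd hp).mpr fun h => ?_)]
      · exact ⟨hp.squarefree, hsq.squarefree_of_dvd hf⟩
      · have := (hpr p hp (h.trans hf)).1
        omega
    · rw [Nat.mul_mod, mod_four hf0 fun r hr h => (hpr r hr (h.trans hf)).1, hp4]
    · rw [Nat.cast_mul, jacobiSym.mul_left, j0, J17_one hf0 fun r hr h => (hpr r hr (h.trans hf)).2]
      norm_num
  have hD : ∀ f, f ∣ d → DD f := fun f hf => Or.inl fun r hr h => (hpr r hr (h.trans hf)).1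
  have full : ∀ n, ∀ hn : Adm n, ∃ (A : Aux (qf n hn.1)) (R : Rep (qf n hn.1))
      (φ : ClassGroup (𝓞 (Kn n)) → ℤ), (∀ c, φ c = 1 ∨ φ c = -3) ∧
      (∀ s t, 2 * ((LS (qf n hn.1) hn.2.1 (A.X s t) (A.Y s t) 1 1).card : ℤ) - 3 = φ s * φ t) ∧
      ∃ x : Dt κ n, x.h = Fintype.card (ClassGroup (𝓞 (Kn n))) ∧ ∀ d, d ∣ n → d ≠ n →
      ∑ e ∈ d.divisors, x.P e = x.h - 2 ^ (d.primeFactors.card + 2) *
        (Finset.univ.filter fun c =>
          (∀ p ∈ d.primeFactors, R.chi p c = 1) ∧ φ c = -3).card := by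
    intro n hn
    obtain ⟨A⟩ := aux_nonempty (qf n hn.1) hn.2.1 hn.2.2
    obtain ⟨R⟩ := rep_nonempty (qf n hn.1)
    obtain ⟨φ, h1, h2⟩ := A.exists_phi hn.2.1 hn.2.2
    exact ⟨A, R, φ, h1, h2, exists_dt' hn.2.1 R h1
      (hG _ n _ R φ hn.2.1 hn.2.2 (A.brandtId hn.2.1 hn.2.2 R h2))⟩
  have hn := adm d dvd_rfl
  obtain ⟨A, R, φ, h1, h2, x, -, hx⟩ := full _ hn
  have hlt : d < p * d := lt_mul_of_one_lt_left (Nat.pos_of_ne_zero hd0) hp.one_lt
  have hlt' : d' < d := lt_mul_of_one_lt_left (Nat.pos_of_ne_zero hd'0) hp₁.one_lt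
  have o1 := odd_count hn.2.1 hn.2.2 A R h1 h2 rfl hp hp₁ (by omega) hp4 j1 j2 (fun r hr h => by
      obtain ⟨a1, a2⟩ := hpr r hr h
      have ho : Odd r := Nat.odd_iff.mpr (by omega)
      rw [jacobiSym.neg _ ho, ZMod.χ₄_nat_one_mod_four a1, one_mul, ← a2]
      exact jacobiSym.quadratic_reciprocity_one_mod_four (a := 17) (by norm_num) ho)
    ((qf _ hn.1).no_order_four hn.2.1 (redei_aux hn.1 hp (Nat.odd_iff.mpr (by omega)) hp₁
      (fun r hr h => (hpr r hr h).1) hR j1 j2))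
    fun l hl => sol_two hsq (mod_four hd0 fun r hr h => (hpr r hr h).1) hrs hJ hl
  have c2 := hx d' ((dvd_mul_left _ _).mul_left _) (by omega)
  generalize (Finset.univ.filter fun c =>
    (∀ p ∈ d'.primeFactors, R.chi p c = 1) ∧ φ c = -3).card = n' at o1 c2
  have c1 := x.f2 d (dvd_mul_left _ _) hlt.ne
  have c3 : d.primeFactors.card = d'.primeFactors.card + 1 := by
    rw [hd, card_pf_mul hsq, hp₁.primeFactors, Finset.card_singleton, add_comm]
  have c4 : d'.divisors ⊆ d.divisors.erase d := by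
    intro e he
    have h4 := Nat.dvd_of_mem_divisors he
    rw [Finset.mem_erase, Nat.mem_divisors]
    refine ⟨?_, h4.mul_left _, hd0⟩
    have := Nat.le_of_dvd (Nat.pos_of_ne_zero hd'0) h4
    omega
  rw [← Finset.add_sum_erase _ _ (Nat.mem_divisors_self d hd0), ← Finset.sum_sdiff c4, c2] at c1
  have c5 : 2 ^ (d.primeFactors.card + 2) ∣ ∑ e ∈ d.divisors.erase d \ d'.divisors, x.P e := by
    apply Finset.dvd_sum
    intro e he
    rw [Finset.mem_sdiff, Finset.mem_erase, Nat.mem_divisors, Nat.mem_divisors] at he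
    obtain ⟨⟨he1, ⟨f, hf⟩, -⟩, he2⟩ := he
    have he0 : e ≠ 0 := left_ne_zero_of_mul (hf ▸ hd0)
    have he3 : e ≠ 1 := by
      rintro rfl
      exact he2 ⟨one_dvd _, hd'0⟩
    have he4 : p₁ ∣ e := by
      by_contra h
      exact he2 ⟨((Nat.Prime.coprime_iff_not_dvd hp₁).mpr h).symm.dvd_of_dvd_mul_left ⟨f, hf⟩,
        hd'0⟩
    have hf1 : f ∣ d' := by
      obtain ⟨e', rfl⟩ := he4
      exact ⟨e', Nat.eq_of_mul_eq_mul_left hp₁.pos (by rw [← hd, hf]; ring)⟩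
    have hf2 : f ∣ d := hf1.mul_left _
    have a1 := adm_three (hsq.squarefree_of_dvd ⟨f, hf⟩) (hD e ⟨f, hf⟩)
      ⟨mod_four he0 fun r hr h => (hpr r hr (h.trans ⟨f, hf⟩)).1,
        J17_one he0 fun r hr h => (hpr r hr (h.trans ⟨f, hf⟩)).2⟩
    have a2 := adm f hf2
    obtain ⟨y⟩ := hex _ a1
    obtain ⟨-, -, -, -, -, z, hz, -⟩ := full _ a2
    have b1 := (induct hL hex x3 h3 e (hD e ⟨f, hf⟩)).1 _ rfl a1 he3 y
    have b2 := (induct hL hex x3 h3 f (hD f hf2)).2 _ p (mul_comm _ _) hp.one_lt.ne' a2 z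
    have b3 := h_even (q := qf _ a2.1) a2.2.1 rfl hp hp5 (by
      rintro rfl
      exact he1 (by rw [hf, mul_one])) fun r hr h => j2 r hr (h.trans hf1)
    rw [← hz] at b3
    have b4 := dvd_add b2 b3
    rw [sub_add_cancel] at b4
    have b5 := key_dvd (by rw [hf]; ring) rfl x y z x3 h3 b1 b4
    have b6 : d.primeFactors.card = e.primeFactors.card + f.primeFactors.card := by
      rw [hf]
      exact card_pf_mul (hf ▸ hsq)
    rwa [show e.primeFactors.card + 1 + (f.primeFactors.card + 1) = d.primeFactors.card + 2 by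
      omega] at b5
  obtain ⟨k, hk⟩ := dvd_sub c1 c5
  have c6 : x.P d = 2 ^ (d.primeFactors.card + 1) * (n' + 2 * k) := by
    rw [c3] at hk ⊢
    linear_combination hk
  have c7 : Odd ((n' : ℤ) + 2 * k) := (by exact_mod_cast o1 : Odd (n' : ℤ)).add_even (even_two_mul k)
  have a0 := adm 1 (one_dvd _)
  rw [mul_one] at a0
  obtain ⟨x0, m0⟩ := exists_dt brandt hG (qf p a0.1) a0.2.1 a0.2.2
  have h0 : Odd (x0.P 1) := odd_prime hp x0 (m0 (Or.inr hp))
  obtain ⟨ε, s1, g1⟩ := x.gross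
  obtain ⟨ε0, s0, g0⟩ := x0.gross
  have e1 := g1 d p (mul_comm _ _)
  have e0 := g0 1 p (one_mul _)
  have w1 : (wn (p * d) : ℝ) = 2 := by
    unfold wn
    rw [if_neg (by have := Nat.le_mul_of_pos_right p (Nat.pos_of_ne_zero hd0); omega)]
    norm_num
  have w0 : (wn p : ℝ) = 2 := by
    unfold wn
    rw [if_neg (by omega)]
    norm_num
  obtain ⟨η, hη, hη2⟩ : ∃ η : ℤ, Odd η ∧ (η : ℝ) = ε * ε0 := by
    rcases s1 with rfl | rfl <;> rcases s0 with rfl | rfl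
    · exact ⟨1, by decide, by norm_num⟩
    · exact ⟨-1, by decide, by norm_num⟩
    · exact ⟨-1, by decide, by norm_num⟩
    · exact ⟨1, by decide, by norm_num⟩
  have o2 : Odd (η * (n' + 2 * k) ^ 2) := hη.mul c7.pow
  have o3 : Odd (x0.P 1 ^ 2) := h0.pow
  have z2 : ∀ a : ℤ, Odd a → (a : ℚ) ≠ 0 := fun a ha => by exact_mod_cast z1 a ha
  have := Fact.mk Nat.prime_two
  refine ⟨((η * (n' + 2 * k) ^ 2 : ℤ) : ℚ) / ((x0.P 1 ^ 2 : ℤ) : ℚ),
    div_ne_zero (z2 _ o2) (z2 _ o3), ?_, ?_⟩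
  · rw [padicValRat.div (z2 _ o2) (z2 _ o3), padic_odd o2, padic_odd o3, sub_zero]
  · have n0 : (x0.P 1 : ℝ) ≠ 0 := by exact_mod_cast z1 _ h0
    have ss : ε * ε = 1 := by rcases s1 with rfl | rfl <;> norm_num
    rw [c6, w1] at e1
    rw [w0] at e0
    push_cast at e1 ⊢
    rw [hη2, show (4 : ℝ) ^ (d.primeFactors.card + 1) = (2 ^ (d.primeFactors.card + 1)) ^ 2 by
      rw [← pow_mul, mul_comm, pow_mul]; norm_num]
    generalize (2 : ℝ) ^ (d.primeFactors.card + 1) = w at e1 ⊢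
    field_simp
    linear_combination ell d * e0 - (ε * ε0 * ell 1) * e1 -
      (4 * ε0 * κ * ell 1 * ell d * ell p) * ss

end Vale.Agent.P014D
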