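import Vale.Agent.P014D.Bij

/-!
# P014 (E): the `2`-adic induction
-/

open NumberField
open scoped Classical

namespace Vale.Agent.P014D

open Vale.Agent.P017.H185 Vale.Agent.P014.H70 Vale.Agent.P014B Vale.Agent.P014.H687

/-- admissible integers -/
def Adm (n : ℕ) : Prop := Squarefree n ∧ n % 4 = 3 ∧ jacobiSym n 17 = -1

/-- the numerical data attached to an admissible integer -/
structure Dt (κ : ℝ) (n : ℕ) where
  P : ℕ → ℤ
  h : ℤ
  gross : ∃ ε : ℝ, (ε = 1 ∨ ε = -1) ∧ ∀ n₁ n₂ : ℕ, n₁ * n₂ = n →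
    (P n₁ : ℝ) ^ 2 = ε * κ * (wn n : ℝ) ^ 2 * (ell n₁ * ell n₂)
  f1 : ∀ d, d ∣ n → d ≠ n → 2 ^ d.primeFactors.card ∣ h
  f2 : ∀ d, d ∣ n → d ≠ n → 2 ^ (d.primeFactors.card + 2) ∣ ∑ e ∈ d.divisors, P e - h

/-- the class number has the minimal `2`-adic valuation -/
def Dt.Min {κ : ℝ} {n : ℕ} (x : Dt κ n) : Prop :=
  ∀ p d, n = p * d → p.Prime → ¬ 2 ^ (d.primeFactors.card + 1) ∣ x.h

/-! ### genus theory -/

section

variable {K : Type} [Field K] [NumberField K] {n : ℕ} {q : QF K n} (R : Rep q)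

theorem sum_div_chi {d : ℕ} (hd : d ∣ n) (c : ClassGroup (𝓞 K)) :
    ∑ e ∈ d.divisors, R.chi e c =
      if ∀ p ∈ d.primeFactors, R.chi p c = 1 then 2 ^ d.primeFactors.card else 0 := by
  unfold Rep.chi
  rw [← prod_one_add_J _ (q.hd.squarefree_of_dvd hd)]
  split_ifs with h
  · rw [Finset.prod_congr rfl fun p hp => by rw [h p hp], Finset.prod_const]
    norm_num
  · push Not at h
    obtain ⟨p, hp, h⟩ := h
    apply Finset.prod_eq_zero hp
    rcases chi_cases R ((Nat.dvd_of_mem_primeFactors hp).trans hd) c with h1 | h1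
    · exact absurd h1 h
    · unfold Rep.chi at h1
      rw [h1]
      norm_num

theorem sum_sum_chi (hn4 : n % 4 = 3) {d : ℕ} (hd : d ∣ n) (hdn : d ≠ n) :
    ∑ c, ∑ e ∈ d.divisors, R.chi e c = Fintype.card (ClassGroup (𝓞 K)) := by
  have hd0 : d ≠ 0 := ne_zero_of_dvd_ne_zero q.d_pos.ne' hd
  rw [Finset.sum_comm, Finset.sum_eq_single_of_mem 1 (Nat.one_mem_divisors.mpr hd0)]
  · simp only [chi_one_left, Finset.sum_const, Finset.card_univ, nsmul_eq_mul, mul_one]
  · intro e he h1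
    have h2 := Nat.dvd_of_mem_divisors he
    refine sum_chi_zero hn4 R (h2.trans hd) h1 ?_
    rintro rfl
    exact hdn (Nat.dvd_antisymm hd h2)

theorem card_eq_genus (hn4 : n % 4 = 3) {d : ℕ} (hd : d ∣ n) (hdn : d ≠ n) :
    (Fintype.card (ClassGroup (𝓞 K)) : ℤ) = 2 ^ d.primeFactors.card *
      (Finset.univ.filter fun c => ∀ p ∈ d.primeFactors, R.chi p c = 1).card := by
  rw [← sum_sum_chi R hn4 hd hdn]
  simp only [sum_div_chi R hd]
  rw [← Finset.sum_filter, Finset.sum_const, nsmul_eq_mul, mul_comm]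

theorem genus_all (hn4 : n % 4 = 3) {p d : ℕ} (h : n = p * d) (hp : p.Prime)
    {c : ClassGroup (𝓞 K)} (hc : ∀ r ∈ d.primeFactors, R.chi r c = 1) (e : ℕ) (he : e ∣ n) :
    R.chi e c = 1 := by
  have hd0 : d ≠ 0 := right_ne_zero_of_mul (h ▸ q.d_pos.ne')
  have h1 : ∀ f, f ∣ d → R.chi f c = 1 := fun f hf =>
    J_one_of_primes (ne_zero_of_dvd_ne_zero hd0 hf) fun r hr hrf =>
      hc r (Nat.mem_primeFactors.mpr ⟨hr, hrf.trans hf, hd0⟩)
  by_cases hpe : p ∣ e
  · obtain ⟨f, hf⟩ := he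
    obtain ⟨e', rfl⟩ := hpe
    rw [chi_compl R hn4 hf.symm]
    apply h1
    refine ⟨e', Nat.eq_of_mul_eq_mul_left hp.pos ?_⟩
    rw [← h, hf]
    ring
  · apply h1
    rw [h] at he
    exact ((Nat.Prime.coprime_iff_not_dvd hp).mpr hpe).symm.dvd_of_dvd_mul_left he

theorem genus_odd (hn4 : n % 4 = 3) (h17 : jacobiSym n 17 = -1) {p d : ℕ} (h : n = p * d)
    (hp : p.Prime) (h4 : ∀ c : ClassGroup (𝓞 K), orderOf c ≠ 4) :
    Odd (Finset.univ.filter fun c => ∀ r ∈ d.primeFactors, R.chi r c = 1).card := by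
  set G := Finset.univ.filter fun c => ∀ r ∈ d.primeFactors, R.chi r c = 1 with hG
  have hdn : ∀ r ∈ d.primeFactors, r ∣ n := fun r hr =>
    (Nat.dvd_of_mem_primeFactors hr).trans ⟨p, by rw [h, mul_comm]⟩
  have h1 : (1 : ClassGroup (𝓞 K)) ∈ G :=
    Finset.mem_filter.mpr ⟨Finset.mem_univ _, fun r hr => chi_one R hn4 (hdn r hr)⟩
  have h2 : ∑ _c ∈ G.erase 1, (1 : ZMod 2) = 0 := by
    refine Finset.sum_involution (fun c _ => c⁻¹) (fun _ _ => rfl) ?_ ?_ fun c _ => inv_inv c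
    · intro c hc _ h3
      rw [Finset.mem_erase, hG, Finset.mem_filter] at hc
      obtain ⟨s, rfl⟩ := principal_genus hn4 h17 R (genus_all R hn4 h hp hc.2.2)
      apply h4 s
      have := Fact.mk Nat.prime_two
      refine orderOf_eq_prime_pow (p := 2) (n := 1) ?_ ?_
      · rw [pow_one, sq]
        exact hc.1
      · have h5 : s * s * (s * s) = 1 := by
          nth_rewrite 1 [← h3]
          exact inv_mul_cancel _
        rw [← h5]
        norm_num
        rw [← sq, ← sq, ← pow_mul]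
    · intro c hc
      rw [Finset.mem_erase, hG, Finset.mem_filter] at hc ⊢
      exact ⟨inv_ne_one.mpr hc.1, Finset.mem_univ _, fun r hr => by
        rw [chi_inv R hn4 (hdn r hr), hc.2.2 r hr]⟩
  rw [Finset.sum_const, nsmul_eq_mul, mul_one, ZMod.natCast_eq_zero_iff] at h2
  rw [← Finset.card_erase_add_one h1]
  exact (even_iff_two_dvd.mpr h2).add_one

include R in
theorem no_four_prime (hn4 : n % 4 = 3) (h17 : jacobiSym n 17 = -1) (hp : n.Prime)
    (c : ClassGroup (𝓞 K)) : orderOf c ≠ 4 := by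
  have h1 : Function.Surjective fun s : ClassGroup (𝓞 K) => s * s := by
    intro c
    obtain ⟨s, hs⟩ := principal_genus hn4 h17 R (c := c)
      (genus_all R hn4 (mul_one n).symm hp (by simp))
    exact ⟨s, hs.symm⟩
  have h2 := Finite.injective_iff_surjective.mpr h1
  intro h
  have h3 : c * c = 1 := by
    apply h2
    show c * c * (c * c) = 1 * 1
    rw [← sq, ← sq, ← pow_mul, mul_one]
    have := pow_orderOf_eq_one c
    rwa [h] at this
  have h4 : orderOf c ∣ 2 := orderOf_dvd_of_pow_eq_one (by rw [sq, h3])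
  rw [h] at h4
  norm_num at h4

end

theorem exists_dt (hB : BrandtStmt) {κ : ℝ}
    (hG : ∀ (K : Type) [Field K] [NumberField K] (n : ℕ) (q : QF K n) (R : Rep q)
      (φ : ClassGroup (𝓞 K) → ℤ), n % 4 = 3 → jacobiSym n 17 = -1 → BrandtId R φ →
      ∃ ε : ℝ, (ε = 1 ∨ ε = -1) ∧ ∀ n₁ n₂ : ℕ, n₁ * n₂ = n →
        ((∑ A, R.chi n₁ A * φ A : ℤ) : ℝ) ^ 2 = ε * κ * (wn n : ℝ) ^ 2 * (ell n₁ * ell n₂))
    {K : Type} [Field K] [NumberField K] {n : ℕ} (q : QF K n) (hn4 : n % 4 = 3)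
    (h17 : jacobiSym n 17 = -1) :
    ∃ x : Dt κ n, ((∀ c : ClassGroup (𝓞 K), orderOf c ≠ 4) ∨ n.Prime → x.Min) := by
  obtain ⟨R⟩ := rep_nonempty q
  obtain ⟨φ, h1, h2⟩ := hB K n q R hn4 h17
  refine ⟨⟨fun e => ∑ A, R.chi e A * φ A, Fintype.card (ClassGroup (𝓞 K)),
    hG K n q R φ hn4 h17 h2, fun d hd hdn => ?_, fun d hd hdn => ?_⟩, fun h4 p d h hp => ?_⟩
  · rw [card_eq_genus R hn4 hd hdn]
    exact dvd_mul_right _ _
  · rw [← sum_sum_chi R hn4 hd hdn, Finset.sum_comm, ← Finset.sum_sub_distrib]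
    apply Finset.dvd_sum
    intro c _
    rw [← Finset.sum_mul, sum_div_chi R hd]
    split_ifs
    · rcases h1 c with h | h <;> rw [h]
      · simp
      · exact ⟨-1, by ring⟩
    · simp
  · have h5 : ∀ c : ClassGroup (𝓞 K), orderOf c ≠ 4 := by
      rcases h4 with h4 | h4
      · exact h4
      · exact no_four_prime R hn4 h17 h4
    have hd : d ∣ n := ⟨p, by rw [h, mul_comm]⟩
    have hdn : d ≠ n := by
      intro h6
      have h7 : 0 < d := h6 ▸ q.d_pos
      have := hp.one_lt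
      rw [← h6] at h
      nlinarith
    show ¬ 2 ^ (d.primeFactors.card + 1) ∣ (Fintype.card (ClassGroup (𝓞 K)) : ℤ)
    rw [card_eq_genus R hn4 hd hdn, pow_succ,
      mul_dvd_mul_iff_left (pow_ne_zero _ two_ne_zero)]
    have h6 := genus_odd R hn4 h17 h hp h5
    intro h7
    exact (Nat.not_even_iff_odd.mpr h6) (even_iff_two_dvd.mpr (by exact_mod_cast h7))

/-! ### the induction -/

/-- products of primes `1` modulo `4`, or of squares modulo `17` -/
def DD (d : ℕ) : Prop :=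
  (∀ p : ℕ, p.Prime → p ∣ d → p % 4 = 1) ∨ ∀ p : ℕ, p.Prime → p ∣ d → jacobiSym p 17 = 1

theorem DD.of_dvd {d e : ℕ} (h : DD d) (he : e ∣ d) : DD e :=
  h.imp (fun h p hp hpe => h p hp (hpe.trans he)) fun h p hp hpe => h p hp (hpe.trans he)

theorem DD.not_three {d : ℕ} (h : DD d) : ¬ 3 ∣ d := by
  intro h3
  rcases h with h | h
  · have := h 3 Nat.prime_three h3
    omega
  · have := h 3 Nat.prime_three h3
    norm_num at this

theorem DD.or {d : ℕ} (h : DD d) (h0 : d ≠ 0) : d % 4 = 1 ∨ jacobiSym d 17 = 1 := by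
  rcases h with h | h
  · left
    induction d using Nat.recOnMul with
    | zero => exact absurd rfl h0
    | one => rfl
    | prime p hp => exact h p hp dvd_rfl
    | mul a b ha hb =>
      rw [Nat.mul_mod, ha (left_ne_zero_of_mul h0) fun p hp hpa => h p hp (hpa.mul_right _),
        hb (right_ne_zero_of_mul h0) fun p hp hpa => h p hp (hpa.mul_left _)]
  · right
    induction d using Nat.recOnMul with
    | zero => exact absurd rfl h0
    | one => simp
    | prime p hp => exact h p hp dvd_rfl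
    | mul a b ha hb =>
      rw [Nat.cast_mul, jacobiSym.mul_left,
        ha (left_ne_zero_of_mul h0) fun p hp hpa => h p hp (hpa.mul_right _),
        hb (right_ne_zero_of_mul h0) fun p hp hpa => h p hp (hpa.mul_left _), mul_one]

theorem wn_eq (n : ℕ) : ∃ u : ℤ, Odd u ∧ (wn n : ℤ) = 2 * u := by
  unfold wn
  split_ifs
  · exact ⟨3, by decide, rfl⟩
  · exact ⟨1, by decide, rfl⟩

theorem pow_two_dvd_of_odd {k : ℕ} {a u : ℤ} (hu : Odd u) (h : 2 ^ k ∣ a * u) : 2 ^ k ∣ a := by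
  apply IsCoprime.dvd_of_dvd_mul_right _ h
  apply IsCoprime.pow_left
  obtain ⟨m, rfl⟩ := hu
  exact ⟨-m, 1, by ring⟩

theorem key_dvd {κ : ℝ} {n e m k : ℕ} (h : e * m = n) (hk : e * 3 = k) (x : Dt κ n) (y : Dt κ k)
    (z : Dt κ m) (x3 : Dt κ 3) (h3 : Odd (x3.P 1)) {a b : ℕ} (ha : 2 ^ a ∣ y.P e)
    (hb : 2 ^ b ∣ z.P 1) : 2 ^ (a + b) ∣ x.P e := by
  obtain ⟨ε1, s1, g1⟩ := x.gross
  obtain ⟨ε2, s2, g2⟩ := y.gross
  obtain ⟨ε3, s3, g3⟩ := z.gross
  obtain ⟨ε4, s4, g4⟩ := x3.gross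
  have e1 := g1 e m h
  have e2 := g2 e 3 hk
  have e3 := g3 1 m (one_mul m)
  have e4 := g4 1 3 rfl
  have e5 : ε2 * ε3 * ((x.P e * x3.P 1 * (wn k * wn m) : ℤ) : ℝ) ^ 2 =
      ε1 * ε4 * ((y.P e * z.P 1 * (wn n * wn 3) : ℤ) : ℝ) ^ 2 := by
    push_cast
    rw [mul_pow, mul_pow, mul_pow, mul_pow, mul_pow, mul_pow, e1, e2, e3, e4]
    ring
  have e6 : y.P e * z.P 1 * (wn n * wn 3) ∣ x.P e * x3.P 1 * (wn k * wn m) := by
    generalize x.P e * x3.P 1 * (wn k * wn m) = U at e5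
    generalize y.P e * z.P 1 * (wn n * wn 3) = V at e5
    have e7 : (U : ℝ) ^ 2 = V ^ 2 ∨ (U : ℝ) ^ 2 = -V ^ 2 := by
      rcases s1 with rfl | rfl <;> rcases s2 with rfl | rfl <;> rcases s3 with rfl | rfl <;>
        rcases s4 with rfl | rfl <;> first | (left; linarith) | (right; linarith)
    rcases e7 with e7 | e7
    · have e8 : U ^ 2 = V ^ 2 := by exact_mod_cast e7
      rcases sq_eq_sq_iff_eq_or_eq_neg.mp e8 with rfl | rfl
      · exact dvd_rfl
      · exact dvd_neg.mpr dvd_rfl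
    · have e8 : U ^ 2 = -V ^ 2 := by exact_mod_cast e7
      have e9 : U = 0 := by nlinarith [sq_nonneg U, sq_nonneg V]
      rw [e9]
      exact dvd_zero _
  obtain ⟨u1, o1, w1⟩ := wn_eq k
  obtain ⟨u2, o2, w2⟩ := wn_eq m
  obtain ⟨u3, -, w3⟩ := wn_eq n
  obtain ⟨u4, -, w4⟩ := wn_eq 3
  rw [w1, w2, w3, w4] at e6
  apply pow_two_dvd_of_odd (h3.mul (o1.mul o2))
  have e7 : 2 ^ (a + b) * 4 ∣ y.P e * z.P 1 * (2 * u3 * (2 * u4)) := by
    rw [pow_add]
    exact mul_dvd_mul (mul_dvd_mul ha hb) ⟨u3 * u4, by ring⟩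
  have e8 := e7.trans e6
  rw [show x.P e * x3.P 1 * (2 * u1 * (2 * u2)) = x.P e * (x3.P 1 * (u1 * u2)) * 4 by ring] at e8
  exact Int.dvd_of_mul_dvd_mul_right (by norm_num) e8

theorem vanish (hL : LStmt) {κ : ℝ} {n e : ℕ} (hn : Adm n) (x : Dt κ n) (he : e ∣ n) (hD : DD e)
    (hg : ¬ (e % 4 = 1 ∧ jacobiSym e 17 = 1)) : x.P e = 0 := by
  obtain ⟨m, hm⟩ := he
  have hsq : Squarefree e := hn.1.squarefree_of_dvd ⟨m, hm⟩
  have ho : Odd e := Odd.of_dvd_nat (Nat.odd_iff.mpr (by have := hn.2.1; omega)) ⟨m, hm⟩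
  have hc : Nat.Coprime 17 e := Nat.Coprime.coprime_dvd_right ⟨m, hm⟩ (cop17 hn.2.2)
  have h1 : jacobiSym 17 e = jacobiSym e 17 :=
    jacobiSym.quadratic_reciprocity_one_mod_four (a := 17) (by norm_num) ho
  have h2 : jacobiSym (-17) e = -1 := by
    rw [jacobiSym.neg _ ho, h1]
    have h3 := J_cases (a := e) (m := 17) (by rw [Int.natAbs_natCast]; exact hc.symm)
    rcases Nat.odd_mod_four_iff.mp (Nat.odd_iff.mp ho) with h4 | h4
    · rw [ZMod.χ₄_nat_one_mod_four h4, one_mul]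
      exact h3.resolve_left fun h5 => hg ⟨h4, h5⟩
    · rw [ZMod.χ₄_nat_three_mod_four h4, (hD.or hsq.ne_zero).resolve_left (by omega)]
      norm_num
  have h3 := (hL e hsq ho ((Nat.Prime.coprime_iff_not_dvd (by norm_num)).mp hc)).2.1 h2
  obtain ⟨ε, -, g⟩ := x.gross
  have h4 := g e m hm.symm
  unfold ell at h4
  rw [h3] at h4
  simp only [mul_zero, zero_mul, ne_eq, OfNat.ofNat_ne_zero, not_false_eq_true, pow_eq_zero_iff,
    Int.cast_eq_zero] at h4
  exact h4

theorem card_pf_mul {a b : ℕ} (h : Squarefree (a * b)) :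
    (a * b).primeFactors.card = a.primeFactors.card + b.primeFactors.card := by
  have hc := Nat.coprime_of_squarefree_mul h
  rw [hc.primeFactors_mul, Finset.card_union_of_disjoint hc.disjoint_primeFactors]

theorem adm_three {e : ℕ} (hsq : Squarefree e) (hD : DD e) (hg : e % 4 = 1 ∧ jacobiSym e 17 = 1) :
    Adm (e * 3) := by
  refine ⟨?_, by omega, ?_⟩
  · rw [Nat.squarefree_mul ((Nat.Prime.coprime_iff_not_dvd Nat.prime_three).mpr hD.not_three).symm]
    exact ⟨hsq, Nat.prime_three.squarefree⟩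
  · rw [Nat.cast_mul, jacobiSym.mul_left, hg.2]
    norm_num

theorem adm_cof {e m : ℕ} (h : Adm (e * m)) (hg : e % 4 = 1 ∧ jacobiSym e 17 = 1) : Adm m := by
  obtain ⟨h1, h2, h3⟩ := h
  refine ⟨h1.of_mul_right, ?_, ?_⟩
  · rw [Nat.mul_mod, hg.1, one_mul, Nat.mod_mod] at h2
    exact h2
  · rwa [Nat.cast_mul, jacobiSym.mul_left, hg.2, one_mul] at h3

theorem induct (hL : LStmt) {κ : ℝ} (hex : ∀ n, Adm n → Nonempty (Dt κ n)) (x3 : Dt κ 3)
    (h3 : Odd (x3.P 1)) (d : ℕ) : DD d →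
    (∀ k, d * 3 = k → Adm k → d ≠ 1 → ∀ y : Dt κ k, 2 ^ (d.primeFactors.card + 1) ∣ y.P d) ∧
    ∀ n r, d * r = n → r ≠ 1 → Adm n → ∀ x : Dt κ n,
      2 ^ (d.primeFactors.card + 1) ∣ x.P 1 - x.h := by
  induction d using Nat.strong_induction_on with
  | _ d ih =>
    intro hD
    have step : ∀ n r, d * r = n → r ≠ 1 → Adm n → ∀ x : Dt κ n, ∀ e, e ∣ d → e ≠ 1 →
        (∀ k, e * 3 = k → Adm k → ∀ y : Dt κ k, 2 ^ (e.primeFactors.card + 1) ∣ y.P e) →
        2 ^ (d.primeFactors.card + 1) ∣ x.P e := by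
      rintro n r hn hr hA x e ⟨f, hf⟩ he1 hAe
      have hd0 : d ≠ 0 := left_ne_zero_of_mul (hn ▸ hA.1.ne_zero)
      have hen : e * (f * r) = n := by rw [← hn, hf]; ring
      by_cases hg : e % 4 = 1 ∧ jacobiSym e 17 = 1
      · have hsq : Squarefree e := hA.1.squarefree_of_dvd ⟨_, hen.symm⟩
        have a1 := adm_three hsq (hD.of_dvd ⟨f, hf⟩) hg
        have a2 : Adm (f * r) := adm_cof (hen ▸ hA) hg
        obtain ⟨y⟩ := hex _ a1
        obtain ⟨z⟩ := hex _ a2
        have hf0 : f ≠ 0 := right_ne_zero_of_mul (hf ▸ hd0)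
        have he0 : e ≠ 0 := left_ne_zero_of_mul (hf ▸ hd0)
        have hlt : f < d := by
          rw [hf]
          exact lt_mul_of_one_lt_left (Nat.pos_of_ne_zero hf0) (by omega)
        have b1 := (ih f hlt (hD.of_dvd ⟨e, by rw [hf, mul_comm]⟩)).2 _ r rfl hr a2 z
        have b2 := z.f1 f ⟨r, rfl⟩ (by
          intro h
          exact hr ((Nat.mul_eq_left hf0).mp h.symm))
        have b3 : 2 ^ f.primeFactors.card ∣ z.P 1 := by
          have := dvd_add ((pow_dvd_pow 2 (Nat.le_succ _)).trans b1) b2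
          rwa [sub_add_cancel] at this
        have b4 := key_dvd hen rfl x y z x3 h3 (hAe _ rfl a1 y) b3
        have b5 : d.primeFactors.card = e.primeFactors.card + f.primeFactors.card := by
          rw [hf]
          exact card_pf_mul (hf ▸ hA.1.squarefree_of_dvd ⟨r, hn.symm⟩)
        rw [b5, add_right_comm]
        exact b4
      · rw [vanish hL hA x ⟨_, hen.symm⟩ (hD.of_dvd ⟨f, hf⟩) hg]
        exact dvd_zero _
    have hA : ∀ k, d * 3 = k → Adm k → d ≠ 1 → ∀ y : Dt κ k,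
        2 ^ (d.primeFactors.card + 1) ∣ y.P d := by
      intro k hk hA hd1 y
      have hd0 : d ≠ 0 := left_ne_zero_of_mul (hk ▸ hA.1.ne_zero)
      obtain ⟨p, hp, d', hd'⟩ := Nat.exists_prime_and_dvd hd1
      have hsq : Squarefree (p * d') := hd' ▸ hA.1.squarefree_of_dvd ⟨3, hk.symm⟩
      have hd'0 : d' ≠ 0 := right_ne_zero_of_mul hsq.ne_zero
      have c1 := y.f2 d ⟨3, hk.symm⟩ (by omega)
      have c2 := y.f2 d' ⟨p * 3, by rw [← hk, hd']; ring⟩ (by
        have := Nat.le_mul_of_pos_left d' hp.pos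
        omega)
      have c3 : d.primeFactors.card = d'.primeFactors.card + 1 := by
        rw [hd', card_pf_mul hsq, hp.primeFactors, Finset.card_singleton, add_comm]
      have c4 : d'.divisors ⊆ d.divisors.erase d := by
        intro e he
        have h1 := Nat.dvd_of_mem_divisors he
        rw [Finset.mem_erase, Nat.mem_divisors]
        refine ⟨?_, h1.trans ⟨p, by rw [hd', mul_comm]⟩, hd0⟩
        have h2 := Nat.le_of_dvd (Nat.pos_of_ne_zero hd'0) h1
        have h4 : d' < p * d' := lt_mul_of_one_lt_left (Nat.pos_of_ne_zero hd'0) hp.one_lt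
        omega
      rw [← Finset.add_sum_erase _ _ (Nat.mem_divisors_self d hd0), ← Finset.sum_sdiff c4] at c1
      have c5 : 2 ^ (d.primeFactors.card + 1) ∣
          ∑ e ∈ d.divisors.erase d \ d'.divisors, y.P e := by
        apply Finset.dvd_sum
        intro e he
        rw [Finset.mem_sdiff, Finset.mem_erase, Nat.mem_divisors, Nat.mem_divisors] at he
        have he1 : e ≠ 1 := by
          rintro rfl
          exact he.2 ⟨one_dvd _, hd'0⟩
        refine step k 3 hk (by norm_num) hA y e he.1.2.1 he1 fun k' hk' hA' y' => ?_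
        exact (ih e (lt_of_le_of_ne (Nat.le_of_dvd (Nat.pos_of_ne_zero hd0) he.1.2.1) he.1.1)
          (hD.of_dvd he.1.2.1)).1 k' hk' hA' he1 y'
      have c6 := (pow_dvd_pow 2 (Nat.le_succ _)).trans c1
      rw [show d'.primeFactors.card + 2 = d.primeFactors.card + 1 by omega] at c2
      have c7 := dvd_sub (dvd_sub c6 c2) c5
      rwa [show ∀ a b c e : ℤ, a + (b + c) - e - (c - e) - b = a from
        fun a b c e => by ring] at c7
    refine ⟨hA, fun n r hn hr hn' x => ?_⟩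
    have hd0 : d ≠ 0 := left_ne_zero_of_mul (hn ▸ hn'.1.ne_zero)
    have c1 := x.f2 d ⟨r, hn.symm⟩ (by
      intro h
      rw [← h] at hn
      exact hr ((Nat.mul_eq_left hd0).mp hn))
    rw [← Finset.add_sum_erase _ _ (Nat.one_mem_divisors.mpr hd0)] at c1
    have c5 : 2 ^ (d.primeFactors.card + 1) ∣ ∑ e ∈ d.divisors.erase 1, x.P e := by
      apply Finset.dvd_sum
      intro e he
      rw [Finset.mem_erase, Nat.mem_divisors] at he
      refine step n r hn hr hn' x e he.2.1 he.1 fun k' hk' hA' y' => ?_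
      by_cases hed : e = d
      · subst hed
        exact hA k' hk' hA' he.1 y'
      · exact (ih e (lt_of_le_of_ne (Nat.le_of_dvd (Nat.pos_of_ne_zero hd0) he.2.1) hed)
          (hD.of_dvd he.2.1)).1 k' hk' hA' he.1 y'
    have c7 := dvd_sub ((pow_dvd_pow 2 (Nat.le_succ _)).trans c1) c5
    rwa [show ∀ a b c : ℤ, a + b - c - b = a - c from fun a b c => by ring] at c7

theorem fam_iff (n : ℕ) : Fam n ↔ ((n.primeFactors.filter fun p : ℕ => p % 4 = 3).card = 1 ∨
    (n.primeFactors.filter fun p : ℕ => jacobiSym p 17 = -1).card = 1) := by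
  unfold Fam
  refine or_congr Iff.rfl ?_
  have e : ((n.primeFactors : Finset ℤ).filter fun p => jacobiSym p 17 = -1) =
      (n.primeFactors.filter fun p : ℕ => jacobiSym p 17 = -1).image (fun p : ℕ => (p : ℤ)) := by
    ext x
    simp
    constructor
    · rintro ⟨⟨a, h1, rfl⟩, h2⟩
      exact ⟨a, ⟨h1, h2⟩, rfl⟩
    · rintro ⟨a, ⟨h1, h2⟩, rfl⟩
      exact ⟨⟨a, h1, rfl⟩, h2⟩
  rw [e, Finset.card_image_of_injective _ Nat.cast_injective]

theorem fam_split {n : ℕ} (hn : Adm n) (h : Fam n) : ∃ p d, p.Prime ∧ n = p * d ∧ DD d := by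
  have key : ∀ (S : ℕ → Prop) [DecidablePred S], (n.primeFactors.filter S).card = 1 →
      ∃ p d, p.Prime ∧ n = p * d ∧ ∀ r : ℕ, r.Prime → r ∣ d → r ∣ n ∧ ¬ S r := by
    intro S _ h1
    obtain ⟨p, hp⟩ := Finset.card_eq_one.mp h1
    have h2 : p ∈ n.primeFactors.filter S := by rw [hp]; exact Finset.mem_singleton_self p
    rw [Finset.mem_filter] at h2
    obtain ⟨d, hd⟩ := Nat.dvd_of_mem_primeFactors h2.1
    refine ⟨p, d, Nat.prime_of_mem_primeFactors h2.1, hd, fun r hr hrd => ?_⟩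
    have h3 : r ∣ n := hrd.trans ⟨p, by rw [hd, mul_comm]⟩
    refine ⟨h3, fun h4 => ?_⟩
    have h5 : r ∈ n.primeFactors.filter S :=
      Finset.mem_filter.mpr ⟨Nat.mem_primeFactors.mpr ⟨hr, h3, hn.1.ne_zero⟩, h4⟩
    rw [hp, Finset.mem_singleton] at h5
    subst h5
    have h6 := hn.1 r (hd ▸ Nat.mul_dvd_mul_left r hrd)
    exact hr.one_lt.ne' (Nat.isUnit_iff.mp h6)
  rcases (fam_iff n).mp h with h | h
  · obtain ⟨p, d, h1, h2, h3⟩ := key _ h
    refine ⟨p, d, h1, h2, Or.inl fun r hr hrd => ?_⟩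
    obtain ⟨h4, h5⟩ := h3 r hr hrd
    have ho : Odd r := Odd.of_dvd_nat (Nat.odd_iff.mpr (by have := hn.2.1; omega)) h4
    have := Nat.odd_iff.mp ho
    omega
  · obtain ⟨p, d, h1, h2, h3⟩ := key _ h
    refine ⟨p, d, h1, h2, Or.inr fun r hr hrd => ?_⟩
    obtain ⟨h4, h5⟩ := h3 r hr hrd
    exact (J_cases (a := r) (m := 17) (by
      rw [Int.natAbs_natCast]
      exact (Nat.Coprime.coprime_dvd_right h4 (cop17 hn.2.2)).symm)).resolve_right h5

theorem padic_odd {a : ℤ} (h : Odd a) : padicValRat 2 (a : ℚ) = 0 := by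
  rw [padicValRat.of_int, padicValInt.eq_zero_of_not_dvd]
  · rfl
  · intro h2
    exact (Int.not_even_iff_odd.mpr h) (even_iff_two_dvd.mpr h2)

/-- **the `2`-adic induction** -/
theorem ind (hB : BrandtStmt) (hG : GrossStmt) (hL : LStmt) : IndStmt := by
  obtain ⟨κ, hκ, hG⟩ := hG
  have hex : ∀ n, Adm n → Nonempty (Dt κ n) := fun n hn =>
    ⟨(exists_dt hB hG (qf n hn.1) hn.2.1 hn.2.2).choose⟩
  obtain ⟨x3, m3⟩ := exists_dt hB hG q3 (by norm_num) (by norm_num)
  have h3 : Odd (x3.P 1) := by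
    have h1 := m3 (Or.inr Nat.prime_three) 3 1 rfl Nat.prime_three
    have h2 := x3.f2 1 (one_dvd _) (by norm_num)
    simp only [Nat.primeFactors_one, Finset.card_empty, zero_add, pow_one, Nat.divisors_one,
      Finset.sum_singleton] at h1 h2
    rw [Int.odd_iff]
    omega
  obtain ⟨ε3, s3, g3⟩ := x3.gross
  have e3 := g3 1 3 rfl
  have n3 : (x3.P 1 : ℝ) ≠ 0 := by
    have : x3.P 1 ≠ 0 := by
      rintro h
      rw [h] at h3
      exact absurd h3 (by decide)
    exact_mod_cast this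
  have n4 : ell 1 * ell 3 ≠ 0 := by
    intro h
    rw [h, mul_zero] at e3
    exact pow_ne_zero 2 n3 e3
  refine ⟨right_ne_zero_of_mul n4, fun K _ _ n q hn4 h17 hF h4 => ?_⟩
  have hn : Adm n := ⟨q.hd, hn4, h17⟩
  obtain ⟨x, mx⟩ := exists_dt hB hG q hn4 h17
  obtain ⟨p, d, hp, hd, hD⟩ := fam_split hn hF
  have c1 := (induct hL hex x3 h3 d hD).2 n p (by rw [hd, mul_comm]) hp.one_lt.ne' hn x
  have c2 := mx (Or.inl h4) p d hd hp
  have hd0 : d ≠ 0 := right_ne_zero_of_mul (hd ▸ hn.1.ne_zero)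
  obtain ⟨g, hg⟩ := x.f1 d ⟨p, by rw [hd, mul_comm]⟩ (by
    have : d < p * d := lt_mul_of_one_lt_left (Nat.pos_of_ne_zero hd0) hp.one_lt
    omega)
  obtain ⟨k, hk⟩ := c1
  have c3 : Odd g := by
    rw [← Int.not_even_iff_odd, even_iff_two_dvd]
    intro h
    apply c2
    rw [hg, pow_succ]
    exact mul_dvd_mul_left _ h
  have c4 : x.P 1 = 2 ^ d.primeFactors.card * (g + 2 * k) := by
    rw [pow_succ] at hk
    linear_combination hk + hg
  have c5 : Odd (g + 2 * k) := c3.add_even (even_two_mul k)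
  have c6 : n.primeFactors.card - 1 = d.primeFactors.card := by
    rw [hd, card_pf_mul (hd ▸ hn.1), hp.primeFactors, Finset.card_singleton]
    omega
  obtain ⟨ε, s, g1⟩ := x.gross
  have e1 := g1 1 n (one_mul n)
  obtain ⟨u, ou, wu⟩ := wn_eq n
  have wu' : (wn n : ℝ) = 2 * u := by exact_mod_cast wu
  have w3 : (wn 3 : ℝ) = 6 := by norm_num [wn]
  obtain ⟨η, hη, hη2⟩ : ∃ η : ℤ, Odd η ∧ (η : ℝ) = ε * ε3 := by
    rcases s with rfl | rfl <;> rcases s3 with rfl | rfl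
    · exact ⟨1, by decide, by norm_num⟩
    · exact ⟨-1, by decide, by norm_num⟩
    · exact ⟨-1, by decide, by norm_num⟩
    · exact ⟨1, by decide, by norm_num⟩
  have o1 : Odd (η * (3 * (g + 2 * k)) ^ 2) := hη.mul ((Odd.mul (by decide) c5).pow)
  have o2 : Odd ((u * x3.P 1) ^ 2) := (ou.mul h3).pow
  have z1 : ∀ a : ℤ, Odd a → (a : ℚ) ≠ 0 := by
    intro a ha h
    have : a = 0 := by exact_mod_cast h
    rw [this] at ha
    exact absurd ha (by decide)
  have := Fact.mk Nat.prime_two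
  refine ⟨((η * (3 * (g + 2 * k)) ^ 2 : ℤ) : ℚ) / (((u * x3.P 1) ^ 2 : ℤ) : ℚ),
    div_ne_zero (z1 _ o1) (z1 _ o2), ?_, ?_⟩
  · rw [padicValRat.div (z1 _ o1) (z1 _ o2), padic_odd o1, padic_odd o2, sub_zero]
  · have u0 : (u : ℝ) ≠ 0 := by
      have := z1 u ou
      exact_mod_cast this
    have ss : ε * ε = 1 := by rcases s with rfl | rfl <;> norm_num
    have l1 := left_ne_zero_of_mul n4
    rw [c4, wu'] at e1
    rw [w3] at e3
    rw [c6]
    push_cast at e1 ⊢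
    rw [hη2, show (4 : ℝ) ^ d.primeFactors.card = (2 ^ d.primeFactors.card) ^ 2 by
      rw [← pow_mul, mul_comm, pow_mul]; norm_num]
    field_simp
    have ss3 : ε3 * ε3 = 1 := by rcases s3 with rfl | rfl <;> norm_num
    linear_combination (ell n * u ^ 2) * e3 - (9 * ε * ε3 * ell 3) * e1 -
      (36 * ε3 * κ * u ^ 2 * ell 1 * ell n * ell 3) * ss

end Vale.Agent.P014D
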