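import Vale.Agent.P014D.Base
import Vale.Agent.P017.H185.Jac

/-!
# P014 (D): the decomposition of primes in `ℚ(√-n)` and genus characters
-/

open NumberField
open scoped Classical

namespace Vale.Agent.P014D

open Vale.Agent.P017.H185 Vale.Agent.P014.H70

variable {K : Type*} [Field K] [NumberField K] {n : ℕ} (q : QF K n) (hn4 : n % 4 = 3)

/-! ### the integral basis -/

include hn4 in
theorem exists_om : ∃ w : 𝓞 K, 2 * w = 1 + q.t := by
  obtain ⟨e, he⟩ : ∃ e : ℤ, (n : ℤ) = 4 * e + 3 := ⟨n / 4, by omega⟩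
  obtain ⟨ω, hω, hω2⟩ := q.of_coords (a := 1) (b := 1) ⟨e + 1, by rw [he]; ring⟩
  obtain ⟨ω', hω'⟩ := QF.exists_of_isInt hω
  refine ⟨ω', ?_⟩
  apply QF.ext'
  rw [map_mul, map_add, hω', QF.coe_t, map_ofNat, map_one, hω2]
  simp

/-- the element `(1 + θ) / 2` -/
noncomputable def om : 𝓞 K := (exists_om q hn4).choose

theorem two_om : 2 * om q hn4 = 1 + q.t := (exists_om q hn4).choose_spec

theorem two_ne : (2 : 𝓞 K) ≠ 0 := by norm_num

theorem s_om : q.s (om q hn4) = 1 - om q hn4 := by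
  have h := two_om q hn4
  have h2 := congrArg q.s h
  rw [map_mul, map_add, q.s_t, map_ofNat, map_one] at h2
  apply mul_left_cancel₀ two_ne
  linear_combination h2 + h

include hn4 in
theorem four_e : (4 : 𝓞 K) * (((n + 1) / 4 : ℕ) : 𝓞 K) = n + 1 := by
  have : 4 * ((n + 1) / 4) = n + 1 := by omega
  exact_mod_cast congrArg (Nat.cast : ℕ → 𝓞 K) this

theorem om_sq : om q hn4 * om q hn4 = om q hn4 - (((n + 1) / 4 : ℕ) : 𝓞 K) := by
  have h := two_om q hn4
  have h2 := four_e (K := K) hn4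
  have h3 := q.t_sq
  apply mul_left_cancel₀ (mul_ne_zero two_ne two_ne)
  linear_combination (2 * om q hn4 + 1 + q.t - 2) * h + h3 + h2

theorem exists_uv (z : 𝓞 K) : ∃ u v : ℤ, z = u + v * om q hn4 := by
  have h1 := two_N q z
  obtain ⟨e, he⟩ : ∃ e : ℤ, (n : ℤ) = 4 * e + 3 := ⟨n / 4, by omega⟩
  have hpar : ∃ c, (crd q z).1 = (crd q z).2 + 2 * c := by
    rw [he] at h1
    rcases Int.even_or_odd' (crd q z).1 with ⟨x, hx | hx⟩ <;>
      rcases Int.even_or_odd' (crd q z).2 with ⟨y, hy | hy⟩ <;> rw [hx, hy] at h1 ⊢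
    · exact ⟨x - y, by ring⟩
    · exfalso; ring_nf at h1; omega
    · exfalso; ring_nf at h1; omega
    · exact ⟨x - y, by ring⟩
  obtain ⟨c, hc⟩ := hpar
  refine ⟨c, (crd q z).2, ?_⟩
  apply mul_left_cancel₀ two_ne
  have h2 : 2 * z = ((crd q z).1 : 𝓞 K) + (crd q z).2 * q.t := by
    apply QF.ext'
    rw [map_mul, map_ofNat, crd_spec q z, map_add, map_mul, map_intCast, map_intCast, QF.coe_t]
  rw [h2, hc]
  push_cast
  linear_combination (-((crd q z).2 : 𝓞 K)) * two_om q hn4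

theorem N_uv (u v : ℤ) : (q.N (u + v * om q hn4) : ℤ) =
    u ^ 2 + u * v + (((n + 1) / 4 : ℕ) : ℤ) * v ^ 2 := by
  have h := q.mul_s (u + v * om q hn4)
  rw [map_add, map_mul, map_intCast, map_intCast, s_om] at h
  have h2 := om_sq q hn4
  have : (((q.N (u + v * om q hn4) : ℕ) : ℤ) : 𝓞 K) =
      ((u ^ 2 + u * v + (((n + 1) / 4 : ℕ) : ℤ) * v ^ 2 : ℤ) : 𝓞 K) := by
    rw [Int.cast_natCast, ← h]
    simp only [Int.cast_add, Int.cast_mul, Int.cast_pow, Int.cast_natCast]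
    linear_combination (-(v : 𝓞 K) ^ 2) * h2
  exact_mod_cast this

theorem tr_om : tr q (om q hn4) = 1 := by
  apply tr_eq
  rw [s_om]
  simp

/-! ### primes -/

include hn4 in
theorem J_neg_n {p : ℕ} (hp : Odd p) : jacobiSym (-(n : ℤ)) p = jacobiSym p n := by
  rw [J_recip (by omega) hp, Int.natAbs_neg, Int.natAbs_natCast]

include hn4 in
theorem J_of_norm {p : ℕ} (hp : p.Prime) (hpn : ¬ p ∣ n) {z : 𝓞 K} (h1 : p ∣ q.N z)
    (h2 : ¬ (p : 𝓞 K) ∣ z) : jacobiSym p n = 1 := by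
  obtain ⟨u, v, rfl⟩ := exists_uv q hn4 z
  have h3 : (p : ℤ) ∣ u ^ 2 + u * v + (((n + 1) / 4 : ℕ) : ℤ) * v ^ 2 := by
    rw [← N_uv q hn4]
    exact_mod_cast h1
  have h4 : ¬ ((p : ℤ) ∣ u ∧ (p : ℤ) ∣ v) := by
    rintro ⟨⟨a, rfl⟩, ⟨b, rfl⟩⟩
    apply h2
    exact ⟨a + b * om q hn4, by push_cast; ring⟩
  have hp' : Prime (p : ℤ) := Nat.prime_iff_prime_int.mp hp
  have hodd : Odd n := Nat.odd_iff.mpr (by omega)
  by_cases hp2 : p = 2
  · subst hp2
    have h8 : n % 8 = 7 := by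
      by_contra h8
      obtain ⟨f, hf⟩ : ∃ f : ℤ, (((n + 1) / 4 : ℕ) : ℤ) = 2 * f + 1 := ⟨n / 8, by omega⟩
      rw [hf] at h3
      apply h4
      obtain ⟨k, hk⟩ := h3
      rcases Int.even_or_odd' u with ⟨x, hx | hx⟩ <;> rcases Int.even_or_odd' v with ⟨y, hy | hy⟩ <;>
        rw [hx, hy] at hk ⊢
      · exact ⟨⟨x, by push_cast; ring⟩, ⟨y, by push_cast; ring⟩⟩
      · exfalso; push_cast at hk; ring_nf at hk; omega
      · exfalso; push_cast at hk; ring_nf at hk; omega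
      · exfalso; push_cast at hk; ring_nf at hk; omega
    rw [Nat.cast_ofNat, jacobiSym.at_two hodd, ZMod.χ₈_nat_mod_eight, h8]
    rfl
  · have hpo : Odd p := hp.odd_of_ne_two hp2
    have h5 : (p : ℤ) ∣ (2 * u + v) ^ 2 + n * v ^ 2 := by
      have e : (2 * u + v) ^ 2 + n * v ^ 2 =
          4 * (u ^ 2 + u * v + (((n + 1) / 4 : ℕ) : ℤ) * v ^ 2) := by
        have : (4 : ℤ) * (((n + 1) / 4 : ℕ) : ℤ) = n + 1 := by omega
        linear_combination (-v ^ 2) * this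
      rw [e]
      exact Dvd.dvd.mul_left h3 _
    have h6 : ¬ (p : ℤ) ∣ v := by
      intro hv
      have h7 : (p : ℤ) ∣ 2 * u + v := by
        apply hp'.dvd_of_dvd_pow (n := 2)
        exact (dvd_add_left (Dvd.dvd.mul_left (Dvd.dvd.pow hv two_ne_zero) _)).mp h5
      have h8 : (p : ℤ) ∣ 2 * u := (dvd_add_left hv).mp h7
      rcases hp'.dvd_or_dvd h8 with h | h
      · have : p ∣ 2 := by exact_mod_cast h
        exact hp2 ((Nat.prime_dvd_prime_iff_eq hp Nat.prime_two).mp this)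
      · exact h4 ⟨h, hv⟩
    rw [← J_neg_n hn4 hpo]
    have := Fact.mk hp
    apply J_prime_one hp
    · rw [dvd_neg]
      exact_mod_cast hpn
    · have h7 : (v : ZMod p) ≠ 0 := by
        rwa [Ne, ZMod.intCast_zmod_eq_zero_iff_dvd]
      have h8 := (ZMod.intCast_zmod_eq_zero_iff_dvd _ p).mpr h5
      push_cast at h8 ⊢
      refine ⟨(2 * u + v) / v, ?_⟩
      field_simp
      linear_combination -h8

include hn4 in
theorem exists_norm {p : ℕ} (hp : p.Prime) (h : jacobiSym p n = 1) :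
    ∃ z : 𝓞 K, p ∣ q.N z ∧ ¬ (p : 𝓞 K) ∣ z := by
  have hodd : Odd n := Nat.odd_iff.mpr (by omega)
  by_cases hp2 : p = 2
  · subst hp2
    rw [Nat.cast_ofNat, jacobiSym.at_two hodd, ZMod.χ₈_nat_mod_eight] at h
    have h8 : n % 8 = 7 := by
      have : n % 8 = 3 ∨ n % 8 = 7 := by omega
      rcases this with h8 | h8
      · rw [h8] at h
        exact absurd h (by decide)
      · exact h8
    refine ⟨om q hn4, ?_, ?_⟩
    · have h1 := N_uv q hn4 0 1
      simp only [Int.cast_zero, Int.cast_one, one_mul, zero_add] at h1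
      omega
    · rintro ⟨w, hw⟩
      have h1 := tr_om q hn4
      have h2 := Dat.tr_natmul (q := q) 2 w
      rw [← hw, h1] at h2
      omega
  · have hpo : Odd p := hp.odd_of_ne_two hp2
    rw [← J_neg_n hn4 hpo] at h
    have := Fact.mk hp
    obtain ⟨c, hc⟩ := ZMod.isSquare_of_jacobiSym_eq_one h
    refine ⟨q.t + ((c.val : ℤ) : 𝓞 K), ?_, ?_⟩
    · have h1 : q.N (q.t + ((c.val : ℤ) : 𝓞 K)) = c.val * c.val + n := by
        have h2 := q.mul_s (q.t + ((c.val : ℤ) : 𝓞 K))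
        rw [map_add, q.s_t, map_intCast] at h2
        have h3 := q.t_sq
        have : ((q.N (q.t + ((c.val : ℤ) : 𝓞 K)) : ℕ) : 𝓞 K) = ((c.val * c.val + n : ℕ) : 𝓞 K) := by
          rw [← h2]
          push_cast
          linear_combination -h3
        exact_mod_cast this
      rw [h1, ← ZMod.natCast_eq_zero_iff]
      push_cast at hc ⊢
      rw [ZMod.natCast_zmod_val, ← hc]
      ring
    · rintro ⟨w, hw⟩
      have h1 : crd q (q.t + ((c.val : ℤ) : 𝓞 K)) = (2 * (c.val : ℤ), 2) := by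
        apply crd_eq
        rw [map_add, QF.coe_t, map_intCast]
        push_cast
        ring
      have h2 := crd_int q p w
      rw [Int.cast_natCast, ← hw, h1] at h2
      have h3 := congrArg Prod.snd h2
      simp only [Prod.smul_snd, smul_eq_mul] at h3
      have : p ∣ 2 := by exact_mod_cast (Dvd.intro _ h3.symm : (p : ℤ) ∣ 2)
      exact hp2 ((Nat.prime_dvd_prime_iff_eq hp Nat.prime_two).mp this)

theorem NI_pair {p : ℕ} (hp : p.Prime) {z : 𝓞 K} (h1 : p ∣ q.N z) (h2 : ¬ (p : 𝓞 K) ∣ z) :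
    NI q (Ideal.span {(p : 𝓞 K)} ⊔ Ideal.span {z}) = p := by
  set P := Ideal.span {(p : 𝓞 K)} ⊔ Ideal.span {z} with hP
  obtain ⟨J, hJ⟩ := Ideal.dvd_iff_le.mpr (le_sup_left : Ideal.span {(p : 𝓞 K)} ≤ P)
  have h3 := NI_mul q P J
  rw [← hJ, NI_nat] at h3
  have h4 : NI q P ∣ p ^ 2 := ⟨NI q J, by rw [sq, h3]⟩
  obtain ⟨k, hk, h5⟩ := (Nat.dvd_prime_pow hp).mp h4
  interval_cases k
  · exfalso
    rw [pow_zero] at h5
    have h6 := eq_top_of_NI q h5
    have h7 : (1 : 𝓞 K) ∈ P := by rw [h6]; trivial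
    rw [hP, ← Ideal.span_insert, Ideal.mem_span_pair] at h7
    obtain ⟨a, b, hab⟩ := h7
    have h8 := congrArg q.s hab
    rw [map_add, map_mul, map_mul, map_natCast, map_one] at h8
    obtain ⟨m, hm⟩ := h1
    have h9 := q.mul_s z
    rw [hm] at h9
    push_cast at h9
    have h10 : (p : 𝓞 K) ∣ ((1 : ℕ) : 𝓞 K) := by
      refine ⟨a * q.s a * p + a * q.s b * q.s z + q.s a * b * z + b * q.s b * m, ?_⟩
      push_cast
      linear_combination (-(a * p + b * z)) * h8 - hab + (b * q.s b) * h9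
    exact hp.one_lt.ne' (Nat.dvd_one.mp (QF.natCast_dvd (K := K) h10))
  · rw [h5, pow_one]
  · exfalso
    rw [h5, sq] at h3
    have h6 : NI q J = 1 := by
      have h7 : 0 < p * p := Nat.mul_pos hp.pos hp.pos
      nth_rewrite 1 [← mul_one (p * p)] at h3
      exact (Nat.eq_of_mul_eq_mul_left h7 h3).symm
    rw [eq_top_of_NI q h6, Ideal.mul_top] at hJ
    apply h2
    rw [← Ideal.mem_span_singleton, hJ]
    exact (le_sup_right : Ideal.span {z} ≤ P) (Ideal.mem_span_singleton_self z)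

include hn4 in
/-- split primes -/
theorem exists_split {p : ℕ} (hp : p.Prime) (h : jacobiSym p n = 1) :
    ∃ P : Ideal (𝓞 K), NI q P = p ∧ P ≠ cj q P := by
  obtain ⟨z, h1, h2⟩ := exists_norm q hn4 hp h
  refine ⟨_, NI_pair q hp h1 h2, fun h3 => ?_⟩
  have h4 := mul_cj q (Ideal.span {(p : 𝓞 K)} ⊔ Ideal.span {z})
  rw [← h3, NI_pair q hp h1 h2] at h4
  have h5 : z ∈ Ideal.span {(p : 𝓞 K)} ⊔ Ideal.span {z} :=
    (le_sup_right : Ideal.span {z} ≤ _) (Ideal.mem_span_singleton_self z)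
  have h6 := Ideal.mul_mem_mul h5 h5
  rw [h4, Ideal.mem_span_singleton, ← sq] at h6
  apply h2
  apply q.dvd_of_dvd_sq hp _ h6
  rintro (h7 | h7)
  · have : NeZero n := ⟨q.d_pos.ne'⟩
    have h8 : jacobiSym p n = 0 := by
      rw [jacobiSym.eq_zero_iff_not_coprime, Int.gcd_natCast_natCast, Nat.gcd_eq_left h7]
      exact hp.one_lt.ne'
    rw [h8] at h
    exact zero_ne_one h
  · exact h7.2 hn4

/-- ramified primes -/
theorem exists_ram {p : ℕ} (h : p ∣ n) : ∃ P : Ideal (𝓞 K), NI q P = p ∧ cj q P = P := by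
  refine ⟨Ideal.span {(p : 𝓞 K), q.t}, ?_, q.amb_ideal_map p⟩
  apply NI_eq
  unfold QF.HasN
  rw [q.amb_ideal_map, q.amb_ideal h]

include hn4 in
/-- inert primes -/
theorem inert_dvd {p : ℕ} (hp : p.Prime) (h : jacobiSym p n = -1) {I : Ideal (𝓞 K)}
    (hI : p ∣ NI q I) : Ideal.span {(p : 𝓞 K)} ∣ I := by
  rw [Ideal.dvd_iff_le]
  intro z hz
  rw [Ideal.mem_span_singleton]
  by_contra h2
  have hpn : ¬ p ∣ n := by
    intro h7
    have : NeZero n := ⟨q.d_pos.ne'⟩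
    have h8 : jacobiSym p n = 0 := by
      rw [jacobiSym.eq_zero_iff_not_coprime, Int.gcd_natCast_natCast, Nat.gcd_eq_left h7]
      exact hp.one_lt.ne'
    rw [h8] at h
    norm_num at h
  rw [J_of_norm q hn4 hp hpn (hI.trans (NI_dvd_N q hz)) h2] at h
  norm_num at h

theorem prime_dvd {p : ℕ} (hp : p.Prime) {P : Ideal (𝓞 K)} (hP : NI q P = p) {I : Ideal (𝓞 K)}
    (hI : p ∣ NI q I) : P ∣ I ∨ cj q P ∣ I := by
  have h1 : Prime P := prime_of_NI q (hP ▸ hp)
  have h2 : P ∣ I * cj q I := by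
    rw [mul_cj]
    have h3 : P ∣ Ideal.span {(p : 𝓞 K)} := by
      rw [← hP, ← mul_cj]
      exact dvd_mul_right _ _
    refine h3.trans ?_
    rw [Ideal.dvd_iff_le, Ideal.span_singleton_le_span_singleton]
    exact Nat.cast_dvd_cast hI
  rcases h1.dvd_or_dvd h2 with h | h
  · exact Or.inl h
  · right
    have := cj_dvd q h
    rwa [cj_cj] at this

theorem J_cases {a : ℤ} {m : ℕ} (h : Nat.Coprime a.natAbs m) :
    jacobiSym a m = 1 ∨ jacobiSym a m = -1 :=
  jacobiSym.eq_one_or_neg_one (by rw [Int.gcd, Int.natAbs_natCast]; exact h)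

include hn4 in
/-- norms of ideals have symbol one -/
theorem J_NI : ∀ (m : ℕ) (I : Ideal (𝓞 K)), NI q I = m → Nat.Coprime m n →
    jacobiSym m n = 1 := by
  intro m
  induction m using Nat.strong_induction_on with
  | _ m ih =>
    intro I hI hm
    have hn1 : n ≠ 1 := by omega
    have hm0 : m ≠ 0 := by
      rintro rfl
      rw [Nat.coprime_zero_left] at hm
      exact hn1 hm
    by_cases h1 : m = 1
    · rw [h1, Nat.cast_one, jacobiSym.one_left]
    obtain ⟨p, hp, hpm⟩ := Nat.exists_prime_and_dvd h1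
    have hpn : Nat.Coprime p n := Nat.Coprime.coprime_dvd_left hpm hm
    have key : ∀ (D : Ideal (𝓞 K)), D ∣ I → 1 < NI q D → jacobiSym (NI q D) n = 1 →
        jacobiSym m n = 1 := by
      rintro D ⟨J, hJ⟩ hD hD2
      have h3 := NI_mul q D J
      rw [← hJ, hI] at h3
      have h4 : NI q J ≠ 0 := by
        intro h
        rw [h, mul_zero] at h3
        exact hm0 h3
      have h5 := ih (NI q J) (by rw [h3]; exact lt_mul_of_one_lt_left (Nat.pos_of_ne_zero h4) hD)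
        J rfl (Nat.Coprime.coprime_dvd_left ⟨NI q D, by rw [h3, mul_comm]⟩ hm)
      rw [h3, Nat.cast_mul, jacobiSym.mul_left, hD2, h5, mul_one]
    rcases J_cases (a := p) (m := n) (by rwa [Int.natAbs_natCast]) with h | h
    · obtain ⟨P, hP, -⟩ := exists_split q hn4 hp h
      rcases prime_dvd q hp hP (hI ▸ hpm) with h2 | h2
      · exact key P h2 (hP ▸ hp.one_lt) (hP ▸ h)
      · exact key _ h2 (by rw [NI_cj, hP]; exact hp.one_lt) (by rw [NI_cj, hP]; exact h)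
    · refine key _ (inert_dvd q hn4 hp h (hI ▸ hpm)) ?_ ?_
      · rw [NI_nat]
        nlinarith [hp.one_lt]
      · rw [NI_nat, Nat.cast_mul, jacobiSym.mul_left, h]
        norm_num

include hn4 in
theorem J_gen {e : ℕ} (he : e ∣ n) {x : 𝓞 K} (h : Nat.Coprime (q.N x) e) :
    jacobiSym (q.N x) e = 1 := by
  have : NeZero n := ⟨q.d_pos.ne'⟩
  have h1 := rho_sq q hn4 x
  obtain ⟨r, hr⟩ : ∃ r : ℤ, (r : ZMod n) = rho q hn4 x := ⟨(rho q hn4 x).val, by simp⟩
  have h2 : ((q.N x : ℤ) : ZMod n) = ((r ^ 2 : ℤ) : ZMod n) := by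
    push_cast
    rw [hr, h1]
  rw [ZMod.intCast_eq_intCast_iff] at h2
  have h3 : (q.N x : ℤ) ≡ r ^ 2 [ZMOD e] := h2.of_dvd (Int.natCast_dvd_natCast.mpr he)
  have h4 : jacobiSym (q.N x) e = jacobiSym r e ^ 2 := by
    rw [jacobiSym.mod_left' h3, jacobiSym.pow_left]
  rcases J_cases (a := q.N x) (m := e) (by rwa [Int.natAbs_natCast]) with h5 | h5
  · exact h5
  · rw [h5] at h4
    nlinarith [sq_nonneg (jacobiSym r e)]

include hn4 in
/-- the genus characters are class functions -/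
theorem J_cl {e : ℕ} (he : e ∣ n) {I J : Ideal (𝓞 K)} (hI : I ≠ ⊥) (hJ : J ≠ ⊥)
    (h : cl I = cl J) (h1 : Nat.Coprime (NI q I) e) (h2 : Nat.Coprime (NI q J) e) :
    jacobiSym (NI q I) e = jacobiSym (NI q J) e := by
  obtain ⟨x, -, hx⟩ := exists_gen q hI hJ h
  have h3 := NI_mul q I (cj q J)
  rw [hx, NI_span, NI_cj] at h3
  have h4 := J_gen q hn4 he (x := x) (by rw [h3]; exact Nat.Coprime.mul_left h1 h2)
  rw [h3, Nat.cast_mul, jacobiSym.mul_left] at h4
  rcases J_cases (a := NI q J) (m := e) (by rwa [Int.natAbs_natCast]) with h5 | h5 <;>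
    rw [h5] at h4 ⊢ <;> linarith

end Vale.Agent.P014D
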