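import Vale.Agent.P014D.Emb

/-!
# P014 (D): the function `φ` on the class group
-/

open NumberField Quaternion
open scoped Classical

namespace Vale.Agent.P014D

open Vale.Agent.P017.H185 Vale.Agent.P014.H70 Vale.Agent.P014B Vale.Agent.P014.H687

variable {K : Type} [Field K] [NumberField K] {n : ℕ} (q : QF K n) (hn4 : n % 4 = 3)

/-- the lattice as a subgroup -/
def LLs (X Y : Ideal (𝓞 K)) (l : ZMod n) : AddSubgroup (𝓞 K × 𝓞 K) where
  carrier := LL q hn4 X Y l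
  zero_mem' := ⟨X.zero_mem, Y.zero_mem, by simp⟩
  add_mem' := by
    rintro p p' ⟨h1, h2, h3⟩ ⟨h1', h2', h3'⟩
    refine ⟨X.add_mem h1 h1', Y.add_mem h2 h2', ?_⟩
    rw [Prod.fst_add, Prod.snd_add, map_add, map_add, h3, h3', mul_add]
  neg_mem' := by
    rintro p ⟨h1, h2, h3⟩
    refine ⟨X.neg_mem h1, Y.neg_mem h2, ?_⟩
    rw [Prod.fst_neg, Prod.snd_neg, map_neg, map_neg, h3, mul_neg]

namespace Aux

variable {q} (A : Aux q)

include hn4 in
theorem X_ne (s t : ClassGroup (𝓞 K)) : A.X s t ≠ ⊥ := ne_bot_of_cop hn4 (A.gd s t).hX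

include hn4 in
theorem Y_ne (s t : ClassGroup (𝓞 K)) : A.Y s t ≠ ⊥ := ne_bot_of_cop hn4 (A.hYn s t)

theorem X_odd (s t : ClassGroup (𝓞 K)) : Odd (NI q (A.X s t)) := by
  rw [NI_X]
  exact (A.hS2 s).mul (A.hS2 t)

theorem Y_odd (s t : ClassGroup (𝓞 K)) : Odd (NI q (A.Y s t)) := by
  rw [NI_Y]
  exact ((A.hS2 s).mul (A.hS2 t)).mul A.hQ2

theorem M_pos (s t : ClassGroup (𝓞 K)) :
    (0 : ℝ) < (n * NI q (A.X s t) * NI q (A.Y s t) : ℕ) := by
  exact_mod_cast Nat.mul_pos (Nat.mul_pos q.d_pos (A.X_odd s t).pos) (A.Y_odd s t).pos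

theorem mem_LS_iff {s t : ClassGroup (𝓞 K)} {m : ℕ} {p : 𝓞 K × 𝓞 K} :
    p ∈ LS q hn4 (A.X s t) (A.Y s t) 1 m ↔
      p ∈ LL q hn4 (A.X s t) (A.Y s t) 1 ∧ normSq (A.emb s t p) = m := by
  rw [mem_LS q hn4 (A.X_ne hn4 s t) (A.Y_ne hn4 s t)]
  have h1 := A.emb_norm s t p
  have h2 := A.M_pos s t
  have h3 : NI q (A.Y s t) * q.N p.1 + 17 * (NI q (A.X s t) * q.N p.2) =
      n * NI q (A.X s t) * NI q (A.Y s t) * m ↔ normSq (A.emb s t p) = m := by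
    rw [← Nat.cast_inj (R := ℝ), ← h1, Nat.cast_mul _ m, mul_comm _ (m : ℝ),
      mul_left_inj' h2.ne']
  rw [h3]
  exact ⟨fun h => ⟨⟨h.1, h.2.1, h.2.2.1⟩, h.2.2.2⟩, fun h => ⟨h.1.1, h.1.2.1, h.1.2.2, h.2⟩⟩

theorem two_prim {s t : ClassGroup (𝓞 K)} {p : 𝓞 K × 𝓞 K}
    (hp : p ∈ LS q hn4 (A.X s t) (A.Y s t) 1 2) :
    2 ∣ q.N p.1 + q.N p.2 ∧ ¬ ((2 : 𝓞 K) ∣ p.1 ∧ (2 : 𝓞 K) ∣ p.2) := by
  rw [mem_LS q hn4 (A.X_ne hn4 s t) (A.Y_ne hn4 s t)] at hp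
  have h := hp.2.2.2
  have hodd : Odd (n * NI q (A.X s t) * NI q (A.Y s t)) :=
    ((Nat.odd_iff.mpr (by omega)).mul (A.X_odd s t)).mul (A.Y_odd s t)
  obtain ⟨k, hk⟩ := hodd
  rw [hk] at h
  constructor
  · obtain ⟨a, ha⟩ := A.X_odd s t
    obtain ⟨b, hb⟩ := A.Y_odd s t
    rw [ha, hb] at h
    have e : (2 * b + 1) * q.N p.1 + 17 * ((2 * a + 1) * q.N p.2) =
        2 * (b * q.N p.1 + (17 * a + 8) * q.N p.2) + (q.N p.1 + q.N p.2) := by ring
    omega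
  · rintro ⟨⟨x, hx⟩, ⟨y, hy⟩⟩
    have h4 : q.N (2 : 𝓞 K) = 4 := by
      have := N_nat q 2
      rwa [Nat.cast_ofNat] at this
    rw [hx, hy, N_mul, N_mul, h4] at h
    have e : NI q (A.Y s t) * (4 * q.N x) + 17 * (NI q (A.X s t) * (4 * q.N y)) =
        4 * (NI q (A.Y s t) * q.N x + 17 * (NI q (A.X s t) * q.N y)) := by ring
    omega

theorem half {s t u : ClassGroup (𝓞 K)} {p p' : 𝓞 K × 𝓞 K}
    (hp : p ∈ LS q hn4 (A.X s t) (A.Y s t) 1 2) (hp' : p' ∈ LS q hn4 (A.X s u) (A.Y s u) 1 2)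
    (h : colp q hn4 p = colp q hn4 p') : ∃ r ∈ LL q hn4 (A.X t u) (A.Y t u) 1,
      star (A.emb s t p) * A.emb s u p' = 2 * A.emb t u r := by
  obtain ⟨h1, h2⟩ := A.two_prim hn4 hp
  obtain ⟨h3, h4⟩ := A.two_prim hn4 hp'
  obtain ⟨c1, c2⟩ := colp_spec q hn4 h1 h2 h3 h4 h
  obtain ⟨r, hr, e0, e1, e2⟩ := A.mul_ex hn4 (A.star_mem hn4 ((A.mem_LS_iff hn4).mp hp).1)
    ((A.mem_LS_iff hn4).mp hp').1
  simp only at e1 e2
  have hno : Odd n := Nat.odd_iff.mpr (by omega)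
  obtain ⟨k, hk⟩ := A.hQ2
  have hk' : (NI q A.Q : 𝓞 K) = 2 * k + 1 := by rw [hk]; push_cast; ring
  have ht := q.t_sq
  obtain ⟨x, hx⟩ : (2 : 𝓞 K) ∣ r.1 := by
    apply two_dvd_of_odd ((hno.mul A.hQ2).mul (A.hS2 s))
    obtain ⟨w, hw⟩ := c1
    refine ⟨q.t * (NI q A.Q * w + (8 - k) * (p.2 * q.s p'.2)), ?_⟩
    push_cast
    linear_combination (-q.t) * e1 + (q.t * NI q A.Q) * hw +
      ((NI q A.Q : 𝓞 K) * NI q (A.S s) * r.1) * ht - (q.t * (p.2 * q.s p'.2)) * hk'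
  obtain ⟨y, hy⟩ : (2 : 𝓞 K) ∣ r.2 := by
    apply two_dvd_of_odd (hno.mul (A.hS2 s))
    obtain ⟨w, hw⟩ := c2
    refine ⟨q.t * (w - p.2 * q.s p'.1), ?_⟩
    push_cast
    linear_combination (-q.t) * e2 + q.t * hw + ((NI q (A.S s) : 𝓞 K) * r.2) * ht
  obtain ⟨m1, m2, m3⟩ := hr
  rw [hx] at m1 m3
  rw [hy] at m2 m3
  refine ⟨(x, y), ⟨mem_of_two q (A.X_odd t u) m1, mem_of_two q (A.Y_odd t u) m2, ?_⟩, ?_⟩
  · rw [map_mul, map_mul, map_ofNat, mul_left_comm, (two_unit hn4).mul_right_inj] at m3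
    exact m3
  · rw [emb_star, e0, two_mul, ← map_add]
    congr 1
    exact Prod.ext (by rw [hx, two_mul]; rfl) (by rw [hy, two_mul]; rfl)

/-- the system of lattices -/
noncomputable def bg (h17 : jacobiSym n 17 = -1) : BG (ClassGroup (𝓞 K)) where
  I s t := (LLs q hn4 (A.X s t) (A.Y s t) 1).map (A.emb s t)
  mul := by
    rintro s t u _ _ ⟨p, hp, rfl⟩ ⟨p', hp', rfl⟩
    obtain ⟨r, hr, e, -⟩ := A.mul_ex hn4 hp hp'
    exact ⟨r, hr, e.symm⟩
  star := by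
    rintro s t _ ⟨p, hp, rfl⟩
    exact ⟨_, A.star_mem hn4 hp, (A.emb_star s t p).symm⟩
  one s := by
    refine ⟨(q.t * NI q (A.S s), 0), ⟨?_, Ideal.zero_mem _, ?_⟩, ?_⟩
    · apply Ideal.mul_mem_left
      unfold X
      rw [mul_cj]
      exact Ideal.mem_span_singleton_self _
    · rw [map_mul, rho_t, map_zero, zero_mul, mul_zero]
    · rw [emb_apply, ← hq_one]
      congr 1
      · rw [map_mul, map_natCast, ← A.sg_sq]
        have h1 := ph_t_ne q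
        have h2 := A.sg_ne s
        field_simp
      · simp
  int := by
    rintro s t _ ⟨p, ⟨h1, h2, h3⟩, rfl⟩
    obtain ⟨k, hk⟩ := (A.gd s t).int hn4 h1 h2 h3
    refine ⟨k, ?_⟩
    have h4 := A.emb_norm s t p
    rw [hk, Nat.cast_mul _ k, mul_comm _ (k : ℝ), mul_left_inj' (A.M_pos s t).ne'] at h4
    rw [h4, Int.cast_natCast]
  S s t m := (LS q hn4 (A.X s t) (A.Y s t) 1 m).image (A.emb s t)
  mem_S := by
    intro s t m x
    rw [Finset.mem_image]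
    constructor
    · rintro ⟨p, hp, rfl⟩
      rw [mem_LS_iff] at hp
      exact ⟨⟨p, hp.1, rfl⟩, hp.2⟩
    · rintro ⟨⟨p, hp, rfl⟩, h⟩
      exact ⟨p, (A.mem_LS_iff hn4).mpr ⟨hp, h⟩, rfl⟩
  r2 s t := by
    rw [Finset.card_image_of_injective _ (A.emb_inj s t),
      Finset.card_image_of_injective _ (A.emb_inj s t)]
    have h := LS_coeff hn4 h17 (A.gd s t) 2
    rw [an_two T3, (by decide : cE 2 = 9)] at h
    omega
  r3 s t := by
    rw [Finset.card_image_of_injective _ (A.emb_inj s t)]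
    have h := LS_coeff hn4 h17 (A.gd s t) 3
    rw [an_three T3, (by decide : cE 3 = 12)] at h
    omega
  r5 s t := by
    rw [Finset.card_image_of_injective _ (A.emb_inj s t),
      Finset.card_image_of_injective _ (A.emb_inj s t)]
    have h := LS_coeff hn4 h17 (A.gd s t) 5
    rw [an_five T3, (by decide : cE 5 = 18)] at h
    omega
  col s t v := colp q hn4 (Function.invFun (A.emb s t) v)
  hcol := by
    intro s t u x y hx hy h
    obtain ⟨p, hp, rfl⟩ := Finset.mem_image.mp hx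
    obtain ⟨p', hp', rfl⟩ := Finset.mem_image.mp hy
    rw [Function.leftInverse_invFun (A.emb_inj s t),
      Function.leftInverse_invFun (A.emb_inj s u)] at h
    obtain ⟨r, hr, e⟩ := A.half hn4 hp hp' h
    exact ⟨_, ⟨r, hr, rfl⟩, e⟩

theorem exists_phi (h17 : jacobiSym n 17 = -1) : ∃ φ : ClassGroup (𝓞 K) → ℤ,
    (∀ s, φ s = 1 ∨ φ s = -3) ∧
      ∀ s t, 2 * ((LS q hn4 (A.X s t) (A.Y s t) 1 1).card : ℤ) - 3 = φ s * φ t := by
  obtain ⟨φ, h1, h2⟩ := (A.bg hn4 h17).exists_phi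
  refine ⟨φ, h1, fun s t => ?_⟩
  rw [← h2 s t, ← Finset.card_image_of_injective _ (A.emb_inj s t)]
  rfl

end Aux

include hn4 in
theorem exists_prime_ideal {r : ℕ} (hr : Nat.Coprime r n) (hJ : jacobiSym r n = 1) (B : ℕ) :
    ∃ P : Ideal (𝓞 K), (NI q P).Prime ∧ B < NI q P ∧ (NI q P : ZMod n) = r := by
  have : NeZero n := ⟨q.d_pos.ne'⟩
  obtain ⟨p, h1, h2, h3⟩ := Nat.forall_exists_prime_gt_and_eq_mod (q := n) (a := (r : ZMod n))
    ((ZMod.isUnit_iff_coprime r n).mpr hr) B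
  have h4 : jacobiSym p n = 1 := by
    rw [← hJ]
    apply jacobiSym.mod_left'
    have := (ZMod.natCast_eq_natCast_iff _ _ _).mp h3
    exact Int.natCast_modEq_iff.mpr this
  obtain ⟨P, hP, -⟩ := exists_split q hn4 h2 h4
  exact ⟨P, hP ▸ h2, hP ▸ h1, hP ▸ h3⟩

include hn4 in
theorem J_neg17 (h17 : jacobiSym n 17 = -1) : jacobiSym (-17) n = 1 := by
  have ho : Odd n := Nat.odd_iff.mpr (by omega)
  have h1 : jacobiSym 17 n = -1 := by
    rw [← h17]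
    exact jacobiSym.quadratic_reciprocity_one_mod_four (a := 17) (by norm_num) ho
  rw [jacobiSym.neg _ ho, ZMod.χ₄_nat_three_mod_four hn4, h1]
  norm_num

include hn4 in
theorem aux_nonempty (h17 : jacobiSym n 17 = -1) : Nonempty (Aux q) := by
  have : NeZero n := ⟨q.d_pos.ne'⟩
  obtain ⟨R, hR⟩ := exists_rep_odd q
  have hc := cop17 h17
  have h1 : ((-17 : ZMod n).val : ZMod n) = -17 := ZMod.natCast_zmod_val _
  obtain ⟨P, h2, h3, h4⟩ := exists_prime_ideal q hn4 (r := (-17 : ZMod n).val) (by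
      rw [← ZMod.isUnit_iff_coprime, h1]
      have := (ZMod.isUnit_iff_coprime 17 n).mpr hc
      rw [Nat.cast_ofNat] at this
      exact this.neg) (by
      rw [← J_neg17 hn4 h17]
      apply jacobiSym.mod_left'
      apply (ZMod.intCast_eq_intCast_iff _ _ _).mp
      push_cast
      exact h1) (17 * n)
  have hn0 := q.d_pos
  refine ⟨⟨R.X, P, fun s => by rw [rep_NI]; exact R.hcop s, fun s => by rw [rep_NI]; exact hR s,
    rep_cl R, ?_, h2.odd_of_ne_two (by omega), h4.trans h1⟩⟩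
  rw [Nat.Prime.coprime_iff_not_dvd h2]
  intro h
  exact absurd (Nat.le_of_dvd (by omega) h) (by omega)

end Vale.Agent.P014D
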