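import Mathlib

/-!
# P014 (D): counting isotropic lines modulo a squarefree odd integer
-/

open scoped Classical

namespace Vale.Agent.P014D

/-- the number of solutions of `l² b + c = 0`, `X = l Y` modulo `m` -/
noncomputable def lc (b c X Y : ℤ) (m : ℕ) : ℕ :=
  Nat.card {l : ZMod m // l ^ 2 * b + c = 0 ∧ (X : ZMod m) = l * Y}

theorem lc_one (b c X Y : ℤ) : lc b c X Y 1 = 1 := by
  unfold lc
  rw [Nat.card_eq_one_iff_unique]
  exact ⟨⟨fun x y => Subtype.ext (Subsingleton.elim _ _)⟩,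
    ⟨⟨0, Subsingleton.elim _ _, Subsingleton.elim _ _⟩⟩⟩

theorem lc_mul (b c X Y : ℤ) {m k : ℕ} (h : Nat.Coprime m k) :
    lc b c X Y (m * k) = lc b c X Y m * lc b c X Y k := by
  unfold lc
  rw [← Nat.card_prod]
  refine Nat.card_congr (((ZMod.chineseRemainder h).toEquiv.subtypeEquiv 
    (q := fun p : ZMod m × ZMod k => (p.1 ^ 2 * (b : ZMod m) + c = 0 ∧ (X : ZMod m) = p.1 * Y) ∧
      (p.2 ^ 2 * (b : ZMod k) + c = 0 ∧ (X : ZMod k) = p.2 * Y)) fun l => ?_).trans
    (Equiv.subtypeProdEquivProd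
      (p := fun l : ZMod m => l ^ 2 * (b : ZMod m) + c = 0 ∧ (X : ZMod m) = l * Y)
      (q := fun l : ZMod k => l ^ 2 * (b : ZMod k) + c = 0 ∧ (X : ZMod k) = l * Y)))
  set e := ZMod.chineseRemainder h with he
  have e1 : (l ^ 2 * b + c = 0) ↔ (e l) ^ 2 * b + c = 0 := by
    rw [← map_eq_zero_iff e e.injective, map_add, map_mul, map_pow, map_intCast, map_intCast]
  have e2 : ((X : ZMod (m * k)) = l * Y) ↔ (X : ZMod m × ZMod k) = e l * Y := by
    rw [← e.injective.eq_iff, map_mul, map_intCast, map_intCast]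
  rw [e1, e2, Prod.ext_iff, Prod.ext_iff]
  simp only [Prod.fst_add, Prod.snd_add, Prod.fst_mul, Prod.snd_mul, Prod.pow_fst, Prod.pow_snd,
    Prod.fst_intCast, Prod.snd_intCast, Prod.fst_zero, Prod.snd_zero]
  show _ ↔ ((e l).1 ^ 2 * b + c = 0 ∧ _ = (e l).1 * _) ∧ ((e l).2 ^ 2 * b + c = 0 ∧ _ = (e l).2 * _)
  tauto

theorem lc_prod (b c X Y : ℤ) (S : Finset ℕ) (hS : ∀ p ∈ S, p.Prime) :
    lc b c X Y (∏ p ∈ S, p) = ∏ p ∈ S, lc b c X Y p := by
  induction S using Finset.induction_on with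
  | empty => simpa using lc_one b c X Y
  | insert p S hp ih =>
    rw [Finset.prod_insert hp, Finset.prod_insert hp, lc_mul,
      ih fun r hr => hS r (Finset.mem_insert_of_mem hr)]
    apply Nat.Coprime.prod_right
    intro r hr
    rw [Nat.coprime_primes (hS p (Finset.mem_insert_self _ _))
      (hS r (Finset.mem_insert_of_mem hr))]
    rintro rfl
    exact hp hr

theorem lc_prime {b c : ℤ} (X Y : ℤ) {p : ℕ} (hp : p.Prime) (hp2 : p ≠ 2) (hb : ¬ (p : ℤ) ∣ b)
    (hc : ¬ (p : ℤ) ∣ c) :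
    (lc b c X Y p : ℤ) = (if (p : ℤ) ∣ X ∧ (p : ℤ) ∣ Y then 1 else 0) +
      jacobiSym (-(c * b)) p * (if (p : ℤ) ∣ b * X ^ 2 + c * Y ^ 2 then 1 else 0) := by
  have := Fact.mk hp
  rw [← ZMod.intCast_zmod_eq_zero_iff_dvd] at hb hc
  simp only [← ZMod.intCast_zmod_eq_zero_iff_dvd]
  rw [← jacobiSym.legendreSym.to_jacobiSym]
  unfold lc
  push_cast
  by_cases hY : (Y : ZMod p) = 0
  · by_cases hX : (X : ZMod p) = 0
    · rw [if_pos ⟨hX, hY⟩, if_pos (by rw [hX, hY]; ring), mul_one, add_comm,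
        ← legendreSym.card_sqrts p hp2, ← Nat.card_eq_card_toFinset]
      congr 1
      refine Nat.card_congr ((Equiv.mulRight₀ (b : ZMod p) hb).subtypeEquiv fun l => ?_)
      rw [hX, hY, Equiv.mulRight₀_apply, Set.mem_ofPred_eq]
      push_cast
      constructor
      · rintro ⟨h, -⟩
        linear_combination (b : ZMod p) * h
      · intro h
        refine ⟨mul_right_cancel₀ hb ?_, by ring⟩
        linear_combination h
    · rw [if_neg (fun h => hX h.1), if_neg, mul_zero, add_zero]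
      · rw [Nat.cast_eq_zero, Nat.card_eq_zero]
        left
        refine ⟨fun ⟨l, _, hl⟩ => hX ?_⟩
        rw [hl, hY, mul_zero]
      · rw [hY]
        intro h
        apply mul_ne_zero hb (pow_ne_zero 2 hX)
        linear_combination h
  · rw [if_neg (fun h => hY h.2), zero_add]
    split_ifs with h
    · have h1 : legendreSym p (-(c * b)) = 1 := by
        rw [legendreSym.eq_one_iff]
        · refine ⟨b * X / Y, ?_⟩
          push_cast
          field_simp
          linear_combination -h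
        · push_cast
          exact neg_ne_zero.mpr (mul_ne_zero hc hb)
      rw [h1, mul_one, Nat.cast_eq_one, Nat.card_eq_one_iff_unique]
      refine ⟨⟨fun x y => Subtype.ext (mul_right_cancel₀ hY (x.2.2.symm.trans y.2.2))⟩,
        ⟨⟨X / Y, ?_, ?_⟩⟩⟩
      · field_simp
        linear_combination h
      · field_simp
    · rw [mul_zero, Nat.cast_eq_zero, Nat.card_eq_zero]
      left
      refine ⟨fun l => h ?_⟩
      rw [l.2.2]
      linear_combination (Y : ZMod p) ^ 2 * l.2.1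

theorem lc_sqf {b c : ℤ} (X Y : ℤ) {n : ℕ} (hn : Squarefree n) (ho : Odd n)
    (hb : ∀ p : ℕ, p.Prime → p ∣ n → ¬ (p : ℤ) ∣ b)
    (hc : ∀ p : ℕ, p.Prime → p ∣ n → ¬ (p : ℤ) ∣ c) :
    (lc b c X Y n : ℤ) = ∏ p ∈ n.primeFactors, ((if (p : ℤ) ∣ X ∧ (p : ℤ) ∣ Y then 1 else 0) +
      jacobiSym (-(c * b)) p * (if (p : ℤ) ∣ b * X ^ 2 + c * Y ^ 2 then 1 else 0)) := by
  nth_rewrite 1 [← Nat.prod_primeFactors_of_squarefree hn]
  rw [lc_prod _ _ _ _ _ fun p hp => Nat.prime_of_mem_primeFactors hp, Nat.cast_prod]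
  refine Finset.prod_congr rfl fun p hp => ?_
  have h1 := Nat.prime_of_mem_primeFactors hp
  have h2 := Nat.dvd_of_mem_primeFactors hp
  refine lc_prime X Y h1 ?_ (hb p h1 h2) (hc p h1 h2)
  rintro rfl
  exact (Nat.not_even_iff_odd.mpr ho) (even_iff_two_dvd.mpr h2)

theorem prod_one_add_J (c : ℤ) {n : ℕ} (hn : Squarefree n) :
    ∏ p ∈ n.primeFactors, (1 + jacobiSym c p) = ∑ e ∈ n.divisors, jacobiSym c e := by
  let f : ArithmeticFunction ℤ := ⟨fun e => if e = 0 then 0 else jacobiSym c e, if_pos rfl⟩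
  have hf : ∀ e, e ≠ 0 → f e = jacobiSym c e := fun e he => if_neg he
  have h1 : f.IsMultiplicative := by
    rw [ArithmeticFunction.IsMultiplicative.iff_ne_zero]
    refine ⟨by rw [hf 1 one_ne_zero, jacobiSym.one_right], fun {a b} ha hb _ => ?_⟩
    rw [hf _ (mul_ne_zero ha hb), hf _ ha, hf _ hb, jacobiSym.mul_right' _ ha hb]
  have h2 := h1.prodPrimeFactors_one_add_of_squarefree hn
  rw [Finset.prod_congr rfl fun p hp => by
    rw [hf p (Nat.prime_of_mem_primeFactors hp).ne_zero]] at h2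
  rw [h2]
  exact Finset.sum_congr rfl fun e he => hf e (Nat.pos_of_mem_divisors he).ne'

end Vale.Agent.P014D
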