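import Vale.Agent.P014D.Count
import Vale.Agent.P014D.Wt

/-!
# P014 (D): the theta series of the lattices attached to pairs of ideals
-/

open NumberField Complex
open UpperHalfPlane hiding I
open scoped Classical Real

namespace Vale.Agent.P014D

open Vale.Agent.P017.H185 Vale.Agent.P014.H70 Vale.Agent.P014B Vale.Agent.P014.H687
open Vale.Agent.P004H.H204 (qq)

/-- the coefficients of a form of weight two and level `17` -/
theorem M2_coeff (g : ModularForm Gm 2) (m : ℕ) :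
    (qExpansion 1 g).coeff m = (qExpansion 1 g).coeff 0 / 2 * (cE m : ℂ) +
      ((qExpansion 1 g).coeff 1 - 3 * ((qExpansion 1 g).coeff 0 / 2)) * (an r3 m : ℂ) := by
  have T : TD Th3 r3 := T3
  have h1 : (1 : ℝ) ∈ Gm.strictPeriods := by simp
  set b0 : ℂ := (qExpansion 1 g).coeff 0 with hb0
  set b1 : ℂ := (qExpansion 1 g).coeff 1 with hb1
  set u : ℂ := b0 / 2 with hu
  set v : ℂ := b1 - 3 * u with hv
  set h : ModularForm Gm 2 := g - (u • ec_form.mf + v • (F_form' T).mf) with hh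
  have e1 : qExpansion 1 h = qExpansion 1 g -
      (u • qExpansion 1 ec_form.mf + v • qExpansion 1 (F_form' T).mf) := by
    have e2 := ModularForm.qExpansion_sub (Γ := Gm) one_pos h1 g
      (u • ec_form.mf + v • (F_form' T).mf)
    have e3 := ModularForm.qExpansion_add (Γ := Gm) one_pos h1 (u • ec_form.mf)
      (v • (F_form' T).mf)
    have e4 := ModularForm.qExpansion_smul (Γ := Gm) one_pos h1 u ec_form.mf
    have e5 := ModularForm.qExpansion_smul (Γ := Gm) one_pos h1 v (F_form' T).mf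
    rw [← e4, ← e5]
    exact e2.trans (congrArg _ e3)
  have hc : ∀ n, (qExpansion 1 h).coeff n = (qExpansion 1 g).coeff n -
      (u * (cE n : ℂ) + v * (an r3 n : ℂ)) := by
    intro n
    rw [e1, map_sub, map_add, PowerSeries.coeff_smul, PowerSeries.coeff_smul, ec_form.coeff,
      (F_form' T).coeff, smul_eq_mul, smul_eq_mul]
  have c0 : cE 0 = 2 := by decide
  have c1 : cE 1 = 3 := by decide
  have h0 : (qExpansion 1 h).coeff 0 = 0 := by
    rw [hc, an_zero T, c0, ← hb0, hu]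
    push_cast
    ring
  have h1' : (qExpansion 1 h).coeff 1 = 0 := by
    rw [hc, an_one T, c1, ← hb1, hv]
    push_cast
    ring
  have hz := M2_zero h h0 h1'
  have h2 := hc m
  rw [hz] at h2
  have h3 : (qExpansion 1 (0 : ModularForm Gm 2)).coeff m = 0 := by
    have : qExpansion 1 (0 : ModularForm Gm 2) = 0 := UpperHalfPlane.qExpansion_zero 1
    rw [this]
    simp
  rw [h3] at h2
  linear_combination (-1 : ℂ) * h2

theorem lat_coeff (A : Vale.Agent.P014.H70.Lat) (m : ℕ) :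
    2 * (A.rn m : ℤ) = cE m + (2 * (A.rn 1 : ℤ) - 3) * an r3 m := by
  have h := M2_coeff A.mf m
  rw [← A.rn_eq, ← A.rn_eq, ← A.rn_eq, A.rn_zero] at h
  have : ((2 * (A.rn m : ℤ) : ℤ) : ℂ) = ((cE m + (2 * (A.rn 1 : ℤ) - 3) * an r3 m : ℤ) : ℂ) := by
    push_cast at h ⊢
    linear_combination 2 * h
  exact_mod_cast this

variable {K : Type} [Field K] [NumberField K] {n : ℕ} (q : QF K n) (hn4 : n % 4 = 3)

/-- the elements of norm at most `M` -/
noncomputable def BN (M : ℕ) : Finset (𝓞 K) := (Finset.range (M + 1)).biUnion (EN q)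

theorem mem_BN {M : ℕ} {x : 𝓞 K} : x ∈ BN q M ↔ q.N x ≤ M := by
  unfold BN
  simp only [Finset.mem_biUnion, Finset.mem_range, mem_EN]
  constructor
  · rintro ⟨a, h1, h2⟩
    omega
  · intro h
    exact ⟨_, by omega, rfl⟩

/-- the vectors of norm `m` in the lattice attached to `X`, `Y`, `l` -/
noncomputable def LS (X Y : Ideal (𝓞 K)) (l : ZMod n) (m : ℕ) : Finset (𝓞 K × 𝓞 K) :=
  (BN q (n * NI q X * m) ×ˢ BN q (n * NI q Y * m)).filter fun p =>
    p.1 ∈ X ∧ p.2 ∈ Y ∧ rho q hn4 p.1 = l * rho q hn4 p.2 ∧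
      NI q Y * q.N p.1 + 17 * (NI q X * q.N p.2) = n * NI q X * NI q Y * m

theorem mem_LS {X Y : Ideal (𝓞 K)} (hX : X ≠ ⊥) (hY : Y ≠ ⊥) {l : ZMod n} {m : ℕ}
    {p : 𝓞 K × 𝓞 K} : p ∈ LS q hn4 X Y l m ↔
    p.1 ∈ X ∧ p.2 ∈ Y ∧ rho q hn4 p.1 = l * rho q hn4 p.2 ∧
      NI q Y * q.N p.1 + 17 * (NI q X * q.N p.2) = n * NI q X * NI q Y * m := by
  unfold LS
  rw [Finset.mem_filter, Finset.mem_product, mem_BN, mem_BN]
  refine ⟨fun h => h.2, fun h => ⟨⟨?_, ?_⟩, h⟩⟩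
  · apply Nat.le_of_mul_le_mul_left _ (Nat.pos_of_ne_zero (NI_ne_zero q hY))
    have := h.2.2.2
    calc NI q Y * q.N p.1 ≤ n * NI q X * NI q Y * m := by omega
      _ = _ := by ring
  · apply Nat.le_of_mul_le_mul_left _ (Nat.pos_of_ne_zero (NI_ne_zero q hX))
    have := h.2.2.2
    calc NI q X * q.N p.2 ≤ n * NI q X * NI q Y * m := by omega
      _ = _ := by ring

/-- admissible data -/
structure Gd (X Y : Ideal (𝓞 K)) (l : ZMod n) : Prop where
  hX : Nat.Coprime (NI q X) n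
  hY : Nat.Coprime (NI q Y) (17 * n)
  hl : l ^ 2 * NI q Y + 17 * NI q X = 0

variable {q}

include hn4 in
theorem ne_bot_of_cop {X : Ideal (𝓞 K)} (h : Nat.Coprime (NI q X) n) : X ≠ ⊥ := by
  rintro rfl
  rw [NI_bot, Nat.coprime_zero_left] at h
  omega

theorem cop17 (h17 : jacobiSym n 17 = -1) : Nat.Coprime 17 n := by
  rw [Nat.Prime.coprime_iff_not_dvd (by norm_num)]
  rintro ⟨k, rfl⟩
  rw [Nat.cast_mul, jacobiSym.mul_left] at h17
  norm_num at h17

theorem Gd.unit {X Y : Ideal (𝓞 K)} {l : ZMod n} (h : Gd q X Y l) (h17 : jacobiSym n 17 = -1) :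
    IsUnit l := by
  have h1 : IsUnit ((17 * NI q X : ℕ) : ZMod n) :=
    (ZMod.isUnit_iff_coprime _ _).mpr (Nat.Coprime.mul_left (cop17 h17) h.hX)
  have h2 : ((17 * NI q X : ℕ) : ZMod n) = l * (-(l * NI q Y)) := by
    push_cast
    linear_combination h.hl
  rw [h2] at h1
  exact isUnit_of_mul_isUnit_left h1

theorem exists_dat (h17 : jacobiSym n 17 = -1) {X Y : Ideal (𝓞 K)} {l : ZMod n}
    (h : Gd q X Y l) : ∃ A : Vale.Agent.P014.H70.Lat, ∀ m, A.rn m = (LS q hn4 X Y l m).card := by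
  have : NeZero n := ⟨q.d_pos.ne'⟩
  have hX := ne_bot_of_cop hn4 h.hX
  have hYn : Nat.Coprime (NI q Y) n := Nat.Coprime.coprime_mul_left_right h.hY
  have hY := ne_bot_of_cop hn4 hYn
  have hc17 := cop17 h17
  have u17 : IsUnit ((17 : ℕ) : ZMod n) := (ZMod.isUnit_iff_coprime _ _).mpr hc17
  obtain ⟨w, hw⟩ := u17.exists_right_inv
  rw [Nat.cast_ofNat] at hw
  obtain ⟨c, hc0, hc1, hc2⟩ : ∃ c : ℕ, 0 < c ∧ ¬ 17 ∣ c ∧ -17 * (c : ZMod n) = l := by
    have hn17 : ¬ 17 ∣ n := (Nat.Prime.coprime_iff_not_dvd (by norm_num)).mp hc17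
    have hn0 := q.d_pos
    by_cases h1 : 17 ∣ (-(l * w)).val + n
    · refine ⟨(-(l * w)).val + n + n, by omega, by omega, ?_⟩
      push_cast
      rw [ZMod.natCast_zmod_val, ZMod.natCast_self]
      linear_combination l * hw
    · refine ⟨(-(l * w)).val + n, by omega, h1, ?_⟩
      push_cast
      rw [ZMod.natCast_zmod_val, ZMod.natCast_self]
      linear_combination l * hw
  have hcn : Nat.Coprime c n := by
    rw [← ZMod.isUnit_iff_coprime]
    have := h.unit h17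
    rw [← hc2] at this
    exact isUnit_of_mul_isUnit_right this
  have hcO : (c : 𝓞 K) ≠ 0 := by exact_mod_cast hc0.ne'
  let E : Dat q :=
    { X := X
      Y := Ideal.span {(c : 𝓞 K)} * Y
      a := NI q X
      b := c * c * NI q Y
      ha := Nat.pos_of_ne_zero (NI_ne_zero q hX)
      hb := Nat.mul_pos (Nat.mul_pos hc0 hc0) (Nat.pos_of_ne_zero (NI_ne_zero q hY))
      hX := hasN_NI q X
      hY := by
        rw [← NI_nat q, ← NI_mul]
        exact hasN_NI q _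
      hn4 := hn4
      hn17 := by
        have := ZMod.nonsquare_of_jacobiSym_eq_neg_one h17
        rwa [Int.cast_natCast] at this
      han := h.hX
      hbn := Nat.Coprime.mul_left (Nat.Coprime.mul_left hcn hcn) hYn
      hb17 := by
        intro h1
        rcases (Nat.Prime.dvd_mul (by norm_num)).mp h1 with h2 | h2
        · rcases (Nat.Prime.dvd_mul (by norm_num)).mp h2 with h3 | h3 <;> exact hc1 h3
        · have h3 : Nat.Coprime (NI q Y) 17 := Nat.Coprime.coprime_mul_right_right h.hY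
          exact absurd (Nat.dvd_gcd h2 dvd_rfl) (by rw [h3]; norm_num)
      hab := by
        rw [← ZMod.natCast_eq_zero_iff]
        have h1 := h.hl
        rw [← hc2] at h1
        push_cast
        linear_combination w * h1 - ((NI q X : ZMod n) + 17 * (c * c * NI q Y)) * hw }
  refine ⟨E.lat, fun m => ?_⟩
  rw [E.lat_rn, ← Nat.card_eq_finsetCard]
  symm
  have hN : ∀ y : 𝓞 K, q.N ((c : 𝓞 K) * y) = c * c * q.N y := fun y => by rw [N_mul, N_nat]
  have hr : ∀ x y : 𝓞 K, q.t ∣ x + 17 * ((c : 𝓞 K) * y) ↔ rho q hn4 x = l * rho q hn4 y := by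
    intro x y
    rw [← rho_eq_zero q hn4, map_add, map_mul, map_mul, map_natCast, map_ofNat, ← hc2]
    constructor <;> intro h1 <;> linear_combination h1
  have hcc : 0 < c * c := Nat.mul_pos hc0 hc0
  refine Nat.card_congr (Equiv.ofBijective (fun p => ⟨(p.1.1, (c : 𝓞 K) * p.1.2), ?_⟩) ⟨?_, ?_⟩)
  · obtain ⟨h1, h2, h3, h4⟩ := (mem_LS q hn4 hX hY).mp p.2
    refine ⟨h1, Ideal.mul_mem_mul (Ideal.mem_span_singleton_self _) h2, (hr _ _).mpr h3, ?_⟩
    show c * c * NI q Y * q.N p.1.1 + 17 * (NI q X * q.N ((c : 𝓞 K) * p.1.2)) =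
      n * NI q X * (c * c * NI q Y) * m
    rw [hN]
    linear_combination (c * c) * h4
  · intro p p' h1
    have h2 := congrArg Subtype.val h1
    simp only [Prod.mk.injEq] at h2
    exact Subtype.ext (Prod.ext h2.1 (mul_left_cancel₀ hcO h2.2))
  · rintro ⟨⟨x, y'⟩, h1, h2, h3, h4⟩
    obtain ⟨y, hy, rfl⟩ := Ideal.mem_span_singleton_mul.mp h2
    refine ⟨⟨(x, y), (mem_LS q hn4 hX hY).mpr ⟨h1, hy, (hr _ _).mp h3, ?_⟩⟩, rfl⟩
    have h5 : c * c * NI q Y * q.N x + 17 * (NI q X * q.N ((c : 𝓞 K) * y)) =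
      n * NI q X * (c * c * NI q Y) * m := h4
    rw [hN] at h5
    apply Nat.eq_of_mul_eq_mul_left hcc
    linear_combination h5

theorem LS_coeff (h17 : jacobiSym n 17 = -1) {X Y : Ideal (𝓞 K)} {l : ZMod n}
    (h : Gd q X Y l) (m : ℕ) : 2 * ((LS q hn4 X Y l m).card : ℤ) =
      cE m + (2 * ((LS q hn4 X Y l 1).card : ℤ) - 3) * an r3 m := by
  obtain ⟨A, hA⟩ := exists_dat hn4 h17 h
  rw [← hA, ← hA]
  exact lat_coeff A m

theorem Gd.int {X Y : Ideal (𝓞 K)} {l : ZMod n} (h : Gd q X Y l) {x y : 𝓞 K} (hx : x ∈ X)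
    (hy : y ∈ Y) (hxy : rho q hn4 x = l * rho q hn4 y) :
    n * NI q X * NI q Y ∣ NI q Y * q.N x + 17 * (NI q X * q.N y) := by
  obtain ⟨u, hu⟩ := NI_dvd_N q hx
  obtain ⟨v, hv⟩ := NI_dvd_N q hy
  have h1 := rho_sq q hn4 x
  have h2 := rho_sq q hn4 y
  rw [hu, hxy] at h1
  rw [hv] at h2
  have h3 : n ∣ u + 17 * v := by
    apply (Nat.Coprime.symm h.hX).dvd_of_dvd_mul_left
    rw [← ZMod.natCast_eq_zero_iff]
    push_cast at h1 h2 ⊢
    linear_combination -h1 + l ^ 2 * h2 + (v : ZMod n) * h.hl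
  obtain ⟨k, hk⟩ := h3
  refine ⟨k, ?_⟩
  rw [hu, hv]
  linear_combination (NI q X * NI q Y) * hk

variable (q) in
/-- the term of the theta series -/
noncomputable def tm (a b : ℕ) (z : ℂ) (p : 𝓞 K × 𝓞 K) : ℂ :=
  cexp (2 * π * I * z * ((((q.N p.1 : ℝ) / a + 17 * (q.N p.2 : ℝ) / b) / n : ℝ)))

theorem summable_tm {a b : ℕ} (ha : a ≠ 0) (hb : b ≠ 0) {z : ℂ} (hz : 0 < z.im) :
    Summable (tm q a b z) := by
  have ha' : (0 : ℝ) < a := by exact_mod_cast Nat.pos_of_ne_zero ha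
  have hb' : (0 : ℝ) < b := by exact_mod_cast Nat.pos_of_ne_zero hb
  have hn' : (0 : ℝ) < n := by exact_mod_cast q.d_pos
  have h1 := summable_N q hz (r := 1 / (a * n)) (by positivity)
  have h2 := summable_N q hz (r := 17 / (b * n)) (by positivity)
  refine (Summable.of_norm (summable_norm_mul h1 h2)).congr fun p => ?_
  unfold tm
  rw [← Complex.exp_add, ← mul_add, ← Complex.ofReal_add]
  congr 3
  field_simp

variable (q) in
/-- the lattice -/
def LL (X Y : Ideal (𝓞 K)) (l : ZMod n) : Set (𝓞 K × 𝓞 K) :=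
  {p | p.1 ∈ X ∧ p.2 ∈ Y ∧ rho q hn4 p.1 = l * rho q hn4 p.2}

theorem hasSum_LL {X Y : Ideal (𝓞 K)} {l : ZMod n} (h : Gd q X Y l) {z : ℂ} (hz : 0 < z.im) :
    HasSum (fun m : ℕ => ((LS q hn4 X Y l m).card : ℂ) * qq z ^ m)
      (∑' p, (LL q hn4 X Y l).indicator (tm q (NI q X) (NI q Y) z) p) := by
  have hX := ne_bot_of_cop hn4 h.hX
  have hY := ne_bot_of_cop hn4 (Nat.Coprime.coprime_mul_left_right h.hY)
  have ha := NI_ne_zero q hX
  have hb := NI_ne_zero q hY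
  have hpos : 0 < n * NI q X * NI q Y :=
    Nat.mul_pos (Nat.mul_pos q.d_pos (Nat.pos_of_ne_zero ha)) (Nat.pos_of_ne_zero hb)
  refine (regroup ((summable_tm ha hb hz).indicator _)
    (fun p => (NI q Y * q.N p.1 + 17 * (NI q X * q.N p.2)) / (n * NI q X * NI q Y))
    (LS q hn4 X Y l) ?_ ?_).congr_fun fun m => ?_
  · intro m p hp
    rw [mem_LS q hn4 hX hY] at hp
    show (NI q Y * q.N p.1 + 17 * (NI q X * q.N p.2)) / (n * NI q X * NI q Y) = m
    rw [hp.2.2.2, Nat.mul_div_cancel_left _ hpos]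
  · intro p hp
    have h2 : p ∈ LL q hn4 X Y l := by
      by_contra h3
      exact hp (Set.indicator_of_notMem h3 _)
    rw [mem_LS q hn4 hX hY]
    exact ⟨h2.1, h2.2.1, h2.2.2, (Nat.mul_div_cancel' (h.int hn4 h2.1 h2.2.1 h2.2.2)).symm⟩
  · rw [Finset.card_eq_sum_ones, Nat.cast_sum, Finset.sum_mul]
    refine Finset.sum_congr rfl fun p hp => ?_
    rw [mem_LS q hn4 hX hY] at hp
    rw [Set.indicator_of_mem (show p ∈ LL q hn4 X Y l from ⟨hp.1, hp.2.1, hp.2.2.1⟩), qq_pow,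
      Nat.cast_one, one_mul]
    unfold tm
    congr 2
    have h1 : ((NI q Y * q.N p.1 + 17 * (NI q X * q.N p.2) : ℕ) : ℂ) =
        ((n * NI q X * NI q Y * m : ℕ) : ℂ) := by rw [hp.2.2.2]
    have ha' : ((NI q X : ℕ) : ℂ) ≠ 0 := by exact_mod_cast ha
    have hb' : ((NI q Y : ℕ) : ℂ) ≠ 0 := by exact_mod_cast hb
    have hn' : ((n : ℕ) : ℂ) ≠ 0 := by exact_mod_cast q.d_pos.ne'
    push_cast at h1 ⊢
    field_simp
    linear_combination -h1

theorem theta_LL (h17 : jacobiSym n 17 = -1) {X Y : Ideal (𝓞 K)} {l : ZMod n} (h : Gd q X Y l)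
    {z : ℂ} (hz : 0 < z.im) :
    2 * ∑' p, (LL q hn4 X Y l).indicator (tm q (NI q X) (NI q Y) z) p =
      ec z + ((2 * ((LS q hn4 X Y l 1).card : ℤ) - 3 : ℤ) : ℂ) * Fc Th3 z := by
  have h1 := (hasSum_LL hn4 h hz).mul_left 2
  have h2 := (hasSum_ec hz).add (((F_form' T3).sum z hz).mul_left
    ((2 * ((LS q hn4 X Y l 1).card : ℤ) - 3 : ℤ) : ℂ))
  refine h1.unique (h2.congr_fun fun m => ?_)
  have h3 := congrArg (Int.cast : ℤ → ℂ) (LS_coeff hn4 h17 h m)
  push_cast at h3 ⊢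
  linear_combination qq z ^ m * h3

/-- the isotropic lines -/
noncomputable def Lam (n : ℕ) [NeZero n] (a b : ℕ) : Finset (ZMod n) :=
  Finset.univ.filter fun l => l ^ 2 * b + 17 * a = 0

theorem mem_Lam [NeZero n] {a b : ℕ} {l : ZMod n} : l ∈ Lam n a b ↔ l ^ 2 * b + 17 * a = 0 := by
  unfold Lam
  rw [Finset.mem_filter]
  exact ⟨fun h => h.2, fun h => ⟨Finset.mem_univ _, h⟩⟩

theorem not_dvd_of_cop {a : ℕ} (h : Nat.Coprime a n) (p : ℕ) (hp : p.Prime) (hpn : p ∣ n) :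
    ¬ (p : ℤ) ∣ (a : ℤ) := by
  intro h1
  have h2 : p ∣ a := by exact_mod_cast h1
  exact hp.one_lt.ne' (Nat.dvd_one.mp (h ▸ Nat.dvd_gcd h2 hpn))

theorem wt_eq [NeZero n] (h17 : jacobiSym n 17 = -1) {a b : ℕ} (ha : Nat.Coprime a n)
    (hb : Nat.Coprime b n) (x y : 𝓞 K) :
    wt q a b x y = ∑ l ∈ Lam n a b, if rho q hn4 x = l * rho q hn4 y then 1 else 0 := by
  have h1 := lc_sqf (b := b) (c := 17 * a) (tr q x) (tr q y) q.hd (Nat.odd_iff.mpr (by omega))
    (not_dvd_of_cop hb) (by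
      have := not_dvd_of_cop (Nat.Coprime.mul_left (cop17 h17) ha)
      push_cast at this
      exact this)
  unfold wt
  rw [← h1, Finset.sum_boole]
  congr 1
  unfold lc
  rw [← Nat.card_eq_finsetCard]
  refine Nat.card_congr (Equiv.subtypeEquivRight fun l => ?_)
  rw [Finset.mem_filter, mem_Lam, ← two_rho q hn4, ← two_rho q hn4]
  push_cast
  refine and_congr Iff.rfl ?_
  rw [mul_left_comm, (two_unit hn4).mul_right_inj]

theorem thW_eq [NeZero n] (h17 : jacobiSym n 17 = -1) {X Y : Ideal (𝓞 K)}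
    (hX : Nat.Coprime (NI q X) n) (hY : Nat.Coprime (NI q Y) n) {z : ℂ} (hz : 0 < z.im) :
    thW q X Y (NI q X) (NI q Y) z = ∑ l ∈ Lam n (NI q X) (NI q Y),
      ∑' p, (LL q hn4 X Y l).indicator (tm q (NI q X) (NI q Y) z) p := by
  have ha := NI_ne_zero q (ne_bot_of_cop hn4 hX)
  have hb := NI_ne_zero q (ne_bot_of_cop hn4 hY)
  rw [← Summable.tsum_finsetSum fun l _ => (summable_tm ha hb hz).indicator _]
  set g : 𝓞 K × 𝓞 K → ℂ := fun p => (wt q (NI q X) (NI q Y) p.1 p.2 : ℂ) *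
    tm q (NI q X) (NI q Y) z p with hg
  have h1 : thW q X Y (NI q X) (NI q Y) z =
      ∑' p : ((X : Set (𝓞 K)) ×ˢ (Y : Set (𝓞 K)) : Set (𝓞 K × 𝓞 K)), g p := by
    rw [← (Equiv.Set.prod (X : Set (𝓞 K)) (Y : Set (𝓞 K))).symm.tsum_eq]
    rfl
  rw [h1, tsum_subtype _ g]
  refine tsum_congr fun p => ?_
  by_cases hp : p ∈ ((X : Set (𝓞 K)) ×ˢ (Y : Set (𝓞 K)) : Set (𝓞 K × 𝓞 K))
  · rw [Set.indicator_of_mem hp, hg]
    simp only
    rw [wt_eq hn4 h17 hX hY]
    push_cast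
    rw [Finset.sum_mul]
    refine Finset.sum_congr rfl fun l _ => ?_
    by_cases h2 : rho q hn4 p.1 = l * rho q hn4 p.2
    · rw [if_pos h2, one_mul,
        Set.indicator_of_mem (show p ∈ LL q hn4 X Y l from ⟨hp.1, hp.2, h2⟩)]
    · rw [if_neg h2, zero_mul, Set.indicator_of_notMem fun h => h2 h.2.2]
  · rw [Set.indicator_of_notMem hp]
    symm
    exact Finset.sum_eq_zero fun l _ => Set.indicator_of_notMem (fun h => hp ⟨h.1, h.2.1⟩) _

end Vale.Agent.P014D
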